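import Claimed.Agent.R257.FR2.PathDef

/-!
# ROW 257, package FR2, file 4: ANGULAR DATA of one profile block (strips, plate hierarchy, macro boxes)      (helper37; shared by ANG = helper90 and BROAD = helper37)

Paper-free; nothing is sorried here.   Paper: H `frame.tex` l.1010-1138 (`f:angular`).   Plan: `FR2/Notes.lean`, part ANG.
NO `prop`, NO casts: every error field of ANG / BROAD is the field of a tree with ONE MODIFIED MASK, `fld (upd S mu P)`, its actual amplitudes are `am (upd S mu P)`; all heights are absolute.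
* `TSys.upd S i P`      the masks `S` with the mask of height `i` replaced by `P`.
* `TSys.Hier1 pp L i κ U` one step of the hierarchy estimate at the exponent `pp` with the loss `L` for the families supported in `U`, weights dominated through the kernel `κ` (`Ok.hier` = `Hier1 q L i (eh i) ⊤`).
* `TAng 𝔖 𝔊`            `lam` = height of the cap parameter `l`; `bot ≤ lam` = lowest mesh height of the block; strips `σ` of mesh height `lev σ ∈ [bot, lam)`;
                        `sin i σ τ` (`lev σ ≤ i ≤ lam`): the cap `τ` meets the enlarged strip; `under i σ T := sin i σ (cap i T)`, `inStr i σ ω := sin i σ (anc i ω)`;   macro boxes `BB`, `Bx`, macro weights `Psi B i T` (`bot ≤ i ≤ lam`);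
                        `up i` = the `lam`-ancestor of a cap of height `i ≤ lam`.
                        THREE KERNELS `ehh ≤ eh ≤ e`: (HP), (HQ) hold with weights dominated through `ehh`; (PSI) edge comparability `Ψ(T)^{2/(p-2)} ehh ≤ Ψ(T')^{2/(p-2)} eh`:
                        so the conjugated weights `b Ψ^{-1/(p-2)}` are admissible for the REFERENCE weights (`dom`) AND for the FRESH weights `√bet` of PATH (path kernel `eh`).
* `TAng.Ok p a`         (HP) plate hierarchy at `q' > q`, (PSI) macro weights, assigned ancestry.     Instance: unit INST.     BROAD uses its OWN instance (macro boxes of side `Λ^{3 v₀}`, `bot = mu0`).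
-/

set_option autoImplicit false

namespace Claimed.Agent.R257.FR2

open scoped BigOperators Classical

noncomputable section

namespace TSys

variable (𝔖 : TSys)

/-- the masks `S` with the mask of height `i` replaced by `P` -/
def upd (S : ∀ i, Finset (𝔖.C i)) (i : ℕ) (P : Finset (𝔖.C i)) : ∀ j, Finset (𝔖.C j) := Function.update S i P

/-- one step of the hierarchy estimate at the exponent `pp`, loss `L`, for the families whose amplitudes are supported in `U`; the weights are dominated through the kernel `κ` -/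
def Hier1 (pp L : ℝ) (i : ℕ) (κ : 𝔖.C i → 𝔖.C (i + 1) → ℝ) (U : 𝔖.C i → Prop) : Prop :=
  ∀ g a, 𝔖.Adm i g a → (∀ T', a T' ≠ 0 → U T') → ∀ (b' : 𝔖.C i → ℝ) (b : 𝔖.C (i + 1) → ℝ), (∀ T', 0 ≤ b' T') → (∀ T', a T' ≠ 0 → 0 < b' T') → (∀ T, 0 ≤ b T) →
    (∀ T, ∑ T', b' T' ^ 2 * κ T' T ≤ b T ^ 2) → 𝔖.bud pp (i + 1) (𝔖.amp i g) b ≤ L * 𝔖.bud pp i a b'

/-- the budget with a macro weight: `∑_{T ∈ M} |T| a_T^pp b_T^{2-pp} ψ_T` -/
def budW (pp : ℝ) (i : ℕ) (M : Finset (𝔖.C i)) (a b ψ : 𝔖.C i → ℝ) : ℝ := ∑ T ∈ M, 𝔖.vol i * a T ^ pp * b T ^ (2 - pp) * ψ T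

end TSys

/-- angular data of one block -/
structure TAng (𝔖 : TSys) (𝔊 : TGeo 𝔖) where
  /-- the height of the cap parameter `l` -/
  lam : ℕ
  /-- the lowest mesh height of the block -/
  bot : ℕ
  /-- hyperplane strips (all mesh widths, all `lam`-caps) -/
  Str : Type
  /-- the mesh height of a strip -/
  lev : Str → ℕ
  /-- the cap meets the enlarged strip -/
  sin : ∀ i, Str → 𝔊.Cap i → Prop
  /-- the sampling weights with a still larger fixed order (`ehh ≤ eh ≤ e`): reserve for the macro weights -/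
  ehh : ∀ i, 𝔖.C i → 𝔖.C (i + 1) → ℝ
  /-- macro boxes -/
  BB : Type
  fBB : Fintype BB
  Bx : 𝔖.C lam → BB
  /-- macro weights -/
  Psi : BB → ∀ i, 𝔖.C i → ℝ
  /-- the `lam`-ancestor of a cap -/
  up : ∀ i, 𝔊.Cap i → 𝔊.Cap lam

attribute [instance] TAng.fBB

/-- the constants of `TAng.Ok` -/
structure TAPar where
  /-- the lower dimensional exponent `q' > q` -/
  q' : ℝ
  /-- loss of one step of the plate hierarchy -/
  L' : ℝ
  /-- loss of one step of the hierarchy at `q` with the kernel `ehh` -/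
  Lq : ℝ
  /-- bound of the sum of the macro weights over the macro boxes -/
  CPsi : ℝ

namespace TAng

variable {𝔖 : TSys} {𝔊 : TGeo 𝔖} (𝔄 : TAng 𝔖 𝔊)

/-- the cap of the cell meets the enlarged strip -/
def under (i : ℕ) (σ : 𝔄.Str) (T : 𝔖.C i) : Prop := 𝔄.sin i σ (𝔊.cap i T)

/-- the fine direction lies in the strip (at the mesh height `i` of the strip) -/
def inStr (i : ℕ) (σ : 𝔄.Str) (ω : 𝔊.Dir) : Prop := 𝔄.sin i σ (𝔊.anc i ω)

/-- **the angular one-step facts** -/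
structure Ok (p : TPar) (a : TAPar) : Prop where
  lam_le : 𝔄.lam ≤ 𝔖.ℓ
  bot_le : 𝔄.bot ≤ 𝔄.lam
  q_lt : p.q < a.q'
  one_le_L' : 1 ≤ a.L'
  one_le_Lq : 1 ≤ a.Lq
  ehh_nonneg : ∀ i T' T, 0 ≤ 𝔄.ehh i T' T
  ehh_le : ∀ i T' T, 𝔄.ehh i T' T ≤ 𝔖.eh i T' T
  bot_le_lev : ∀ σ, 𝔄.bot ≤ 𝔄.lev σ
  lev_le : ∀ σ, 𝔄.lev σ ≤ 𝔄.lam
  /-- (HP) the plate hierarchy -/
  hp : ∀ σ i, 𝔄.lev σ ≤ i → i < 𝔄.lam → 𝔖.Hier1 a.q' a.L' i (𝔄.ehh i) (𝔄.under i σ)
  /-- (HQ) the hierarchy at `q` with the kernel `ehh` -/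
  hq : ∀ i, 𝔄.bot ≤ i → i < 𝔄.lam → 𝔖.Hier1 p.q a.Lq i (𝔄.ehh i) (fun _ => True)
  /-- plate support is inherited upwards -/
  under_up : ∀ σ i, 𝔄.lev σ ≤ i → i < 𝔄.lam → ∀ T' T, 𝔄.under i σ T' → 𝔖.eh i T' T ≠ 0 → 𝔄.under (i + 1) σ T
  /-- (PSI) -/
  Psi_pos : ∀ B i T, 0 < 𝔄.Psi B i T
  Psi_ge : ∀ T, 1 ≤ 𝔄.Psi (𝔄.Bx T) 𝔄.lam T
  Psi_sum : ∀ i, 𝔄.bot ≤ i → i ≤ 𝔄.lam → ∀ T', ∑ B, 𝔄.Psi B i T' ≤ a.CPsi
  Psi_edge : ∀ pp, pp = p.q ∨ pp = a.q' → ∀ B i, 𝔄.bot ≤ i → i < 𝔄.lam → ∀ T' T,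
    𝔄.Psi B (i + 1) T ^ (2 / (pp - 2)) * 𝔄.ehh i T' T ≤ 𝔄.Psi B i T' ^ (2 / (pp - 2)) * 𝔖.eh i T' T
  /-- assigned ancestry of the caps -/
  up_lam : ∀ τ, 𝔄.up 𝔄.lam τ = τ
  /-- a macro box knows its `lam`-cap -/
  Bx_cap : ∀ T T₁, 𝔄.Bx T = 𝔄.Bx T₁ → 𝔊.cap 𝔄.lam T = 𝔊.cap 𝔄.lam T₁
  up_edge : ∀ i, 𝔄.bot ≤ i → i < 𝔄.lam → ∀ T' T, 𝔖.eh i T' T ≠ 0 → 𝔄.up i (𝔊.cap i T') = 𝔄.up (i + 1) (𝔊.cap (i + 1) T)

end TAng

end

end Claimed.Agent.R257.FR2
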