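import Claimed.Agent.R257.FR2.AngTree

/-!
# ROW 257, package FR2, unit ANG, file 2: THE CHARGE OF THE OMITTED STRIPS (STEP 4 of `FR2/Notes.lean`; H `frame.tex` l.1053-1077)      (helper37)

Paper-free.   PROVED, no sorry.
* `tgo_disj`         a finite cover has a disjoint refinement
* `tgo_charge_box`   ONE macro box, ONE mesh height: split the omitted cells into `≤ #J` disjoint strip-supported parts, (HP) + (PSI) through all the intervening (already modified) masks, power mean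
* `tgo_charge`       sum over the macro boxes, original fine budget:  `∑_{T ∈ S lam} |T| aEk_T^{q'} b_T^{2-q'} ≤ cQ' k = n_k^{q'-1} L'^{lam-k} CΨ (2 r_k)^{q'-q} K D`
* `tgo_budget_k`     Hoelder: `∑_{T ∈ N} |T| aEk_T^q b_T^{2-q} ≤ cQ k = (cQ' k)^{q/q'} (K D / r_lam^q)^{1-q/q'}`, `N ⊆ S lam`
* `tgo_budget`       `bud q lam (resA N aE) b ≤ #Ms^{q-1} ∑_{k ∈ Ms} cQ k`
-/

set_option autoImplicit false

namespace Claimed.Agent.R257.FR2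

open scoped BigOperators Classical

noncomputable section

/-- a finite cover has a disjoint refinement -/
theorem tgo_disj {ι α : Type*} (s : Finset ι) (Q : ι → Finset α) :
    ∃ P : ι → Finset α, (∀ σ, P σ ⊆ Q σ) ∧ (s : Set ι).PairwiseDisjoint P ∧ s.biUnion P = s.biUnion Q := by
  induction s using Finset.induction_on with
  | empty => exact ⟨Q, fun _ => Finset.Subset.refl _, by simp, rfl⟩
  | insert x s hx ih =>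
    obtain ⟨P, h1, h2, h3⟩ := ih
    refine ⟨fun σ => if σ = x then Q x else P σ \ Q x, ?_, ?_, ?_⟩
    · intro σ
      by_cases hσ : σ = x
      · subst hσ
        simp
      · simp only [if_neg hσ]
        exact Finset.sdiff_subset.trans (h1 σ)
    · intro σ₁ hσ₁ σ₂ hσ₂ hne
      rw [Function.onFun, Finset.disjoint_left]
      intro y hy₁ hy₂
      by_cases e₁ : σ₁ = x
      · have e₂ : σ₂ ≠ x := fun e => hne (e₁.trans e.symm)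
        simp only [if_pos e₁] at hy₁
        simp only [if_neg e₂] at hy₂
        exact (Finset.mem_sdiff.1 hy₂).2 hy₁
      · simp only [if_neg e₁] at hy₁
        by_cases e₂ : σ₂ = x
        · simp only [if_pos e₂] at hy₂
          exact (Finset.mem_sdiff.1 hy₁).2 hy₂
        · simp only [if_neg e₂] at hy₂
          have m₁ : σ₁ ∈ s := (Finset.mem_insert.1 hσ₁).resolve_left e₁
          have m₂ : σ₂ ∈ s := (Finset.mem_insert.1 hσ₂).resolve_left e₂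
          exact Finset.disjoint_left.1 (h2 m₁ m₂ hne) (Finset.mem_sdiff.1 hy₁).1 (Finset.mem_sdiff.1 hy₂).1
    · ext y
      simp only [Finset.mem_biUnion, Finset.mem_insert]
      constructor
      · rintro ⟨σ, hσ, hy⟩
        by_cases e : σ = x
        · simp only [if_pos e] at hy
          exact ⟨x, Or.inl rfl, hy⟩
        · simp only [if_neg e] at hy
          exact ⟨σ, hσ, h1 σ (Finset.mem_sdiff.1 hy).1⟩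
      · rintro ⟨σ, hσ, hy⟩
        by_cases hyx : y ∈ Q x
        · exact ⟨x, Or.inl rfl, by simpa using hyx⟩
        · have hσx : σ ≠ x := fun e => hyx (e ▸ hy)
          have hσs : σ ∈ s := hσ.resolve_left hσx
          have : y ∈ s.biUnion P := by
            rw [h3]
            exact Finset.mem_biUnion.2 ⟨σ, hσs, hy⟩
          obtain ⟨σ', hσ', hy'⟩ := Finset.mem_biUnion.1 this
          have hne : σ' ≠ x := fun e => hx (e ▸ hσ')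
          exact ⟨σ', Or.inr hσ', by simp only [if_neg hne]; exact Finset.mem_sdiff.2 ⟨hy', hyx⟩⟩

namespace TAng

variable {𝔖 : TSys} {𝔊 : TGeo 𝔖} (𝔄 : TAng 𝔖 𝔊)

/-- the bound of the `q'`-charge of the omissions of the mesh height `k` -/
def cQ' (p : TPar) (a : TAPar) (K : ℝ) (r : ℕ → ℝ) (n : ℕ → ℝ) (k : ℕ) : ℝ :=
  n k ^ (a.q' - 1) * a.L' ^ (𝔄.lam - k) * (a.CPsi * (2 * r k) ^ (a.q' - p.q) * (K * 𝔖.D))

/-- the bound of the `q`-budget of the omissions of the mesh height `k`, `= K D (n_k^{q'-1} L'^d CΨ 2^{q'-q})^{q/q'} (r_k / r_lam)^{q (q'-q)/q'}` -/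
def cQ (p : TPar) (a : TAPar) (K : ℝ) (r : ℕ → ℝ) (n : ℕ → ℝ) (k : ℕ) : ℝ :=
  𝔄.cQ' p a K r n k ^ (p.q / a.q') * (K * 𝔖.D / r 𝔄.lam ^ p.q) ^ (1 - p.q / a.q')

variable {𝔄} {p : TPar} {a : TAPar} {A K G : ℝ} {S : ∀ i, Finset (𝔖.C i)} {r : ℕ → ℝ} {Yf : Finset 𝔖.Y}

theorem tgo_term_nonneg (h : 𝔖.Ok p) (hA : 𝔄.Ok p a) (pp : ℝ) (i : ℕ) (M : ∀ i, Finset (𝔖.C i)) (B : 𝔄.BB) (T : 𝔖.C i) :
    0 ≤ 𝔖.vol i * 𝔖.am M i T ^ pp * 𝔖.b i T ^ (2 - pp) * 𝔄.Psi B i T :=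
  mul_nonneg (mul_nonneg (mul_nonneg (h.vol_pos i).le (Real.rpow_nonneg (TSys.tpf_am_nonneg h M i T) _))
    (Real.rpow_nonneg (h.b_nonneg i T) _)) (hA.Psi_pos B i T).le

/-- **one macro box, one mesh height** -/
theorem tgo_charge_box (h : 𝔖.Ok p) (hA : 𝔄.Ok p a) (S : ∀ i, Finset (𝔖.C i)) (Ms : Finset ℕ) (J : 𝔄.BB → ℕ → Finset 𝔄.Str)
    (hMs : ∀ k ∈ Ms, k < 𝔄.lam) (hJl : ∀ B k, ∀ σ ∈ J B k, 𝔄.lev σ = k) (B : 𝔄.BB) (k : ℕ) (hk : k ∈ Ms) :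
    𝔖.budW a.q' 𝔄.lam (S 𝔄.lam) (𝔖.am (𝔄.EB S Ms J B k) 𝔄.lam) (𝔖.b 𝔄.lam) (𝔄.Psi B 𝔄.lam) ≤
      ((J B k).card : ℝ) ^ (a.q' - 1) * a.L' ^ (𝔄.lam - k) * 𝔖.budW a.q' k (S k) (𝔖.am S k) (𝔖.b k) (𝔄.Psi B k) := by
  have hq' : 1 ≤ a.q' := by have := h.q_gt; have := hA.q_lt; linarith
  have hL : 0 ≤ a.L' := zero_le_one.trans hA.one_le_L'
  have hkl := hMs k hk
  obtain ⟨E, hE⟩ : ∃ E, E = 𝔄.SBk S Ms J B (k + 1) := ⟨_, rfl⟩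
  obtain ⟨P, hP1, hP2, hP3⟩ := tgo_disj (J B k) (fun σ => (S k).filter fun T => 𝔄.under k σ T)
  have hom : 𝔄.om S J B k = (J B k).biUnion P := by
    rw [hP3]
    ext T
    simp only [TAng.om, Finset.mem_filter, Finset.mem_biUnion]
    constructor
    · rintro ⟨h1, σ, h2, h3⟩
      exact ⟨σ, h2, h1, h3⟩
    · rintro ⟨σ, h2, h1, h3⟩
      exact ⟨h1, σ, h2, h3⟩
  have hlamM : 𝔄.lam ∉ Ms := fun hm => lt_irrefl _ (hMs _ hm)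
  have hElam : E 𝔄.lam = S 𝔄.lam := by rw [hE]; exact tgo_SBk_of_notMem S Ms J B _ hlamM
  have hEam : 𝔖.am E k = 𝔖.am S k := by
    rw [hE]
    exact TSys.tcg_am_congr _ _ k fun j hj => tgo_SBk_of_lt S Ms J B (by omega)
  -- the plate estimate for each part
  have hpl : ∀ σ ∈ J B k, 𝔖.budW a.q' 𝔄.lam (S 𝔄.lam) (𝔖.am (𝔖.upd E k (P σ)) 𝔄.lam) (𝔖.b 𝔄.lam) (𝔄.Psi B 𝔄.lam) ≤
      a.L' ^ (𝔄.lam - k) * 𝔖.budW a.q' k (P σ) (𝔖.am S k) (𝔖.b k) (𝔄.Psi B k) := by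
    intro σ hσ
    have h1 := tcg_plate h hA (𝔖.upd E k (P σ)) σ k (hJl B k σ hσ) B (fun T hT => by
      rw [TSys.tcg_upd_self] at hT
      exact (Finset.mem_filter.1 (hP1 σ hT)).2)
    rwa [TSys.tcg_upd_ne E (by omega), hElam, TSys.tcg_upd_self, TSys.tcg_am_upd E le_rfl, hEam] at h1
  -- pointwise power mean
  have hpt : ∀ T, 𝔖.am (𝔄.EB S Ms J B k) 𝔄.lam T ^ a.q' ≤
      ((J B k).card : ℝ) ^ (a.q' - 1) * ∑ σ ∈ J B k, 𝔖.am (𝔖.upd E k (P σ)) 𝔄.lam T ^ a.q' := by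
    intro T
    have h1 : 𝔖.am (𝔄.EB S Ms J B k) 𝔄.lam T ≤ ∑ σ ∈ J B k, 𝔖.am (𝔖.upd E k (P σ)) 𝔄.lam T := by
      have := TSys.tcg_am_split_le h E k (J B k) P hP2 𝔄.lam hkl hA.lam_le T
      rw [← hom] at this
      refine le_trans (le_of_eq ?_) this
      rw [hE]
      rfl
    refine (Real.rpow_le_rpow (TSys.tpf_am_nonneg h _ _ T) h1 (by linarith)).trans ?_
    exact Real.rpow_sum_le_const_mul_sum_rpow_of_nonneg _ hq' fun σ _ => TSys.tpf_am_nonneg h _ _ T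
  have hc0 : 0 ≤ ((J B k).card : ℝ) ^ (a.q' - 1) := Real.rpow_nonneg (Nat.cast_nonneg _) _
  calc 𝔖.budW a.q' 𝔄.lam (S 𝔄.lam) (𝔖.am (𝔄.EB S Ms J B k) 𝔄.lam) (𝔖.b 𝔄.lam) (𝔄.Psi B 𝔄.lam)
      ≤ ((J B k).card : ℝ) ^ (a.q' - 1) * ∑ σ ∈ J B k, 𝔖.budW a.q' 𝔄.lam (S 𝔄.lam) (𝔖.am (𝔖.upd E k (P σ)) 𝔄.lam) (𝔖.b 𝔄.lam) (𝔄.Psi B 𝔄.lam) := by
        unfold TSys.budW
        rw [Finset.sum_comm, Finset.mul_sum]
        refine Finset.sum_le_sum fun T _ => ?_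
        have hv := (h.vol_pos 𝔄.lam).le
        have hb0 : 0 ≤ 𝔖.b 𝔄.lam T ^ (2 - a.q') := Real.rpow_nonneg (h.b_nonneg _ T) _
        have hP0 := (hA.Psi_pos B 𝔄.lam T).le
        calc 𝔖.vol 𝔄.lam * 𝔖.am (𝔄.EB S Ms J B k) 𝔄.lam T ^ a.q' * 𝔖.b 𝔄.lam T ^ (2 - a.q') * 𝔄.Psi B 𝔄.lam T
            ≤ 𝔖.vol 𝔄.lam * (((J B k).card : ℝ) ^ (a.q' - 1) * ∑ σ ∈ J B k, 𝔖.am (𝔖.upd E k (P σ)) 𝔄.lam T ^ a.q') * 𝔖.b 𝔄.lam T ^ (2 - a.q') * 𝔄.Psi B 𝔄.lam T :=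
              mul_le_mul_of_nonneg_right (mul_le_mul_of_nonneg_right (mul_le_mul_of_nonneg_left (hpt T) hv) hb0) hP0
          _ = _ := by
              rw [Finset.mul_sum, Finset.mul_sum, Finset.sum_mul, Finset.sum_mul, Finset.mul_sum]
              refine Finset.sum_congr rfl fun σ _ => ?_
              ring
    _ ≤ ((J B k).card : ℝ) ^ (a.q' - 1) * ∑ σ ∈ J B k, a.L' ^ (𝔄.lam - k) * 𝔖.budW a.q' k (P σ) (𝔖.am S k) (𝔖.b k) (𝔄.Psi B k) :=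
        mul_le_mul_of_nonneg_left (Finset.sum_le_sum hpl) hc0
    _ = ((J B k).card : ℝ) ^ (a.q' - 1) * a.L' ^ (𝔄.lam - k) * 𝔖.budW a.q' k ((J B k).biUnion P) (𝔖.am S k) (𝔖.b k) (𝔄.Psi B k) := by
        rw [← Finset.mul_sum, mul_assoc]
        congr 2
        unfold TSys.budW
        rw [Finset.sum_biUnion hP2]
    _ ≤ _ := by
        refine mul_le_mul_of_nonneg_left ?_ (mul_nonneg hc0 (pow_nonneg hL _))
        unfold TSys.budW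
        rw [← hom]
        exact Finset.sum_le_sum_of_subset_of_nonneg (tgo_om_sub S J B k) fun T _ _ => tgo_term_nonneg h hA _ _ _ _ T

/-- **the `q'`-charge of the omissions of one mesh height** -/
theorem tgo_charge (h : 𝔖.Ok p) (hA : 𝔄.Ok p a) (hF : 𝔖.Frozen p.q A K G S r Yf) (hC : 0 ≤ a.CPsi) (Ms : Finset ℕ) (J : 𝔄.BB → ℕ → Finset 𝔄.Str)
    (hMs : ∀ k ∈ Ms, 𝔄.bot ≤ k ∧ k < 𝔄.lam) (hJl : ∀ B k, ∀ σ ∈ J B k, 𝔄.lev σ = k) (n : ℕ → ℝ) (hn : ∀ k ∈ Ms, 0 ≤ n k)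
    (hJc : ∀ B, ∀ k ∈ Ms, ((J B k).card : ℝ) ≤ n k) (k : ℕ) (hk : k ∈ Ms) :
    ∑ T ∈ S 𝔄.lam, 𝔖.vol 𝔄.lam * 𝔄.aEk S Ms J k T ^ a.q' * 𝔖.b 𝔄.lam T ^ (2 - a.q') ≤ 𝔄.cQ' p a K r n k := by
  have hq' : 1 ≤ a.q' := by have := h.q_gt; have := hA.q_lt; linarith
  have hL : 0 ≤ a.L' := zero_le_one.trans hA.one_le_L'
  obtain ⟨hk1, hk2⟩ := hMs k hk
  have hbox : ∀ B : 𝔄.BB, ∑ T ∈ (S 𝔄.lam).filter (fun T => 𝔄.Bx T = B), 𝔖.vol 𝔄.lam * 𝔄.aEk S Ms J k T ^ a.q' * 𝔖.b 𝔄.lam T ^ (2 - a.q') ≤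
      n k ^ (a.q' - 1) * a.L' ^ (𝔄.lam - k) * 𝔖.budW a.q' k (S k) (𝔖.am S k) (𝔖.b k) (𝔄.Psi B k) := by
    intro B
    have h1 := tgo_charge_box h hA S Ms J (fun k hk => (hMs k hk).2) hJl B k hk
    have h2 : ∑ T ∈ (S 𝔄.lam).filter (fun T => 𝔄.Bx T = B), 𝔖.vol 𝔄.lam * 𝔄.aEk S Ms J k T ^ a.q' * 𝔖.b 𝔄.lam T ^ (2 - a.q') ≤
        𝔖.budW a.q' 𝔄.lam (S 𝔄.lam) (𝔖.am (𝔄.EB S Ms J B k) 𝔄.lam) (𝔖.b 𝔄.lam) (𝔄.Psi B 𝔄.lam) := by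
      unfold TSys.budW
      refine le_trans (Finset.sum_le_sum fun T hT => ?_) (Finset.sum_le_sum_of_subset_of_nonneg (Finset.filter_subset _ _)
        fun T _ _ => tgo_term_nonneg h hA _ _ _ _ T)
      have hTB : 𝔄.Bx T = B := (Finset.mem_filter.1 hT).2
      have hP : 1 ≤ 𝔄.Psi B 𝔄.lam T := by rw [← hTB]; exact hA.Psi_ge T
      have e : 𝔄.aEk S Ms J k T = 𝔖.am (𝔄.EB S Ms J B k) 𝔄.lam T := by rw [← hTB]; rfl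
      rw [e]
      exact le_mul_of_one_le_right (mul_nonneg (mul_nonneg (h.vol_pos _).le (Real.rpow_nonneg (TSys.tpf_am_nonneg h _ _ T) _))
        (Real.rpow_nonneg (h.b_nonneg _ T) _)) hP
    refine h2.trans (h1.trans ?_)
    refine mul_le_mul_of_nonneg_right (mul_le_mul_of_nonneg_right ?_ (pow_nonneg hL _)) (tbw_budW_nonneg h hA _ _ _ _ _)
    exact Real.rpow_le_rpow (Nat.cast_nonneg _) (hJc B k hk) (by linarith)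
  have hn0 : 0 ≤ n k ^ (a.q' - 1) := Real.rpow_nonneg (hn k hk) _
  rw [← Finset.sum_fiberwise (S 𝔄.lam) 𝔄.Bx]
  refine (Finset.sum_le_sum fun B _ => hbox B).trans ?_
  rw [← Finset.mul_sum]
  unfold TAng.cQ'
  refine mul_le_mul_of_nonneg_left ?_ (mul_nonneg hn0 (pow_nonneg hL _))
  have e : ∑ B, 𝔖.budW a.q' k (S k) (𝔖.am S k) (𝔖.b k) (𝔄.Psi B k) =
      𝔖.budW a.q' k (S k) (𝔖.am S k) (𝔖.b k) (fun T => ∑ B, 𝔄.Psi B k T) := by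
    unfold TSys.budW
    rw [Finset.sum_comm]
    refine Finset.sum_congr rfl fun T _ => ?_
    rw [Finset.mul_sum]
  rw [e]
  exact TSys.tcg_fine h hF k (hk2.le.trans hA.lam_le) hA.q_lt.le _ hC (hA.Psi_sum k hk1 hk2.le)

/-- **the `q`-budget of the omissions of one mesh height** (Hoelder with the measure `|T| b_T²`) -/
theorem tgo_budget_k (h : 𝔖.Ok p) (hA : 𝔄.Ok p a) (hF : 𝔖.Frozen p.q A K G S r Yf) (hC : 0 ≤ a.CPsi) (Ms : Finset ℕ) (J : 𝔄.BB → ℕ → Finset 𝔄.Str)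
    (hMs : ∀ k ∈ Ms, 𝔄.bot ≤ k ∧ k < 𝔄.lam) (hJl : ∀ B k, ∀ σ ∈ J B k, 𝔄.lev σ = k) (n : ℕ → ℝ) (hn : ∀ k ∈ Ms, 0 ≤ n k)
    (hJc : ∀ B, ∀ k ∈ Ms, ((J B k).card : ℝ) ≤ n k) (k : ℕ) (hk : k ∈ Ms) (N : Finset (𝔖.C 𝔄.lam)) (hN : N ⊆ S 𝔄.lam) :
    ∑ T ∈ N, 𝔖.vol 𝔄.lam * 𝔄.aEk S Ms J k T ^ p.q * 𝔖.b 𝔄.lam T ^ (2 - p.q) ≤ 𝔄.cQ p a K r n k := by
  have hq : 0 < p.q := by have := h.q_gt; linarith
  have hq' : 0 < a.q' := hq.trans hA.q_lt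
  refine (TSys.tcg_holder 𝔄.lam N (𝔄.aEk S Ms J k) (𝔖.b 𝔄.lam) hq hA.q_lt (h.vol_pos _)
    (fun T _ => tgo_aEk_nonneg h S Ms J k T) (fun T hT => (hF.ratio 𝔄.lam hA.lam_le T (hN hT)).1)).trans ?_
  unfold TAng.cQ
  have tn : ∀ T, 0 ≤ 𝔖.vol 𝔄.lam * 𝔄.aEk S Ms J k T ^ a.q' * 𝔖.b 𝔄.lam T ^ (2 - a.q') := fun T =>
    mul_nonneg (mul_nonneg (h.vol_pos _).le (Real.rpow_nonneg (tgo_aEk_nonneg h S Ms J k T) _)) (Real.rpow_nonneg (h.b_nonneg _ T) _)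
  have h1 : ∑ T ∈ N, 𝔖.vol 𝔄.lam * 𝔄.aEk S Ms J k T ^ a.q' * 𝔖.b 𝔄.lam T ^ (2 - a.q') ≤ 𝔄.cQ' p a K r n k :=
    (Finset.sum_le_sum_of_subset_of_nonneg hN fun T _ _ => tn T).trans (tgo_charge h hA hF hC Ms J hMs hJl n hn hJc k hk)
  have h2 := TSys.tcg_coarse h hF 𝔄.lam hA.lam_le _ hN
  have n1 : 0 ≤ ∑ T ∈ N, 𝔖.vol 𝔄.lam * 𝔄.aEk S Ms J k T ^ a.q' * 𝔖.b 𝔄.lam T ^ (2 - a.q') := Finset.sum_nonneg fun T _ => tn T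
  have n2 : 0 ≤ ∑ T ∈ N, 𝔖.vol 𝔄.lam * 𝔖.b 𝔄.lam T ^ 2 := Finset.sum_nonneg fun T _ => mul_nonneg (h.vol_pos _).le (sq_nonneg _)
  have t0 : 0 ≤ p.q / a.q' := (div_pos hq hq').le
  have t1 : 0 ≤ 1 - p.q / a.q' := by
    have := (div_lt_one hq').2 hA.q_lt
    linarith
  exact mul_le_mul (Real.rpow_le_rpow n1 h1 t0) (Real.rpow_le_rpow n2 h2 t1) (Real.rpow_nonneg n2 _) (Real.rpow_nonneg (n1.trans h1) _)

/-- **the `q`-budget of all the omissions** -/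
theorem tgo_budget (h : 𝔖.Ok p) (hA : 𝔄.Ok p a) (hF : 𝔖.Frozen p.q A K G S r Yf) (hC : 0 ≤ a.CPsi) (Ms : Finset ℕ) (J : 𝔄.BB → ℕ → Finset 𝔄.Str)
    (hMs : ∀ k ∈ Ms, 𝔄.bot ≤ k ∧ k < 𝔄.lam) (hJl : ∀ B k, ∀ σ ∈ J B k, 𝔄.lev σ = k) (n : ℕ → ℝ) (hn : ∀ k ∈ Ms, 0 ≤ n k)
    (hJc : ∀ B, ∀ k ∈ Ms, ((J B k).card : ℝ) ≤ n k) (N : Finset (𝔖.C 𝔄.lam)) (hN : N ⊆ S 𝔄.lam) :
    𝔖.bud p.q 𝔄.lam (𝔖.resA N (𝔄.aE S Ms J)) (𝔖.b 𝔄.lam) ≤ (Ms.card : ℝ) ^ (p.q - 1) * ∑ k ∈ Ms, 𝔄.cQ p a K r n k := by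
  have hq : 1 ≤ p.q := by have := h.q_gt; linarith
  have hc0 : 0 ≤ (Ms.card : ℝ) ^ (p.q - 1) := Real.rpow_nonneg (Nat.cast_nonneg _) _
  rw [TSys.tpf_bud_res h.q_gt]
  calc ∑ T ∈ N, 𝔖.vol 𝔄.lam * 𝔄.aE S Ms J T ^ p.q * 𝔖.b 𝔄.lam T ^ (2 - p.q)
      ≤ ∑ T ∈ N, (Ms.card : ℝ) ^ (p.q - 1) * ∑ k ∈ Ms, 𝔖.vol 𝔄.lam * 𝔄.aEk S Ms J k T ^ p.q * 𝔖.b 𝔄.lam T ^ (2 - p.q) := by
        refine Finset.sum_le_sum fun T _ => ?_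
        have h1 : 𝔄.aE S Ms J T ^ p.q ≤ (Ms.card : ℝ) ^ (p.q - 1) * ∑ k ∈ Ms, 𝔄.aEk S Ms J k T ^ p.q :=
          Real.rpow_sum_le_const_mul_sum_rpow_of_nonneg _ hq fun k _ => tgo_aEk_nonneg h S Ms J k T
        have hb0 : 0 ≤ 𝔖.b 𝔄.lam T ^ (2 - p.q) := Real.rpow_nonneg (h.b_nonneg _ T) _
        calc 𝔖.vol 𝔄.lam * 𝔄.aE S Ms J T ^ p.q * 𝔖.b 𝔄.lam T ^ (2 - p.q)
            ≤ 𝔖.vol 𝔄.lam * ((Ms.card : ℝ) ^ (p.q - 1) * ∑ k ∈ Ms, 𝔄.aEk S Ms J k T ^ p.q) * 𝔖.b 𝔄.lam T ^ (2 - p.q) :=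
              mul_le_mul_of_nonneg_right (mul_le_mul_of_nonneg_left h1 (h.vol_pos _).le) hb0
          _ = _ := by
              rw [Finset.mul_sum, Finset.mul_sum, Finset.sum_mul, Finset.mul_sum]
              refine Finset.sum_congr rfl fun k _ => ?_
              ring
    _ = (Ms.card : ℝ) ^ (p.q - 1) * ∑ k ∈ Ms, ∑ T ∈ N, 𝔖.vol 𝔄.lam * 𝔄.aEk S Ms J k T ^ p.q * 𝔖.b 𝔄.lam T ^ (2 - p.q) := by
        rw [← Finset.mul_sum, Finset.sum_comm]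
    _ ≤ _ := mul_le_mul_of_nonneg_left (Finset.sum_le_sum fun k hk => tgo_budget_k h hA hF hC Ms J hMs hJl n hn hJc k hk N hN) hc0

end TAng

end

end Claimed.Agent.R257.FR2
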