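import Claimed.Agent.R257.FR2.AngMac

/-!
# ROW 257, package FR2, unit ANG, STEP 6 of `FR2/Notes.lean`: THE ANGULAR BOUND FOR THE PATH LAW OF THE MACRO TREE      (architect + prover helper125)

Paper-free (H `frame.tex` l.1036-1051, 1127-1138).
* `TGeo.lcw l τ z`     the reference cap weight of the paper, `b_τ²(z)` = the available descendant leaf squares `∑_{ω ∈ τ} a_ω(z)`;   `tp_lcap_law` = (f:cap-law) with this reference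
* `TAng.Var Kv`        the ONE geometric input (INST): the leaf kernels of the descendants of a `lam`-cap vary by `Kv` over (the enlargement of) a macro box
* `TAng.nu B ω`        the reference direction law of the macro box `B` (endpoint square weights at a witness of `B`, normalised within the cap);   `tgx_nu_sum`, `tgx_NU`
* `TAng.nuz Sl O ν z ω`   the residual reference measure seen from the witness `z`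
* `tgx_Jn_le`          `J_z(ω) ≤ Γc^ℓ m4 ν_z(ω) b_τ²(z)`
* `tgx_strip`          strips have residual reference measure `≤ m t`
* `tgx_ang_law`        **the angular test**: off probability `ϖ0/s`, every strip has conditional probability `≤ (Γc^ℓ m4 m / ϖl) s t` given `(Z, τ_l)`;   `tgx_dom_law` the pointwise domination
-/

set_option autoImplicit false

namespace Claimed.Agent.R257.FR2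

open scoped BigOperators Classical
open Claimed.Agent.R255 Claimed.Agent.R255.FLaw Claimed.Agent.R257

noncomputable section

namespace TGeo

variable {𝔖 : TSys} (𝔊 : TGeo 𝔖) {p : TPar} {g : GPar}

/-- the available descendant leaf squares of a cap -/
def lcw (l : ℕ) (τ : 𝔊.Cap l) (z : 𝔖.Y) : ℝ := ∑ ω, if 𝔊.anc l ω = τ then 𝔊.leafw z ω else 0

variable {𝔊}

theorem lcw_nonneg (h : 𝔖.Ok p) (l : ℕ) (τ : 𝔊.Cap l) (z : 𝔖.Y) : 0 ≤ 𝔊.lcw l τ z :=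
  Finset.sum_nonneg fun ω _ => by split_ifs; exacts [leafw_nonneg h z ω, le_rfl]

theorem tp_sum_le_lcw (h : 𝔖.Ok p) (l : ℕ) (τ : 𝔊.Cap l) (z : 𝔖.Y) (U : Finset 𝔊.Dir) (hU : ∀ ω ∈ U, 𝔊.anc l ω = τ) :
    ∑ ω ∈ U, 𝔊.leafw z ω ≤ 𝔊.lcw l τ z := by
  unfold lcw
  rw [← Finset.sum_filter]
  exact Finset.sum_le_sum_of_subset_of_nonneg (fun ω hω => Finset.mem_filter.2 ⟨Finset.mem_univ _, hU ω hω⟩)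
    fun ω _ _ => leafw_nonneg h z ω

theorem tp_leafw_le_lcw (h : 𝔖.Ok p) (l : ℕ) (z : 𝔖.Y) (ω : 𝔊.Dir) : 𝔊.leafw z ω ≤ 𝔊.lcw l (𝔊.anc l ω) z := by
  have := tp_sum_le_lcw h l (𝔊.anc l ω) z {ω} (fun ω' hω' => by rw [Finset.mem_singleton.1 hω'])
  rwa [Finset.sum_singleton] at this

theorem tp_sum_lcw (h : 𝔖.Ok p) (l : ℕ) (z : 𝔖.Y) (U : Finset (𝔊.Cap l)) : ∑ τ ∈ U, 𝔊.lcw l τ z ≤ p.ϖ0 := by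
  unfold lcw
  rw [Finset.sum_comm]
  refine le_trans (Finset.sum_le_sum fun ω _ => ?_) (tp_sum_leafw h z Finset.univ)
  rw [Finset.sum_ite_eq]
  split_ifs
  exacts [le_rfl, leafw_nonneg h z ω]

variable {R : 𝔊.Restr} {J : 𝔖.Y → 𝔊.Dir → ℝ} {Y' : Finset 𝔖.Y} {Ω₀ : Type} [Fintype Ω₀] {P : FLaw Ω₀} {Z : Ω₀ → 𝔖.Y} {Om : Ω₀ → 𝔊.Dir}

/-- **(f:cap-law) with the reference weights `lcw`** (any height `l`, no condition `l ≤ ℓ`) -/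
theorem tp_lcap_law (h : 𝔖.Ok p) (hg : 𝔊.Ok g) (hJ0 : ∀ z ω, 0 ≤ J z ω) (hJR : ∀ z ω, J z ω ≤ 𝔊.Jn R z ω)
    (hL : 𝔊.IsLaw J Y' P Z Om) (ϖl : ℝ) (hϖ : 0 < ϖl) (hW : ∀ z ∈ Y', ϖl ≤ ∑ ω, J z ω) (l : ℕ) {t : ℝ} (ht : 0 < t) :
    (∀ x, P.p x ≠ 0 → P.fib (pair (fun x => 𝔊.anc l (Om x)) Z) x ≤
        g.Γc ^ 𝔖.ℓ / ϖl * 𝔊.lcw l (𝔊.anc l (Om x)) (Z x) * P.fib Z x) ∧
      P.pr (fun x => P.fib (pair (fun x => 𝔊.anc l (Om x)) Z) x <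
        1 / t * 𝔊.lcw l (𝔊.anc l (Om x)) (Z x) * P.fib Z x) ≤ p.ϖ0 / t := by
  have hc : 0 ≤ g.Γc ^ 𝔖.ℓ / ϖl := div_nonneg (pow_nonneg (by linarith [hg.one_le_Γc]) _) hϖ.le
  refine fp_cap P Z Om (𝔊.anc l) (fun ω z => 𝔊.leafw z ω) (fun τ z => 𝔊.lcw l τ z) hc (fun ω z => leafw_nonneg h z ω)
    (fun τ z => lcw_nonneg h l τ z) (fun x hx => ?_) (fun τ z U hU => tp_sum_le_lcw h l τ z U hU)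
    (fun z U => tp_sum_lcw h l z U) ht
  rw [fp_fib_pair_comm]
  exact (tp_leaf_law h hg hJ0 hJR hL ϖl hϖ hW (t := 1) one_pos).1 x hx

end TGeo

namespace TAng

variable {𝔖 : TSys} {𝔊 : TGeo 𝔖} {p : TPar} {g : GPar} {a : TAPar} (𝔄 : TAng 𝔖 𝔊)

/-- **the geometric input of STEP 6** (H l.1038-1043: "the endpoint descendant weights vary within bounded factors on these boxes") -/
structure Var (Kv : ℝ) : Prop where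
  one_le : 1 ≤ Kv
  leafvar : ∀ T T' z z', 𝔄.Bx T = 𝔄.Bx T' → 𝔖.inc 𝔄.lam z T → 𝔖.inc 𝔄.lam z' T' → ∀ γ,
    𝔊.anc 𝔄.lam (𝔊.dir γ) = 𝔊.cap 𝔄.lam T → 𝔖.w 0 γ z ≤ Kv * 𝔖.w 0 γ z'

/-- "the macro box `B` has a witness" -/
def Wit (B : 𝔄.BB) : Prop := ∃ x : 𝔖.Y × 𝔖.C 𝔄.lam, 𝔄.Bx x.2 = B ∧ 𝔖.inc 𝔄.lam x.1 x.2

/-- the reference direction law of a macro box -/
def nu (B : 𝔄.BB) (ω : 𝔊.Dir) : ℝ :=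
  if hB : 𝔄.Wit B then
    (if 𝔊.anc 𝔄.lam ω = 𝔊.cap 𝔄.lam hB.choose.2 then
      𝔊.leafw hB.choose.1 ω / 𝔊.lcw 𝔄.lam (𝔊.cap 𝔄.lam hB.choose.2) hB.choose.1 else 0)
  else 0

/-- the residual reference measure seen from the witness `z` -/
def nuz (Sl : Finset (𝔖.C 𝔄.lam)) (O : 𝔄.BB → 𝔊.Dir → Prop) (ν : 𝔄.BB → 𝔊.Dir → ℝ) (z : 𝔖.Y) (ω : 𝔊.Dir) : ℝ :=
  ∑ B, if (∃ T ∈ Sl, 𝔄.Bx T = B ∧ 𝔖.inc 𝔄.lam z T ∧ 𝔊.cap 𝔄.lam T = 𝔊.anc 𝔄.lam ω) ∧ ¬ O B ω then ν B ω else 0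

variable {𝔄}

theorem tgx_nu_nonneg (h : 𝔖.Ok p) (B : 𝔄.BB) (ω : 𝔊.Dir) : 0 ≤ 𝔄.nu B ω := by
  unfold nu
  split_ifs
  · exact div_nonneg (TGeo.leafw_nonneg h _ _) (TGeo.lcw_nonneg h _ _ _)
  · exact le_rfl
  · exact le_rfl

theorem tgx_nu_sum (h : 𝔖.Ok p) (B : 𝔄.BB) (U : Finset 𝔊.Dir) : ∑ ω ∈ U, 𝔄.nu B ω ≤ 1 := by
  refine le_trans (Finset.sum_le_univ_sum_of_nonneg fun ω => tgx_nu_nonneg h B ω) ?_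
  unfold nu
  by_cases hB : 𝔄.Wit B
  · simp only [dif_pos hB]
    have e : ∀ ω, (if 𝔊.anc 𝔄.lam ω = 𝔊.cap 𝔄.lam hB.choose.2 then
        𝔊.leafw hB.choose.1 ω / 𝔊.lcw 𝔄.lam (𝔊.cap 𝔄.lam hB.choose.2) hB.choose.1 else 0) =
        (if 𝔊.anc 𝔄.lam ω = 𝔊.cap 𝔄.lam hB.choose.2 then 𝔊.leafw hB.choose.1 ω else 0) /
          𝔊.lcw 𝔄.lam (𝔊.cap 𝔄.lam hB.choose.2) hB.choose.1 := by
      intro ω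
      split_ifs
      · rfl
      · rw [zero_div]
    simp only [e]
    rw [← Finset.sum_div]
    exact div_self_le_one _
  · simp only [dif_neg hB, Finset.sum_const_zero, zero_le_one]

theorem tgx_leafw_var (h : 𝔖.Ok p) {Kv : ℝ} (hV : 𝔄.Var Kv) {T T' : 𝔖.C 𝔄.lam} {z z' : 𝔖.Y} (hB : 𝔄.Bx T = 𝔄.Bx T')
    (hz : 𝔖.inc 𝔄.lam z T) (hz' : 𝔖.inc 𝔄.lam z' T') (ω : 𝔊.Dir) (hω : 𝔊.anc 𝔄.lam ω = 𝔊.cap 𝔄.lam T) :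
    𝔊.leafw z ω ≤ Kv * 𝔊.leafw z' ω := by
  unfold TGeo.leafw
  rw [Finset.mul_sum]
  refine Finset.sum_le_sum fun γ _ => ?_
  by_cases hd : 𝔊.dir γ = ω
  · rw [if_pos hd, if_pos hd]
    have h1 := hV.leafvar T T' z z' hB hz hz' γ (by rw [hd]; exact hω)
    have h2 := mul_le_mul_of_nonneg_left h1 (sq_nonneg (𝔖.b 0 γ))
    linarith
  · rw [if_neg hd, if_neg hd, mul_zero]

theorem tgx_lcw_var (h : 𝔖.Ok p) {Kv : ℝ} (hV : 𝔄.Var Kv) {T T' : 𝔖.C 𝔄.lam} {z z' : 𝔖.Y} (hB : 𝔄.Bx T = 𝔄.Bx T')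
    (hz : 𝔖.inc 𝔄.lam z T) (hz' : 𝔖.inc 𝔄.lam z' T') :
    𝔊.lcw 𝔄.lam (𝔊.cap 𝔄.lam T) z ≤ Kv * 𝔊.lcw 𝔄.lam (𝔊.cap 𝔄.lam T) z' := by
  unfold TGeo.lcw
  rw [Finset.mul_sum]
  refine Finset.sum_le_sum fun ω _ => ?_
  by_cases hd : 𝔊.anc 𝔄.lam ω = 𝔊.cap 𝔄.lam T
  · rw [if_pos hd, if_pos hd]
    exact tgx_leafw_var h hV hB hz hz' ω hd
  · rw [if_neg hd, if_neg hd, mul_zero]

/-- **(NU)**: the leaf weights at a witness near the macro box are dominated by the reference law of the box times the cap weight -/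
theorem tgx_NU (h : 𝔖.Ok p) (hA : 𝔄.Ok p a) {Kv : ℝ} (hV : 𝔄.Var Kv) (z : 𝔖.Y) (T : 𝔖.C 𝔄.lam) (ω : 𝔊.Dir)
    (hz : 𝔖.inc 𝔄.lam z T) (hω : 𝔊.anc 𝔄.lam ω = 𝔊.cap 𝔄.lam T) :
    𝔊.leafw z ω ≤ Kv ^ 2 * 𝔄.nu (𝔄.Bx T) ω * 𝔊.lcw 𝔄.lam (𝔊.cap 𝔄.lam T) z := by
  have hB : 𝔄.Wit (𝔄.Bx T) := ⟨(z, T), rfl, hz⟩
  obtain ⟨hB1, hB2⟩ := hB.choose_spec
  set zB := hB.choose.1 with hzB
  set TB := hB.choose.2 with hTB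
  have hcap : 𝔊.cap 𝔄.lam TB = 𝔊.cap 𝔄.lam T := hA.Bx_cap _ _ hB1
  have hK : 0 ≤ Kv := zero_le_one.trans hV.one_le
  have e : 𝔄.nu (𝔄.Bx T) ω = 𝔊.leafw zB ω / 𝔊.lcw 𝔄.lam (𝔊.cap 𝔄.lam T) zB := by
    unfold nu
    rw [dif_pos hB, if_pos (by rw [hω]; exact hcap.symm)]
    rw [← hTB, hcap]
  have h1 : 𝔊.leafw z ω ≤ Kv * 𝔊.leafw zB ω := tgx_leafw_var h hV hB1.symm hz hB2 ω hω
  have h2 : 𝔊.lcw 𝔄.lam (𝔊.cap 𝔄.lam T) zB ≤ Kv * 𝔊.lcw 𝔄.lam (𝔊.cap 𝔄.lam T) z := by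
    have := tgx_lcw_var h hV hB1 hB2 hz
    rwa [hcap] at this
  have h3 : 𝔊.leafw zB ω ≤ 𝔊.lcw 𝔄.lam (𝔊.cap 𝔄.lam T) zB := by
    rw [← hω]; exact TGeo.tp_leafw_le_lcw h _ _ _
  have n1 := TGeo.leafw_nonneg (𝔊 := 𝔊) h zB ω
  have n2 := TGeo.lcw_nonneg (𝔊 := 𝔊) h 𝔄.lam (𝔊.cap 𝔄.lam T) zB
  rw [e]
  rcases n2.eq_or_lt with h0 | h0
  · have : 𝔊.leafw zB ω = 0 := le_antisymm (by rw [h0]; exact h3) n1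
    rw [this] at h1 ⊢
    simpa using h1
  · calc 𝔊.leafw z ω ≤ Kv * 𝔊.leafw zB ω := h1
      _ = Kv * (𝔊.leafw zB ω / 𝔊.lcw 𝔄.lam (𝔊.cap 𝔄.lam T) zB) * 𝔊.lcw 𝔄.lam (𝔊.cap 𝔄.lam T) zB := by
          field_simp
      _ ≤ Kv * (𝔊.leafw zB ω / 𝔊.lcw 𝔄.lam (𝔊.cap 𝔄.lam T) zB) * (Kv * 𝔊.lcw 𝔄.lam (𝔊.cap 𝔄.lam T) z) := by
          have : 0 ≤ 𝔊.leafw zB ω / 𝔊.lcw 𝔄.lam (𝔊.cap 𝔄.lam T) zB := div_nonneg n1 n2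
          gcongr
      _ = _ := by ring

/-! ## the angular bound -/

theorem tgx_nuz_nonneg (Sl : Finset (𝔖.C 𝔄.lam)) (O : 𝔄.BB → 𝔊.Dir → Prop) (ν : 𝔄.BB → 𝔊.Dir → ℝ) (hν : ∀ B ω, 0 ≤ ν B ω)
    (z : 𝔖.Y) (ω : 𝔊.Dir) : 0 ≤ 𝔄.nuz Sl O ν z ω :=
  Finset.sum_nonneg fun B _ => by split_ifs; exacts [hν B ω, le_rfl]

/-- **path domination by the residual reference measure** -/
theorem tgx_Jn_le (h : 𝔖.Ok p) (hg : 𝔊.Ok g) (hA : 𝔄.Ok p a) (S : ∀ i, Finset (𝔖.C i)) (Sl : Finset (𝔖.C 𝔄.lam))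
    (O : 𝔄.BB → 𝔊.Dir → Prop) (ν : 𝔄.BB → 𝔊.Dir → ℝ) (hν : ∀ B ω, 0 ≤ ν B ω) {m4 : ℝ} (hm4 : 0 ≤ m4)
    (hNU : ∀ z T ω, 𝔖.inc 𝔄.lam z T → 𝔊.anc 𝔄.lam ω = 𝔊.cap 𝔄.lam T →
      𝔊.leafw z ω ≤ m4 * ν (𝔄.Bx T) ω * 𝔊.lcw 𝔄.lam (𝔊.cap 𝔄.lam T) z) (z : 𝔖.Y) (ω : 𝔊.Dir) :
    𝔊.Jn (𝔄.RO S Sl O) z ω ≤ g.Γc ^ 𝔖.ℓ * m4 * 𝔄.nuz Sl O ν z ω * 𝔊.lcw 𝔄.lam (𝔊.anc 𝔄.lam ω) z := by
  have hΓ : 0 ≤ g.Γc ^ 𝔖.ℓ := pow_nonneg (zero_le_one.trans hg.one_le_Γc) _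
  have hn := tgx_nuz_nonneg Sl O ν hν z ω
  have hl := TGeo.lcw_nonneg (𝔊 := 𝔊) h 𝔄.lam (𝔊.anc 𝔄.lam ω) z
  by_cases hJ : 𝔊.Jn (𝔄.RO S Sl O) z ω = 0
  · rw [hJ]; positivity
  · obtain ⟨T, hT, hc, hi⟩ := TGeo.tp_attached h hg _ z ω hJ 𝔄.lam hA.lam_le
    rw [tgm_RO_lam, Finset.mem_filter] at hT
    have h1 := TGeo.tp_Jn_le_leaf h hg (𝔄.RO S Sl O) z ω
    have h2 := hNU z T ω hi hc.symm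
    rw [hc] at h2
    have h3 : ν (𝔄.Bx T) ω ≤ 𝔄.nuz Sl O ν z ω := by
      have := Finset.single_le_sum (f := fun B => if (∃ T ∈ Sl, 𝔄.Bx T = B ∧ 𝔖.inc 𝔄.lam z T ∧
          𝔊.cap 𝔄.lam T = 𝔊.anc 𝔄.lam ω) ∧ ¬ O B ω then ν B ω else 0)
        (fun B _ => by split_ifs; exacts [hν B ω, le_rfl]) (Finset.mem_univ (𝔄.Bx T))
      rw [if_pos ⟨⟨T, hT.1, rfl, hi, hc⟩, hT.2⟩] at this
      exact this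
    calc 𝔊.Jn (𝔄.RO S Sl O) z ω ≤ g.Γc ^ 𝔖.ℓ * 𝔊.leafw z ω := h1
      _ ≤ g.Γc ^ 𝔖.ℓ * (m4 * ν (𝔄.Bx T) ω * 𝔊.lcw 𝔄.lam (𝔊.anc 𝔄.lam ω) z) := by gcongr
      _ ≤ g.Γc ^ 𝔖.ℓ * (m4 * 𝔄.nuz Sl O ν z ω * 𝔊.lcw 𝔄.lam (𝔊.anc 𝔄.lam ω) z) := by gcongr
      _ = _ := by ring

/-- **strips have small residual reference measure** -/
theorem tgx_strip (hg : 𝔊.Ok g) (hA : 𝔄.Ok p a) (Sl : Finset (𝔖.C 𝔄.lam)) (O : 𝔄.BB → 𝔊.Dir → Prop)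
    (ν : 𝔄.BB → 𝔊.Dir → ℝ) (hν : ∀ B ω, 0 ≤ ν B ω) (t : ℕ → ℝ) (ht : ∀ i, 0 ≤ t i)
    (hres : ∀ B σ, ∑ ω, (if 𝔄.inStr (𝔄.lev σ) σ ω ∧ ¬ O B ω then ν B ω else 0) ≤ t (𝔄.lev σ))
    (z : 𝔖.Y) (τ : 𝔊.Cap 𝔄.lam) (σ : 𝔄.Str) :
    ∑ ω, (if 𝔊.anc 𝔄.lam ω = τ ∧ 𝔄.inStr (𝔄.lev σ) σ ω then 𝔄.nuz Sl O ν z ω else 0) ≤ g.m * t (𝔄.lev σ) := by
  have hm : 0 ≤ g.m := zero_le_one.trans hg.one_le_m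
  by_cases hτ : ∃ ω₀, 𝔊.anc 𝔄.lam ω₀ = τ
  · obtain ⟨ω₀, hω₀⟩ := hτ
    set U : Finset (𝔖.C 𝔄.lam) := Finset.univ.filter fun T => 𝔊.cap 𝔄.lam T = τ ∧ 𝔖.inc 𝔄.lam z T with hU
    have hUc : (U.card : ℝ) ≤ g.m := hg.mult1 𝔄.lam hA.lam_le ω₀ (𝔊.cel 𝔄.lam z ω₀) U fun T hT => by
      have := (Finset.mem_filter.1 hT).2
      exact ⟨this.1.trans hω₀.symm, z, rfl, this.2⟩
    have hIc : ((U.image 𝔄.Bx).card : ℝ) ≤ g.m :=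
      le_trans (by exact_mod_cast Finset.card_image_le) hUc
    have hterm : ∀ ω, (if 𝔊.anc 𝔄.lam ω = τ ∧ 𝔄.inStr (𝔄.lev σ) σ ω then 𝔄.nuz Sl O ν z ω else 0) ≤
        ∑ B ∈ U.image 𝔄.Bx, if 𝔄.inStr (𝔄.lev σ) σ ω ∧ ¬ O B ω then ν B ω else 0 := by
      intro ω
      have hr : 0 ≤ ∑ B ∈ U.image 𝔄.Bx, if 𝔄.inStr (𝔄.lev σ) σ ω ∧ ¬ O B ω then ν B ω else 0 :=
        Finset.sum_nonneg fun B _ => by split_ifs; exacts [hν B ω, le_rfl]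
      by_cases hc : 𝔊.anc 𝔄.lam ω = τ ∧ 𝔄.inStr (𝔄.lev σ) σ ω
      · rw [if_pos hc]
        unfold nuz
        rw [← Finset.sum_filter, ← Finset.sum_filter]
        refine Finset.sum_le_sum_of_subset_of_nonneg (fun B hB => ?_) fun B _ _ => hν B ω
        obtain ⟨⟨T, _, hTB, hTi, hTc⟩, hOB⟩ := (Finset.mem_filter.1 hB).2
        refine Finset.mem_filter.2 ⟨Finset.mem_image.2 ⟨T, Finset.mem_filter.2 ⟨Finset.mem_univ _, ?_, hTi⟩, hTB⟩, hc.2, hOB⟩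
        rw [hTc]; exact hc.1
      · rw [if_neg hc]; exact hr
    calc _ ≤ ∑ ω, ∑ B ∈ U.image 𝔄.Bx, if 𝔄.inStr (𝔄.lev σ) σ ω ∧ ¬ O B ω then ν B ω else 0 :=
          Finset.sum_le_sum fun ω _ => hterm ω
      _ = ∑ B ∈ U.image 𝔄.Bx, ∑ ω, if 𝔄.inStr (𝔄.lev σ) σ ω ∧ ¬ O B ω then ν B ω else 0 := Finset.sum_comm
      _ ≤ ∑ _B ∈ U.image 𝔄.Bx, t (𝔄.lev σ) := Finset.sum_le_sum fun B _ => hres B σ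
      _ = ((U.image 𝔄.Bx).card : ℝ) * t (𝔄.lev σ) := by rw [Finset.sum_const, nsmul_eq_mul]
      _ ≤ g.m * t (𝔄.lev σ) := mul_le_mul_of_nonneg_right hIc (ht _)
  · rw [Finset.sum_eq_zero fun ω _ => if_neg fun hc => hτ ⟨ω, hc.1⟩]
    exact mul_nonneg hm (ht _)

variable {J : 𝔖.Y → 𝔊.Dir → ℝ} {Y' : Finset 𝔖.Y} {Ω₀ : Type} [Fintype Ω₀] {P : FLaw Ω₀} {Z : Ω₀ → 𝔖.Y} {Om : Ω₀ → 𝔊.Dir}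

/-- **pointwise domination of the conditional direction law given `(Z, τ_l)` by the residual reference measure**, at every sampled `(Z, τ_l)` where the reverse cap comparison holds -/
theorem tgx_dom_law (h : 𝔖.Ok p) (hg : 𝔊.Ok g) (hA : 𝔄.Ok p a) (S : ∀ i, Finset (𝔖.C i)) (Sl : Finset (𝔖.C 𝔄.lam))
    (O : 𝔄.BB → 𝔊.Dir → Prop) (ν : 𝔄.BB → 𝔊.Dir → ℝ) (hν : ∀ B ω, 0 ≤ ν B ω) {m4 : ℝ} (hm4 : 0 ≤ m4)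
    (hNU : ∀ z T ω, 𝔖.inc 𝔄.lam z T → 𝔊.anc 𝔄.lam ω = 𝔊.cap 𝔄.lam T →
      𝔊.leafw z ω ≤ m4 * ν (𝔄.Bx T) ω * 𝔊.lcw 𝔄.lam (𝔊.cap 𝔄.lam T) z)
    (hJR : ∀ z ω, J z ω ≤ 𝔊.Jn (𝔄.RO S Sl O) z ω) (hL : 𝔊.IsLaw J Y' P Z Om) (ϖl : ℝ) (hϖ : 0 < ϖl)
    (hW : ∀ z ∈ Y', ϖl ≤ ∑ ω, J z ω) {s : ℝ} (hs : 0 < s) (x : Ω₀) (hx : P.p x ≠ 0)
    (hE : ¬ P.fib (pair (fun x => 𝔊.anc 𝔄.lam (Om x)) Z) x < 1 / s * 𝔊.lcw 𝔄.lam (𝔊.anc 𝔄.lam (Om x)) (Z x) * P.fib Z x)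
    (ω : 𝔊.Dir) (hω : 𝔊.anc 𝔄.lam ω = 𝔊.anc 𝔄.lam (Om x)) :
    P.pr (fun x' => Z x' = Z x ∧ Om x' = ω) ≤
      g.Γc ^ 𝔖.ℓ * m4 / ϖl * s * 𝔄.nuz Sl O ν (Z x) ω * P.fib (pair (fun x => 𝔊.anc 𝔄.lam (Om x)) Z) x := by
  have hz := (TGeo.tp_law_supp hL x hx).1
  have hN : (0 : ℝ) < Y'.card := by exact_mod_cast Finset.card_pos.2 ⟨_, hz⟩
  have hWz := hW _ hz
  have hWpos : 0 < ∑ ω, J (Z x) ω := hϖ.trans_le hWz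
  have hΓ : 0 ≤ g.Γc ^ 𝔖.ℓ := pow_nonneg (zero_le_one.trans hg.one_le_Γc) _
  have hn := tgx_nuz_nonneg Sl O ν hν (Z x) ω
  have hl := TGeo.lcw_nonneg (𝔊 := 𝔊) h 𝔄.lam (𝔊.anc 𝔄.lam (Om x)) (Z x)
  rw [not_lt, TGeo.tp_law_fibZ hL (fun z hz => hϖ.trans_le (hW z hz)) x hx] at hE
  have hJ := (hJR (Z x) ω).trans (tgx_Jn_le h hg hA S Sl O ν hν hm4 hNU (Z x) ω)
  rw [hω] at hJ
  have hE' : 𝔊.lcw 𝔄.lam (𝔊.anc 𝔄.lam (Om x)) (Z x) / Y'.card ≤ s * P.fib (pair (fun x => 𝔊.anc 𝔄.lam (Om x)) Z) x := by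
    have := mul_le_mul_of_nonneg_left hE hs.le
    calc _ = s * (1 / s * 𝔊.lcw 𝔄.lam (𝔊.anc 𝔄.lam (Om x)) (Z x) * (1 / Y'.card)) := by field_simp
      _ ≤ _ := this
  rw [hL.joint, if_pos hz]
  calc J (Z x) ω / (Y'.card * ∑ ω', J (Z x) ω')
      ≤ g.Γc ^ 𝔖.ℓ * m4 * 𝔄.nuz Sl O ν (Z x) ω * 𝔊.lcw 𝔄.lam (𝔊.anc 𝔄.lam (Om x)) (Z x) / (Y'.card * ∑ ω', J (Z x) ω') := by
        gcongr
    _ ≤ g.Γc ^ 𝔖.ℓ * m4 * 𝔄.nuz Sl O ν (Z x) ω * 𝔊.lcw 𝔄.lam (𝔊.anc 𝔄.lam (Om x)) (Z x) / (Y'.card * ϖl) := by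
        gcongr
    _ = g.Γc ^ 𝔖.ℓ * m4 / ϖl * 𝔄.nuz Sl O ν (Z x) ω * (𝔊.lcw 𝔄.lam (𝔊.anc 𝔄.lam (Om x)) (Z x) / Y'.card) := by
        field_simp
    _ ≤ g.Γc ^ 𝔖.ℓ * m4 / ϖl * 𝔄.nuz Sl O ν (Z x) ω * (s * P.fib (pair (fun x => 𝔊.anc 𝔄.lam (Om x)) Z) x) := by
        gcongr
    _ = _ := by ring

/-- **THE ANGULAR TEST** (`f:angular`, first assertion): off probability `ϖ0 / s` (an event which depends only on `(Z, τ_l)`), EVERY strip `σ` has conditional probability `≤ (Γc^ℓ m4 m / ϖl) s t(lev σ)` given `(Z, τ_l)`. -/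
theorem tgx_ang_law (h : 𝔖.Ok p) (hg : 𝔊.Ok g) (hA : 𝔄.Ok p a) (S : ∀ i, Finset (𝔖.C i)) (Sl : Finset (𝔖.C 𝔄.lam))
    (O : 𝔄.BB → 𝔊.Dir → Prop) (ν : 𝔄.BB → 𝔊.Dir → ℝ) (hν : ∀ B ω, 0 ≤ ν B ω) {m4 : ℝ} (hm4 : 0 ≤ m4)
    (hNU : ∀ z T ω, 𝔖.inc 𝔄.lam z T → 𝔊.anc 𝔄.lam ω = 𝔊.cap 𝔄.lam T →
      𝔊.leafw z ω ≤ m4 * ν (𝔄.Bx T) ω * 𝔊.lcw 𝔄.lam (𝔊.cap 𝔄.lam T) z)
    (t : ℕ → ℝ) (ht : ∀ i, 0 ≤ t i)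
    (hres : ∀ B σ, ∑ ω, (if 𝔄.inStr (𝔄.lev σ) σ ω ∧ ¬ O B ω then ν B ω else 0) ≤ t (𝔄.lev σ))
    (hJ0 : ∀ z ω, 0 ≤ J z ω) (hJR : ∀ z ω, J z ω ≤ 𝔊.Jn (𝔄.RO S Sl O) z ω) (hL : 𝔊.IsLaw J Y' P Z Om) (ϖl : ℝ)
    (hϖ : 0 < ϖl) (hW : ∀ z ∈ Y', ϖl ≤ ∑ ω, J z ω) {s : ℝ} (hs : 0 < s) :
    P.pr (fun x => ¬ ∀ σ, P.pr (fun x' => (Z x' = Z x ∧ 𝔊.anc 𝔄.lam (Om x') = 𝔊.anc 𝔄.lam (Om x)) ∧
        𝔄.inStr (𝔄.lev σ) σ (Om x')) ≤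
      g.Γc ^ 𝔖.ℓ * m4 * g.m / ϖl * s * t (𝔄.lev σ) * P.fib (pair (fun x => 𝔊.anc 𝔄.lam (Om x)) Z) x) ≤ p.ϖ0 / s := by
  refine le_trans (ent_pr_mono P fun x hx hb => ?_) (TGeo.tp_lcap_law h hg hJ0 hJR hL ϖl hϖ hW 𝔄.lam hs).2
  by_contra hE
  apply hb
  intro σ
  have hΓ : 0 ≤ g.Γc ^ 𝔖.ℓ := pow_nonneg (zero_le_one.trans hg.one_le_Γc) _
  have hf := ent_fib_nonneg P (pair (fun x => 𝔊.anc 𝔄.lam (Om x)) Z) x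
  have e1 := ent_pr_sum_values P (fun x' => (Z x' = Z x ∧ 𝔊.anc 𝔄.lam (Om x') = 𝔊.anc 𝔄.lam (Om x)) ∧
    𝔄.inStr (𝔄.lev σ) σ (Om x')) Om Finset.univ fun _ _ _ => Finset.mem_univ _
  rw [e1]
  have hterm : ∀ ω ∈ Finset.univ, P.pr (fun x' => ((Z x' = Z x ∧ 𝔊.anc 𝔄.lam (Om x') = 𝔊.anc 𝔄.lam (Om x)) ∧
      𝔄.inStr (𝔄.lev σ) σ (Om x')) ∧ Om x' = ω) ≤
      g.Γc ^ 𝔖.ℓ * m4 / ϖl * s * P.fib (pair (fun x => 𝔊.anc 𝔄.lam (Om x)) Z) x *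
        (if 𝔊.anc 𝔄.lam ω = 𝔊.anc 𝔄.lam (Om x) ∧ 𝔄.inStr (𝔄.lev σ) σ ω then 𝔄.nuz Sl O ν (Z x) ω else 0) := by
    intro ω _
    by_cases hc : 𝔊.anc 𝔄.lam ω = 𝔊.anc 𝔄.lam (Om x) ∧ 𝔄.inStr (𝔄.lev σ) σ ω
    · rw [if_pos hc]
      refine le_trans (ent_pr_mono P fun x' _ hh => (⟨hh.1.1.1, hh.2⟩ : Z x' = Z x ∧ Om x' = ω)) ?_
      refine (tgx_dom_law h hg hA S Sl O ν hν hm4 hNU hJR hL ϖl hϖ hW hs x hx hE ω hc.1).trans (le_of_eq ?_)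
      ring
    · rw [if_neg hc, mul_zero]
      refine le_of_eq (ent_pr_eq_zero P fun x' _ hh => hc ?_)
      rw [← hh.2]
      exact ⟨hh.1.1.2, hh.1.2⟩
  calc _ ≤ ∑ ω, g.Γc ^ 𝔖.ℓ * m4 / ϖl * s * P.fib (pair (fun x => 𝔊.anc 𝔄.lam (Om x)) Z) x *
        (if 𝔊.anc 𝔄.lam ω = 𝔊.anc 𝔄.lam (Om x) ∧ 𝔄.inStr (𝔄.lev σ) σ ω then 𝔄.nuz Sl O ν (Z x) ω else 0) :=
        Finset.sum_le_sum hterm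
    _ = g.Γc ^ 𝔖.ℓ * m4 / ϖl * s * P.fib (pair (fun x => 𝔊.anc 𝔄.lam (Om x)) Z) x *
        ∑ ω, (if 𝔊.anc 𝔄.lam ω = 𝔊.anc 𝔄.lam (Om x) ∧ 𝔄.inStr (𝔄.lev σ) σ ω then 𝔄.nuz Sl O ν (Z x) ω else 0) := by
        rw [Finset.mul_sum]
    _ ≤ g.Γc ^ 𝔖.ℓ * m4 / ϖl * s * P.fib (pair (fun x => 𝔊.anc 𝔄.lam (Om x)) Z) x * (g.m * t (𝔄.lev σ)) := by
        have := tgx_strip hg hA Sl O ν hν t ht hres (Z x) (𝔊.anc 𝔄.lam (Om x)) σ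
        gcongr
    _ = _ := by ring

end TAng

end

end Claimed.Agent.R257.FR2
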