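import Claimed.Agent.R257.FR2.PathTop

/-!
# ROW 257, package FR2, units JOINT + COND: SEVERAL DIRECTIONS OVER ONE WITNESS, `f:conditioning` FOR PATH LAWS      (architect + prover helper125)

Paper-free (H `frame.tex` l.972-1006, 1292, 1400-1445).   NO sorry.
GENERIC (namespace `Claimed.Agent.R257`, language `R255/Base/Law`, `R255/Ent/Basic`):
* `fj_ext_pr_fst`, `fj_ext_fib_fst`   old events / fibres do not change when a label is adjoined by a kernel (`FLaw.ext`)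
* `fj_ext_pr_of`, `fj_ext_ci`         a kernel which depends only on `X`: the new label is conditionally independent of EVERY old observation given `X`
* `fj_ci_congr`                       `CI` only sees the observations almost surely
* `fp_cond_pt`                        **`f:conditioning` from a POINTWISE density bound**: atoms `V` (position and all other drawn objects), `A`, `C` functions of `V`; off an event `E` the density of `Θ` given the atom is `≤ K ν_C`.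
PATH LAWS (namespace `FR2.TGeo`):
* `tp_law_map`      `IsLaw` for an image law = `IsLaw` upstairs (use with `rd_map` of `FR3/Redraw`)
* `tp_law_fst`      the old directions keep their law when a label is adjoined
* `tp_law_adjoin`   adjoin a direction of ANY field over the same witnesses: `IsLaw` + `CI` with every old observation given `Z`
* `tp_law_redraw`   redraw a direction inside the cap `anc l Om`: `IsLaw` again, same cap, `CI` with every old observation given `(Z, cap)`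
* `tp_cond_root`, `tp_cond_cap`   `f:conditioning`
-/

set_option autoImplicit false

namespace Claimed.Agent.R257

open scoped BigOperators
open Classical
open Claimed.Agent.R255 Claimed.Agent.R255.FLaw

variable {Ω : Type} [Fintype Ω] {α β γ δ ξ : Type}

theorem fj_ext_pr_fst {Γ : Type} [Fintype Γ] (P : FLaw Ω) (κ : Ker Ω Γ) (E : Ω → Prop) :
    (P.ext κ).pr (fun x => E x.1) = P.pr E := by
  have h := ent_map_pr (P.ext κ) Prod.fst E
  rw [ent_ext_map_fst] at h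
  exact h.symm

theorem fj_ext_fib_fst {Γ : Type} [Fintype Γ] (P : FLaw Ω) (κ : Ker Ω Γ) (X : Ω → α) (x : Ω × Γ) :
    (P.ext κ).fib (fun x => X x.1) x = P.fib X x.1 :=
  fj_ext_pr_fst P κ fun ω => X ω = X x.1

theorem fj_ext_supp {Γ : Type} [Fintype Γ] (P : FLaw Ω) (κ : Ker Ω Γ) {x : Ω × Γ} (hx : (P.ext κ).p x ≠ 0) :
    P.p x.1 ≠ 0 ∧ κ.k x.1 x.2 ≠ 0 := by
  have : P.p x.1 * κ.k x.1 x.2 ≠ 0 := hx
  exact ⟨left_ne_zero_of_mul this, right_ne_zero_of_mul this⟩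

/-- the joint mass of an old event and a value of the new label -/
theorem fj_ext_pr {Γ : Type} [Fintype Γ] (P : FLaw Ω) (κ : Ker Ω Γ) (E : Ω → Prop) (g : Γ) :
    (P.ext κ).pr (fun x => E x.1 ∧ x.2 = g) = ∑ ω, if E ω then P.p ω * κ.k ω g else 0 := by
  unfold FLaw.pr
  rw [Fintype.sum_prod_type]
  refine Finset.sum_congr rfl fun ω _ => ?_
  by_cases hE : E ω
  · simp only [hE, true_and, if_true]
    rw [Finset.sum_ite_eq' Finset.univ g fun g' => (P.ext κ).p (ω, g'), if_pos (Finset.mem_univ _)]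
    rfl
  · simp [hE]

/-- a kernel which depends only on `X` -/
theorem fj_ext_pr_of {Γ : Type} [Fintype Γ] (P : FLaw Ω) (κ : Ker Ω Γ) (X : Ω → ξ)
    (hκ : ∀ ω ω', X ω = X ω' → κ.k ω = κ.k ω') (E : Ω → Prop) (ω₀ : Ω) (g : Γ) :
    (P.ext κ).pr (fun x => (E x.1 ∧ X x.1 = X ω₀) ∧ x.2 = g) = κ.k ω₀ g * P.pr (fun ω => E ω ∧ X ω = X ω₀) := by
  rw [fj_ext_pr P κ (fun ω => E ω ∧ X ω = X ω₀) g]
  unfold FLaw.pr
  rw [Finset.mul_sum]
  refine Finset.sum_congr rfl fun ω _ => ?_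
  by_cases hE : E ω ∧ X ω = X ω₀
  · rw [if_pos hE, if_pos hE, hκ ω ω₀ hE.2, mul_comm]
  · rw [if_neg hE, if_neg hE, mul_zero]

/-- **the adjoined label is conditionally independent of every old observation given `X`** -/
theorem fj_ext_ci {Γ : Type} [Fintype Γ] (P : FLaw Ω) (κ : Ker Ω Γ) (X : Ω → ξ)
    (hκ : ∀ ω ω', X ω = X ω' → κ.k ω = κ.k ω') (U : Ω → α) :
    (P.ext κ).CI (fun x => x.2) (fun x => U x.1) (fun x => X x.1) := by
  intro g u z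
  by_cases hz : ∃ ω₀, X ω₀ = z
  · obtain ⟨ω₀, rfl⟩ := hz
    have e1 : (P.ext κ).pr (fun x => x.2 = g ∧ U x.1 = u ∧ X x.1 = X ω₀) =
        κ.k ω₀ g * P.pr (fun ω => U ω = u ∧ X ω = X ω₀) := by
      rw [← fj_ext_pr_of P κ X hκ (fun ω => U ω = u) ω₀ g]
      exact ent_pr_congr _ fun x _ => by tauto
    have e2 : (P.ext κ).pr (fun x => x.2 = g ∧ X x.1 = X ω₀) = κ.k ω₀ g * P.pr (fun ω => True ∧ X ω = X ω₀) := by
      rw [← fj_ext_pr_of P κ X hκ (fun _ => True) ω₀ g]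
      exact ent_pr_congr _ fun x _ => by tauto
    have e3 : (P.ext κ).pr (fun x => X x.1 = X ω₀) = P.pr (fun ω => True ∧ X ω = X ω₀) := by
      rw [fj_ext_pr_fst P κ fun ω => X ω = X ω₀]
      exact ent_pr_congr _ fun x _ => by tauto
    have e4 : (P.ext κ).pr (fun x => U x.1 = u ∧ X x.1 = X ω₀) = P.pr (fun ω => U ω = u ∧ X ω = X ω₀) :=
      fj_ext_pr_fst P κ fun ω => U ω = u ∧ X ω = X ω₀
    rw [e1, e2, e3, e4]
    ring
  · have e1 : (P.ext κ).pr (fun x => x.2 = g ∧ U x.1 = u ∧ X x.1 = z) = 0 :=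
      ent_pr_eq_zero _ fun x _ hh => hz ⟨x.1, hh.2.2⟩
    have e2 : (P.ext κ).pr (fun x => x.2 = g ∧ X x.1 = z) = 0 :=
      ent_pr_eq_zero _ fun x _ hh => hz ⟨x.1, hh.2⟩
    rw [e1, e2, zero_mul, zero_mul]

/-- `CI` only sees the observations almost surely -/
theorem fj_ci_congr (P : FLaw Ω) {U U' : Ω → α} {V V' : Ω → β} {Z Z' : Ω → γ} (hU : ∀ ω, P.p ω ≠ 0 → U ω = U' ω)
    (hV : ∀ ω, P.p ω ≠ 0 → V ω = V' ω) (hZ : ∀ ω, P.p ω ≠ 0 → Z ω = Z' ω) (h : P.CI U V Z) : P.CI U' V' Z' := by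
  intro u v z
  have h1 := h u v z
  have e1 : P.pr (fun ω => U ω = u ∧ V ω = v ∧ Z ω = z) = P.pr (fun ω => U' ω = u ∧ V' ω = v ∧ Z' ω = z) :=
    ent_pr_congr P fun ω hω => by rw [hU ω hω, hV ω hω, hZ ω hω]
  have e2 : P.pr (fun ω => Z ω = z) = P.pr (fun ω => Z' ω = z) := ent_pr_congr P fun ω hω => by rw [hZ ω hω]
  have e3 : P.pr (fun ω => U ω = u ∧ Z ω = z) = P.pr (fun ω => U' ω = u ∧ Z' ω = z) :=
    ent_pr_congr P fun ω hω => by rw [hU ω hω, hZ ω hω]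
  have e4 : P.pr (fun ω => V ω = v ∧ Z ω = z) = P.pr (fun ω => V' ω = v ∧ Z' ω = z) :=
    ent_pr_congr P fun ω hω => by rw [hV ω hω, hZ ω hω]
  rw [e1, e2, e3, e4] at h1
  exact h1

/-- the part of a cell `(Θ, A, C)` off `E` is dominated by the reference law -/
theorem fj_cell_dom (P : FLaw Ω) (V : Ω → ξ) (A : Ω → α) (C : Ω → γ) (Θ : Ω → δ)
    (hA : ∀ ω ω', V ω = V ω' → A ω = A ω') (hC : ∀ ω ω', V ω = V ω' → C ω = C ω')
    (ν : γ → δ → ℝ) (hν : ∀ c θ, 0 ≤ ν c θ) {K : ℝ} (hK : 0 ≤ K) (E : Ω → Prop)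
    (hdom : ∀ ω, P.p ω ≠ 0 → ¬ E ω → P.fib (pair Θ V) ω ≤ K * ν (C ω) (Θ ω) * P.fib V ω) (ω : Ω) :
    P.pr (fun ω' => pair Θ (pair A C) ω' = pair Θ (pair A C) ω ∧ ¬ E ω') ≤
      K * ν (C ω) (Θ ω) * P.fib (pair A C) ω := by
  set F : Ω → Prop := fun ω' => pair Θ (pair A C) ω' = pair Θ (pair A C) ω ∧ ¬ E ω' with hF
  have e1 : P.pr F = ∑ v ∈ Finset.univ.image V, P.pr (fun ω' => F ω' ∧ V ω' = v) :=
    ent_pr_sum_values P F V _ fun ω' _ _ => Finset.mem_image_of_mem V (Finset.mem_univ ω')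
  have hterm : ∀ v ∈ Finset.univ.image V, P.pr (fun ω' => F ω' ∧ V ω' = v) ≤
      K * ν (C ω) (Θ ω) * P.pr (fun ω' => V ω' = v ∧ pair A C ω' = pair A C ω) := by
    intro v _
    by_cases hex : ∃ ω', P.p ω' ≠ 0 ∧ F ω' ∧ V ω' = v
    · obtain ⟨ω', hω', hF', hv⟩ := hex
      have hΘ : Θ ω' = Θ ω := congrArg Prod.fst hF'.1
      have hAC : pair A C ω' = pair A C ω := congrArg Prod.snd hF'.1
      have hCC : C ω' = C ω := congrArg Prod.snd hAC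
      have s1 : P.pr (fun ω'' => F ω'' ∧ V ω'' = v) ≤ P.fib (pair Θ V) ω' := by
        rw [ent_fib_pair]
        exact ent_pr_mono P fun ω'' _ hh => ⟨(congrArg Prod.fst hh.1.1).trans hΘ.symm, hh.2.trans hv.symm⟩
      have s2 := hdom ω' hω' hF'.2
      rw [hΘ, hCC] at s2
      have s3 : P.fib V ω' = P.pr (fun ω'' => V ω'' = v ∧ pair A C ω'' = pair A C ω) := by
        refine ent_pr_congr P fun ω'' _ => ⟨fun hh => ⟨hh.trans hv, ?_⟩, fun hh => hh.1.trans hv.symm⟩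
        rw [← hAC]
        exact Prod.ext (hA _ _ hh) (hC _ _ hh)
      rw [s3] at s2
      exact s1.trans s2
    · rw [ent_pr_eq_zero P fun ω' hω' hh => hex ⟨ω', hω', hh⟩]
      exact mul_nonneg (mul_nonneg hK (hν _ _)) (ent_pr_nonneg P _)
  rw [e1]
  calc _ ≤ ∑ v ∈ Finset.univ.image V, K * ν (C ω) (Θ ω) * P.pr (fun ω' => V ω' = v ∧ pair A C ω' = pair A C ω) :=
        Finset.sum_le_sum hterm
    _ = K * ν (C ω) (Θ ω) * ∑ v ∈ Finset.univ.image V, P.pr (fun ω' => V ω' = v ∧ pair A C ω' = pair A C ω) := by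
        rw [Finset.mul_sum]
    _ ≤ _ := mul_le_mul_of_nonneg_left (fp_sum_pr_and_le P V _ _) (mul_nonneg hK (hν _ _))

/-- **`f:conditioning` from a pointwise density bound.**   `V` = the atom (position and all the other drawn objects), the position label `A` and the cell `C` are functions of `V`, `Θ` = the added direction, `ν c ·` = reference law of the cell.
If off an event `E` the conditional density of `Θ` given the atom is `≤ K ν_C(Θ)`, then off probability `2 P(E) + (K₁ + 1)/t`:   `t⁻¹ P(A | C) ≤ P(A | C, Θ) ≤ 2 K t P(A | C)`. -/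
theorem fp_cond_pt (P : FLaw Ω) (V : Ω → ξ) (A : Ω → α) (C : Ω → γ) (Θ : Ω → δ)
    (hA : ∀ ω ω', V ω = V ω' → A ω = A ω') (hC : ∀ ω ω', V ω = V ω' → C ω = C ω')
    (ν : γ → δ → ℝ) (hν : ∀ c θ, 0 ≤ ν c θ) {K₁ K t : ℝ} (hK₁ : ∀ c, ∀ S : Finset δ, ∑ θ ∈ S, ν c θ ≤ K₁)
    (hK : 0 ≤ K) (E : Ω → Prop)
    (hdom : ∀ ω, P.p ω ≠ 0 → ¬ E ω → P.fib (pair Θ V) ω ≤ K * ν (C ω) (Θ ω) * P.fib V ω) (ht : 0 < t) :
    P.pr (fun ω => ¬ (P.fib (pair A C) ω / P.fib C ω ≤ t * (P.fib (pair A (pair C Θ)) ω / P.fib (pair C Θ) ω) ∧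
      P.fib (pair A (pair C Θ)) ω / P.fib (pair C Θ) ω ≤ 2 * K * t * (P.fib (pair A C) ω / P.fib C ω)))
      ≤ 2 * P.pr E + (K₁ + 1) / t := by
  have hm := ent_cell_markov P (pair Θ (pair A C)) E (τ := 1 / 2) (by norm_num)
  have h1 := fp_cond P A C Θ ν hν hK₁ (K := 2 * K) (by positivity)
    (fun ω => 1 / 2 ≤ (P.cfib (pair Θ (pair A C)) ω).pr E) (fun ω hω hb => ?_) ht
  · refine h1.trans ?_
    have : P.pr E / (1 / 2) = 2 * P.pr E := by ring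
    linarith
  · have hpos := ent_fib_pos P (pair Θ (pair A C)) hω
    rw [not_le, ent_cfib_pr P _ hpos, div_lt_iff₀ hpos] at hb
    have hs := ent_pr_split P (fun ω' => pair Θ (pair A C) ω' = pair Θ (pair A C) ω) E
    have hs' : P.fib (pair Θ (pair A C)) ω = P.pr (fun ω' => pair Θ (pair A C) ω' = pair Θ (pair A C) ω ∧ E ω') +
      P.pr (fun ω' => pair Θ (pair A C) ω' = pair Θ (pair A C) ω ∧ ¬ E ω') := hs
    have hc : P.pr (fun ω' => E ω' ∧ pair Θ (pair A C) ω' = pair Θ (pair A C) ω) =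
        P.pr (fun ω' => pair Θ (pair A C) ω' = pair Θ (pair A C) ω ∧ E ω') := ent_pr_congr P fun _ _ => and_comm
    have hd := fj_cell_dom P V A C Θ hA hC ν hν hK E hdom ω
    rw [hc] at hb
    nlinarith

/-- the same in terms of sampled conditional surprises -/
theorem fp_cond_pt_surC (P : FLaw Ω) (V : Ω → ξ) (A : Ω → α) (C : Ω → γ) (Θ : Ω → δ)
    (hA : ∀ ω ω', V ω = V ω' → A ω = A ω') (hC : ∀ ω ω', V ω = V ω' → C ω = C ω')
    (ν : γ → δ → ℝ) (hν : ∀ c θ, 0 ≤ ν c θ) {K₁ K t : ℝ} (hK₁ : ∀ c, ∀ S : Finset δ, ∑ θ ∈ S, ν c θ ≤ K₁)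
    (hK : 0 < K) (E : Ω → Prop)
    (hdom : ∀ ω, P.p ω ≠ 0 → ¬ E ω → P.fib (pair Θ V) ω ≤ K * ν (C ω) (Θ ω) * P.fib V ω) (ht : 0 < t) :
    P.pr (fun ω => ¬ (P.surC A (pair C Θ) ω ≤ P.surC A C ω + Real.log t ∧
      P.surC A C ω ≤ P.surC A (pair C Θ) ω + Real.log (2 * K * t))) ≤ 2 * P.pr E + (K₁ + 1) / t := by
  refine le_trans (ent_pr_mono P fun ω hω hb => ?_) (fp_cond_pt P V A C Θ hA hC ν hν hK₁ hK.le E hdom ht)
  intro hcon
  apply hb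
  obtain ⟨h1, h2⟩ := hcon
  have p1 : 0 < P.fib (pair A C) ω / P.fib C ω := div_pos (ent_fib_pos P _ hω) (ent_fib_pos P _ hω)
  have p2 : 0 < P.fib (pair A (pair C Θ)) ω / P.fib (pair C Θ) ω := div_pos (ent_fib_pos P _ hω) (ent_fib_pos P _ hω)
  unfold FLaw.surC
  constructor
  · have := Real.log_le_log p1 h1
    rw [Real.log_mul ht.ne' p2.ne'] at this
    linarith
  · have := Real.log_le_log p2 h2
    rw [Real.log_mul (by positivity) p1.ne'] at this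
    linarith

/-! ## normalised kernels, uniform observations -/

/-- the kernel `w ω · / ∑ w ω` (uniform where the total weight vanishes) -/
noncomputable def fjKer {Γ : Type} [Fintype Γ] [Nonempty Γ] (w : Ω → Γ → ℝ) (hw : ∀ ω g, 0 ≤ w ω g) : Ker Ω Γ where
  k := fun ω g => if 0 < ∑ g', w ω g' then w ω g / ∑ g', w ω g' else 1 / (Fintype.card Γ : ℝ)
  nonneg := fun ω g => by
    split_ifs with h
    · exact div_nonneg (hw _ _) h.le
    · positivity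
  sum_one := fun ω => by
    split_ifs with h
    · rw [← Finset.sum_div]; exact div_self h.ne'
    · rw [Finset.sum_const, Finset.card_univ, nsmul_eq_mul]
      have : (Fintype.card Γ : ℝ) ≠ 0 := by exact_mod_cast Fintype.card_ne_zero
      field_simp

omit [Fintype Ω] in
theorem fj_ker_pos {Γ : Type} [Fintype Γ] [Nonempty Γ] (w : Ω → Γ → ℝ) (hw : ∀ ω g, 0 ≤ w ω g) (ω : Ω)
    (h : 0 < ∑ g', w ω g') (g : Γ) : (fjKer w hw).k ω g = w ω g / ∑ g', w ω g' := if_pos h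

omit [Fintype Ω] in
theorem fj_ker_congr {Γ : Type} [Fintype Γ] [Nonempty Γ] (w : Ω → Γ → ℝ) (hw : ∀ ω g, 0 ≤ w ω g) {ω ω' : Ω}
    (h : w ω = w ω') : (fjKer w hw).k ω = (fjKer w hw).k ω' := by
  funext g
  show (if 0 < ∑ g', w ω g' then w ω g / ∑ g', w ω g' else 1 / (Fintype.card Γ : ℝ)) =
    if 0 < ∑ g', w ω' g' then w ω' g / ∑ g', w ω' g' else 1 / (Fintype.card Γ : ℝ)
  rw [h]

/-- `Z` is uniformly distributed on `Y'` -/
def FUnif {ζ : Type} (P : FLaw Ω) (Z : Ω → ζ) (Y' : Finset ζ) : Prop :=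
  ∀ z, P.pr (fun x => Z x = z) = if z ∈ Y' then 1 / (Y'.card : ℝ) else 0

theorem fj_unif_map {ζ ζ' : Type} {P : FLaw Ω} {Z : Ω → ζ} {Y' : Finset ζ} (h : FUnif P Z Y') (e : ζ ↪ ζ') :
    FUnif P (fun x => e (Z x)) (Y'.map e) := by
  intro z'
  by_cases hz : ∃ z, e z = z'
  · obtain ⟨z, rfl⟩ := hz
    rw [ent_pr_congr P (F := fun x => Z x = z) fun x _ => e.injective.eq_iff, h z, Finset.card_map]
    simp only [Finset.mem_map', ]
  · rw [ent_pr_eq_zero P fun x _ hh => hz ⟨_, hh⟩, if_neg]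
    intro hm
    obtain ⟨z, _, hz'⟩ := Finset.mem_map.1 hm
    exact hz ⟨z, hz'⟩

theorem fj_unif_fst {ζ Γ : Type} [Fintype Γ] {P : FLaw Ω} {Z : Ω → ζ} {Y' : Finset ζ} (h : FUnif P Z Y')
    (κ : Ker Ω Γ) : FUnif (P.ext κ) (fun x => Z x.1) Y' := fun z => by
  rw [fj_ext_pr_fst P κ fun ω => Z ω = z]; exact h z

end Claimed.Agent.R257

namespace Claimed.Agent.R257.FR2

open scoped BigOperators Classical
open Claimed.Agent.R255 Claimed.Agent.R255.FLaw Claimed.Agent.R257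

noncomputable section

namespace TGeo

variable {𝔖 : TSys} {𝔊 : TGeo 𝔖} {p : TPar} {g : GPar}
variable {R : 𝔊.Restr} {J : 𝔖.Y → 𝔊.Dir → ℝ} {Y' : Finset 𝔖.Y} {Ω₀ : Type} [Fintype Ω₀] {P : FLaw Ω₀} {Z : Ω₀ → 𝔖.Y} {Om : Ω₀ → 𝔊.Dir}
variable {α γ ξ : Type}

/-- `IsLaw` for an image law = `IsLaw` upstairs -/
theorem tp_law_map {Ω₁ : Type} [Fintype Ω₁] (Q : FLaw Ω₁) (φ : Ω₁ → Ω₀) (hL : 𝔊.IsLaw J Y' (Q.map φ) Z Om) :
    𝔊.IsLaw J Y' Q (fun x => Z (φ x)) (fun x => Om (φ x)) :=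
  ⟨fun z ω => by rw [← hL.joint z ω, ent_map_pr]⟩

/-- the old directions keep their law when a label is adjoined -/
theorem tp_law_fst {Γ : Type} [Fintype Γ] (κ : Ker Ω₀ Γ) (hL : 𝔊.IsLaw J Y' P Z Om) :
    𝔊.IsLaw J Y' (P.ext κ) (fun x => Z x.1) (fun x => Om x.1) :=
  ⟨fun z ω => by rw [← hL.joint z ω]; exact fj_ext_pr_fst P κ fun x => Z x = z ∧ Om x = ω⟩

/-- the witness of a path law is uniform on the root set -/
theorem tp_law_unif (hL : 𝔊.IsLaw J Y' P Z Om) (hW : ∀ z ∈ Y', 0 < ∑ ω, J z ω) : FUnif P Z Y' := by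
  intro z
  have h1 : P.pr (fun x => Z x = z) = ∑ ω ∈ Finset.univ, P.pr (fun x => Z x = z ∧ Om x = ω) :=
    ent_pr_sum_values P (fun x => Z x = z) Om Finset.univ fun _ _ _ => Finset.mem_univ _
  rw [h1]
  simp only [hL.joint]
  by_cases hz : z ∈ Y'
  · simp only [if_pos hz]
    have hN : (0 : ℝ) < Y'.card := by exact_mod_cast Finset.card_pos.2 ⟨_, hz⟩
    have := hW z hz
    rw [← Finset.sum_div]
    field_simp
  · simp only [if_neg hz, Finset.sum_const_zero]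

/-- **adjoin a direction of a field over the same witnesses**, drawn from the kernel `J` given the witness: it has the path law of `J` and is conditionally independent of EVERY old observation given the witness.
(Other field: `Z = e ∘ Z₁`, `fj_unif_map`.) -/
theorem tp_law_adjoin (P : FLaw Ω₀) (Z : Ω₀ → 𝔖.Y) (hZ : FUnif P Z Y') (hJ0 : ∀ z ω, 0 ≤ J z ω)
    (hW : ∀ z ∈ Y', 0 < ∑ ω, J z ω) (hY : Y'.Nonempty) :
    ∃ κ : Ker Ω₀ 𝔊.Dir, 𝔊.IsLaw J Y' (P.ext κ) (fun x => Z x.1) (fun x => x.2) ∧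
      ∀ (α : Type) (U : Ω₀ → α), (P.ext κ).CI (fun x => x.2) (fun x => U x.1) (fun x => Z x.1) := by
  obtain ⟨z₀, hz₀⟩ := hY
  have : Nonempty 𝔊.Dir := by
    by_contra hne
    rw [not_nonempty_iff] at hne
    have := hW z₀ hz₀
    simp at this
  set κ : Ker Ω₀ 𝔊.Dir := fjKer (fun x ω => J (Z x) ω) (fun x ω => hJ0 _ _) with hκ
  have hdep : ∀ x x', Z x = Z x' → κ.k x = κ.k x' := fun x x' hh =>
    fj_ker_congr _ _ (by show (fun ω => J (Z x) ω) = fun ω => J (Z x') ω; rw [hh])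
  refine ⟨κ, ⟨fun z ω => ?_⟩, fun α U => fj_ext_ci P κ Z hdep U⟩
  by_cases hz : ∃ x₀, Z x₀ = z
  · obtain ⟨x₀, rfl⟩ := hz
    have e1 : (P.ext κ).pr (fun x => Z x.1 = Z x₀ ∧ x.2 = ω) = κ.k x₀ ω * P.pr (fun x => True ∧ Z x = Z x₀) := by
      rw [← fj_ext_pr_of P κ Z hdep (fun _ => True) x₀ ω]
      exact ent_pr_congr _ fun x _ => by tauto
    have e2 : P.pr (fun x => True ∧ Z x = Z x₀) = P.pr (fun x => Z x = Z x₀) := ent_pr_congr _ fun x _ => by tauto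
    rw [e1, e2, hZ (Z x₀)]
    by_cases hm : Z x₀ ∈ Y'
    · rw [if_pos hm, if_pos hm, hκ, fj_ker_pos _ _ x₀ (hW _ hm)]
      rw [div_mul_div_comm, mul_one, mul_comm (∑ ω', J (Z x₀) ω')]
    · rw [if_neg hm, if_neg hm, mul_zero]
  · have hm : z ∉ Y' := by
      intro hm
      have h1 := hZ z
      rw [if_pos hm, ent_pr_eq_zero P fun x _ hh => hz ⟨x, hh⟩] at h1
      have hN : (0 : ℝ) < Y'.card := by exact_mod_cast Finset.card_pos.2 ⟨_, hm⟩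
      have : (0 : ℝ) < 1 / Y'.card := by positivity
      linarith
    rw [if_neg hm]
    exact ent_pr_eq_zero _ fun x _ hh => hz ⟨x.1, hh.1⟩

/-- mass of `(Z, cap)` under a path law -/
theorem tp_law_capmass (hL : 𝔊.IsLaw J Y' P Z Om) (l : ℕ) (z : 𝔖.Y) (τ : 𝔊.Cap l) :
    P.pr (fun x => Z x = z ∧ 𝔊.anc l (Om x) = τ) =
      if z ∈ Y' then (∑ ω, if 𝔊.anc l ω = τ then J z ω else 0) / (Y'.card * ∑ ω', J z ω') else 0 := by
  have h1 : P.pr (fun x => Z x = z ∧ 𝔊.anc l (Om x) = τ) =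
      ∑ ω ∈ Finset.univ, P.pr (fun x => (Z x = z ∧ 𝔊.anc l (Om x) = τ) ∧ Om x = ω) :=
    ent_pr_sum_values P _ Om Finset.univ fun _ _ _ => Finset.mem_univ _
  have h2 : ∀ ω, P.pr (fun x => (Z x = z ∧ 𝔊.anc l (Om x) = τ) ∧ Om x = ω) =
      if 𝔊.anc l ω = τ then P.pr (fun x => Z x = z ∧ Om x = ω) else 0 := by
    intro ω
    by_cases hω : 𝔊.anc l ω = τ
    · rw [if_pos hω]
      refine ent_pr_congr P fun x _ => ⟨fun hh => ⟨hh.1.1, hh.2⟩, fun hh => ⟨⟨hh.1, ?_⟩, hh.2⟩⟩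
      rw [hh.2]; exact hω
    · rw [if_neg hω]
      refine ent_pr_eq_zero P fun x _ hh => hω ?_
      rw [← hh.2]; exact hh.1.2
  rw [h1]
  simp only [h2, hL.joint]
  by_cases hz : z ∈ Y'
  · simp only [if_pos hz]
    rw [Finset.sum_div]
    refine Finset.sum_congr rfl fun ω _ => ?_
    split_ifs
    · rfl
    · rw [zero_div]
  · simp only [if_neg hz, ite_self, Finset.sum_const_zero]

/-- **redraw a direction inside the cap `anc l Om`** (H l.1292, 1400): the new direction has the same path law, the same cap of height `l`, and it is conditionally independent of EVERY old observation given `(Z, cap)`. -/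
theorem tp_law_redraw (hL : 𝔊.IsLaw J Y' P Z Om) (hJ0 : ∀ z ω, 0 ≤ J z ω) (l : ℕ) :
    ∃ κ : Ker Ω₀ 𝔊.Dir, 𝔊.IsLaw J Y' (P.ext κ) (fun x => Z x.1) (fun x => x.2) ∧
      (∀ x, (P.ext κ).p x ≠ 0 → 𝔊.anc l x.2 = 𝔊.anc l (Om x.1)) ∧
      ∀ (α : Type) (U : Ω₀ → α), (P.ext κ).CI (fun x => x.2) (fun x => U x.1) (fun x => (Z x.1, 𝔊.anc l x.2)) := by
  have : Nonempty 𝔊.Dir := by
    obtain ⟨x, _⟩ := ent_exists_supp P
    exact ⟨Om x⟩
  set w : Ω₀ → 𝔊.Dir → ℝ := fun x ω => if 𝔊.anc l ω = 𝔊.anc l (Om x) then J (Z x) ω else 0 with hw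
  have hw0 : ∀ x ω, 0 ≤ w x ω := fun x ω => by
    rw [hw]; dsimp only; split_ifs; exacts [hJ0 _ _, le_rfl]
  set κ : Ker Ω₀ 𝔊.Dir := fjKer w hw0 with hκ
  set X : Ω₀ → 𝔖.Y × 𝔊.Cap l := fun x => (Z x, 𝔊.anc l (Om x)) with hX
  have hdep : ∀ x x', X x = X x' → κ.k x = κ.k x' := fun x x' hh => by
    refine fj_ker_congr _ _ ?_
    have h1 : Z x = Z x' := congrArg Prod.fst hh
    have h2 : 𝔊.anc l (Om x) = 𝔊.anc l (Om x') := congrArg Prod.snd hh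
    funext ω
    rw [hw]; dsimp only
    rw [h1, h2]
  -- positivity of the total weight on the support
  have hpos : ∀ x, P.p x ≠ 0 → 0 < ∑ ω, w x ω := by
    intro x hx
    have h1 : 0 < J (Z x) (Om x) := lt_of_le_of_ne (hJ0 _ _) (Ne.symm (tp_law_supp hL x hx).2)
    have h2 : w x (Om x) = J (Z x) (Om x) := by rw [hw]; dsimp only; rw [if_pos rfl]
    calc 0 < w x (Om x) := by rw [h2]; exact h1
      _ ≤ ∑ ω, w x ω := Finset.single_le_sum (fun ω _ => hw0 x ω) (Finset.mem_univ _)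
  have hcap : ∀ x, (P.ext κ).p x ≠ 0 → 𝔊.anc l x.2 = 𝔊.anc l (Om x.1) := by
    intro x hx
    obtain ⟨h1, h2⟩ := fj_ext_supp P κ hx
    rw [hκ, fj_ker_pos _ _ _ (hpos _ h1)] at h2
    by_contra hne
    apply h2
    have : w x.1 x.2 = 0 := by rw [hw]; dsimp only; rw [if_neg hne]
    rw [this, zero_div]
  refine ⟨κ, ⟨fun z ω => ?_⟩, hcap, fun α U => ?_⟩
  · have e0 : (P.ext κ).pr (fun x => Z x.1 = z ∧ x.2 = ω) =
        (P.ext κ).pr (fun x => (True ∧ X x.1 = (z, 𝔊.anc l ω)) ∧ x.2 = ω) := by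
      refine ent_pr_congr _ fun x hx => ⟨fun hh => ⟨⟨trivial, ?_⟩, hh.2⟩, fun hh => ⟨congrArg Prod.fst hh.1.2, hh.2⟩⟩
      rw [hX]; dsimp only
      rw [hh.1, ← hcap x hx, hh.2]
    rw [e0]
    by_cases hex : ∃ x₀, P.p x₀ ≠ 0 ∧ X x₀ = (z, 𝔊.anc l ω)
    · obtain ⟨x₀, hx₀, hXx⟩ := hex
      have hz : Z x₀ = z := congrArg Prod.fst hXx
      have hc : 𝔊.anc l (Om x₀) = 𝔊.anc l ω := congrArg Prod.snd hXx
      have hzY : z ∈ Y' := hz ▸ (tp_law_supp hL x₀ hx₀).1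
      rw [← hXx, fj_ext_pr_of P κ X hdep (fun _ => True) x₀ ω, hκ, fj_ker_pos _ _ _ (hpos _ hx₀)]
      have e2 : P.pr (fun x => True ∧ X x = X x₀) = P.pr (fun x => Z x = z ∧ 𝔊.anc l (Om x) = 𝔊.anc l ω) := by
        refine ent_pr_congr P fun x _ => ?_
        rw [hXx, hX]
        simp only [true_and, Prod.mk.injEq]
      have e3 : ∑ ω', w x₀ ω' = ∑ ω', if 𝔊.anc l ω' = 𝔊.anc l ω then J z ω' else 0 := by
        rw [hw]; dsimp only; rw [hz, hc]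
      have e4 : w x₀ ω = J z ω := by rw [hw]; dsimp only; rw [hc, if_pos rfl, hz]
      have hp := hpos _ hx₀
      rw [e3] at hp
      rw [e2, tp_law_capmass hL, if_pos hzY, if_pos hzY, e3, e4]
      rw [div_mul_div_comm, mul_comm (J z ω), mul_div_mul_left _ _ hp.ne']
    · have h0 : (P.ext κ).pr (fun x => (True ∧ X x.1 = (z, 𝔊.anc l ω)) ∧ x.2 = ω) = 0 :=
        ent_pr_eq_zero _ fun x hx hh => hex ⟨x.1, (fj_ext_supp P κ hx).1, hh.1.2⟩
      rw [h0, ← hL.joint z ω]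
      refine (ent_pr_eq_zero P fun x hx hh => hex ⟨x, hx, ?_⟩).symm
      rw [hX]; dsimp only
      rw [hh.1, hh.2]
  · refine fj_ci_congr (P.ext κ) (fun _ _ => rfl) (fun _ _ => rfl) (fun x hx => ?_) (fj_ext_ci P κ X hdep U)
    rw [hX]; dsimp only
    rw [hcap x hx]

/-! ## `f:conditioning` for path laws -/

theorem tp_fib_assoc' {α₁ α₂ α₃ : Type} (P : FLaw Ω₀) (X₁ : Ω₀ → α₁) (X₂ : Ω₀ → α₂) (X₃ : Ω₀ → α₃) (x : Ω₀) :
    P.fib (pair X₁ (pair X₂ X₃)) x = P.fib (pair (pair X₁ X₂) X₃) x := by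
  refine ent_pr_congr P fun x' _ => ?_
  simp only [FLaw.pair, Prod.mk.injEq]
  tauto

/-- density of a direction drawn given the witness, relative to a reference law `ν` of the cell;  `V` = all the other drawn objects -/
theorem tp_dens_root (h : 𝔖.Ok p) (hg : 𝔊.Ok g) (hJ0 : ∀ z ω, 0 ≤ J z ω) (hJR : ∀ z ω, J z ω ≤ 𝔊.Jn R z ω)
    (hL : 𝔊.IsLaw J Y' P Z Om) (ϖl : ℝ) (hϖ : 0 < ϖl) (hW : ∀ z ∈ Y', ϖl ≤ ∑ ω, J z ω)
    (V : Ω₀ → ξ) (hCI : P.CI Om V Z) (C : Ω₀ → γ) (ν : γ → 𝔊.Dir → ℝ) {Kr : ℝ} (E : Ω₀ → Prop)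
    (href : ∀ x, P.p x ≠ 0 → ¬ E x → 𝔊.leafw (Z x) (Om x) ≤ Kr * ν (C x) (Om x)) (x : Ω₀) (hx : P.p x ≠ 0)
    (hE : ¬ E x) :
    P.fib (pair Om (pair V Z)) x ≤ g.Γc ^ 𝔖.ℓ / ϖl * Kr * ν (C x) (Om x) * P.fib (pair V Z) x := by
  have h1 := ent_ci_fib P Om V Z hCI x
  have h2 := (tp_leaf_law h hg hJ0 hJR hL ϖl hϖ hW (t := 1) one_pos).1 x hx
  have h3 := href x hx hE
  have pZ := ent_fib_pos P Z hx
  have pV := ent_fib_nonneg P (pair V Z) x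
  have hc : 0 ≤ g.Γc ^ 𝔖.ℓ / ϖl := div_nonneg (pow_nonneg (by linarith [hg.one_le_Γc]) _) hϖ.le
  rw [tp_fib_assoc']
  refine le_of_mul_le_mul_right ?_ pZ
  rw [h1]
  calc P.fib (pair Om Z) x * P.fib (pair V Z) x
      ≤ g.Γc ^ 𝔖.ℓ / ϖl * 𝔊.leafw (Z x) (Om x) * P.fib Z x * P.fib (pair V Z) x := by gcongr
    _ ≤ g.Γc ^ 𝔖.ℓ / ϖl * (Kr * ν (C x) (Om x)) * P.fib Z x * P.fib (pair V Z) x := by gcongr
    _ = _ := by ring

/-- **`f:conditioning`, the added direction `Om` is drawn given the witness only** (a direction of another field; `V` = all the other drawn objects; `A`, `C` functions of `(V, Z)`).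
Geometric input `href`: the leaf weights are dominated on the cell by the reference law, `a_Ω(Z) ≤ Kr ν_C(Ω)`, off an event `E`. -/
theorem tp_cond_root (h : 𝔖.Ok p) (hg : 𝔊.Ok g) (hJ0 : ∀ z ω, 0 ≤ J z ω) (hJR : ∀ z ω, J z ω ≤ 𝔊.Jn R z ω)
    (hL : 𝔊.IsLaw J Y' P Z Om) (ϖl : ℝ) (hϖ : 0 < ϖl) (hW : ∀ z ∈ Y', ϖl ≤ ∑ ω, J z ω)
    (V : Ω₀ → ξ) (hCI : P.CI Om V Z) (A : Ω₀ → α) (C : Ω₀ → γ)
    (hA : ∀ x x', V x = V x' → Z x = Z x' → A x = A x') (hC : ∀ x x', V x = V x' → Z x = Z x' → C x = C x')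
    (ν : γ → 𝔊.Dir → ℝ) (hν : ∀ c ω, 0 ≤ ν c ω) {K₁ Kr t : ℝ} (hK₁ : ∀ c, ∀ S : Finset 𝔊.Dir, ∑ ω ∈ S, ν c ω ≤ K₁)
    (hKr : 0 < Kr) (E : Ω₀ → Prop)
    (href : ∀ x, P.p x ≠ 0 → ¬ E x → 𝔊.leafw (Z x) (Om x) ≤ Kr * ν (C x) (Om x)) (ht : 0 < t) :
    P.pr (fun x => ¬ (P.fib (pair A C) x / P.fib C x ≤ t * (P.fib (pair A (pair C Om)) x / P.fib (pair C Om) x) ∧
        P.fib (pair A (pair C Om)) x / P.fib (pair C Om) x ≤
          2 * (g.Γc ^ 𝔖.ℓ / ϖl * Kr) * t * (P.fib (pair A C) x / P.fib C x))) ≤ 2 * P.pr E + (K₁ + 1) / t ∧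
    P.pr (fun x => ¬ (P.surC A (pair C Om) x ≤ P.surC A C x + Real.log t ∧
        P.surC A C x ≤ P.surC A (pair C Om) x + Real.log (2 * (g.Γc ^ 𝔖.ℓ / ϖl * Kr) * t))) ≤
      2 * P.pr E + (K₁ + 1) / t := by
  have hc : 0 < g.Γc ^ 𝔖.ℓ / ϖl * Kr :=
    mul_pos (div_pos (pow_pos (by linarith [hg.one_le_Γc]) _) hϖ) hKr
  have hA' : ∀ x x', pair V Z x = pair V Z x' → A x = A x' := fun x x' hh =>
    hA x x' (congrArg Prod.fst hh) (congrArg Prod.snd hh)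
  have hC' : ∀ x x', pair V Z x = pair V Z x' → C x = C x' := fun x x' hh =>
    hC x x' (congrArg Prod.fst hh) (congrArg Prod.snd hh)
  have hd := tp_dens_root h hg hJ0 hJR hL ϖl hϖ hW V hCI C ν E href
  exact ⟨fp_cond_pt P (pair V Z) A C Om hA' hC' ν hν hK₁ hc.le E hd ht,
    fp_cond_pt_surC P (pair V Z) A C Om hA' hC' ν hν hK₁ hc E hd ht⟩

/-- density of a direction redrawn inside its cap of height `l`, relative to a reference law of the cell, off the exceptional event of the cap law -/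
theorem tp_dens_cap (h : 𝔖.Ok p) (hg : 𝔊.Ok g) (hJ0 : ∀ z ω, 0 ≤ J z ω) (hJR : ∀ z ω, J z ω ≤ 𝔊.Jn R z ω)
    (hL : 𝔊.IsLaw J Y' P Z Om) (ϖl : ℝ) (hϖ : 0 < ϖl) (hW : ∀ z ∈ Y', ϖl ≤ ∑ ω, J z ω) (l : ℕ)
    (V : Ω₀ → ξ) (hCI : P.CI Om V (fun x => (Z x, 𝔊.anc l (Om x)))) (C : Ω₀ → γ) (ν : γ → 𝔊.Dir → ℝ)
    (hν : ∀ c ω, 0 ≤ ν c ω) {Kr s : ℝ} (hKr : 0 ≤ Kr) (hs : 0 < s) (E : Ω₀ → Prop)
    (href : ∀ x, P.p x ≠ 0 → ¬ E x →
      𝔊.leafw (Z x) (Om x) ≤ Kr * ν (C x) (Om x) * 𝔊.capw l (𝔊.anc l (Om x)) (Z x)) (x : Ω₀) (hx : P.p x ≠ 0)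
    (hE : ¬ (E x ∨ P.fib (pair (fun x => 𝔊.anc l (Om x)) Z) x < 1 / s * 𝔊.capw l (𝔊.anc l (Om x)) (Z x) * P.fib Z x)) :
    P.fib (pair Om (pair V (fun x => (Z x, 𝔊.anc l (Om x))))) x ≤
      g.Γc ^ 𝔖.ℓ / ϖl * Kr * s * ν (C x) (Om x) * P.fib (pair V (fun x => (Z x, 𝔊.anc l (Om x)))) x := by
  rw [not_or, not_lt] at hE
  obtain ⟨hE1, hE2⟩ := hE
  set X : Ω₀ → 𝔖.Y × 𝔊.Cap l := fun x => (Z x, 𝔊.anc l (Om x)) with hX
  have h1 := ent_ci_fib P Om V X hCI x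
  have h2 := (tp_leaf_law h hg hJ0 hJR hL ϖl hϖ hW (t := 1) one_pos).1 x hx
  have h3 := href x hx hE1
  have pX := ent_fib_pos P X hx
  have pZ := ent_fib_pos P Z hx
  have pV := ent_fib_nonneg P (pair V X) x
  have hc : 0 ≤ g.Γc ^ 𝔖.ℓ / ϖl := div_nonneg (pow_nonneg (by linarith [hg.one_le_Γc]) _) hϖ.le
  have e1 : P.fib (pair Om X) x = P.fib (pair Om Z) x := by
    refine ent_pr_congr P fun x' _ => ?_
    simp only [FLaw.pair, hX, Prod.mk.injEq]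
    constructor
    · exact fun hh => ⟨hh.1, hh.2.1⟩
    · exact fun hh => ⟨hh.1, hh.2, by rw [hh.1]⟩
  have e2 : P.fib (pair (fun x => 𝔊.anc l (Om x)) Z) x = P.fib X x := by
    refine ent_pr_congr P fun x' _ => ?_
    simp only [FLaw.pair, hX, Prod.mk.injEq]
    exact and_comm
  rw [e2] at hE2
  have hE3 : 𝔊.capw l (𝔊.anc l (Om x)) (Z x) * P.fib Z x ≤ s * P.fib X x := by
    have := mul_le_mul_of_nonneg_left hE2 hs.le
    calc _ = s * (1 / s * 𝔊.capw l (𝔊.anc l (Om x)) (Z x) * P.fib Z x) := by field_simp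
      _ ≤ _ := this
  rw [tp_fib_assoc']
  refine le_of_mul_le_mul_right ?_ pX
  rw [h1, e1]
  have hν' := hν (C x) (Om x)
  calc P.fib (pair Om Z) x * P.fib (pair V X) x
      ≤ g.Γc ^ 𝔖.ℓ / ϖl * 𝔊.leafw (Z x) (Om x) * P.fib Z x * P.fib (pair V X) x := by gcongr
    _ ≤ g.Γc ^ 𝔖.ℓ / ϖl * (Kr * ν (C x) (Om x) * 𝔊.capw l (𝔊.anc l (Om x)) (Z x)) * P.fib Z x * P.fib (pair V X) x := by
        gcongr
    _ = g.Γc ^ 𝔖.ℓ / ϖl * Kr * ν (C x) (Om x) * (𝔊.capw l (𝔊.anc l (Om x)) (Z x) * P.fib Z x) * P.fib (pair V X) x := by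
        ring
    _ ≤ g.Γc ^ 𝔖.ℓ / ϖl * Kr * ν (C x) (Om x) * (s * P.fib X x) * P.fib (pair V X) x := by gcongr
    _ = _ := by ring

/-- **`f:conditioning`, the added direction `Om` is (re)drawn inside its cap of height `l`**;  `V` = all the other drawn objects;  `A`, `C` functions of `(V, Z, cap)`.
Geometric input `href`: `a_Ω(Z) ≤ Kr ν_C(Ω) b_τ²(Z)` off an event `E` (reference law = endpoint square weights at the centre of `C`, normalised within the cap; bounded drift on `C`). -/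
theorem tp_cond_cap (h : 𝔖.Ok p) (hg : 𝔊.Ok g) (hJ0 : ∀ z ω, 0 ≤ J z ω) (hJR : ∀ z ω, J z ω ≤ 𝔊.Jn R z ω)
    (hL : 𝔊.IsLaw J Y' P Z Om) (ϖl : ℝ) (hϖ : 0 < ϖl) (hW : ∀ z ∈ Y', ϖl ≤ ∑ ω, J z ω) (l : ℕ) (hl : l ≤ 𝔖.ℓ)
    (V : Ω₀ → ξ) (hCI : P.CI Om V (fun x => (Z x, 𝔊.anc l (Om x)))) (A : Ω₀ → α) (C : Ω₀ → γ)
    (hA : ∀ x x', V x = V x' → Z x = Z x' → 𝔊.anc l (Om x) = 𝔊.anc l (Om x') → A x = A x')
    (hC : ∀ x x', V x = V x' → Z x = Z x' → 𝔊.anc l (Om x) = 𝔊.anc l (Om x') → C x = C x')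
    (ν : γ → 𝔊.Dir → ℝ) (hν : ∀ c ω, 0 ≤ ν c ω) {K₁ Kr s t : ℝ} (hK₁ : ∀ c, ∀ S : Finset 𝔊.Dir, ∑ ω ∈ S, ν c ω ≤ K₁)
    (hKr : 0 < Kr) (hs : 0 < s) (E : Ω₀ → Prop)
    (href : ∀ x, P.p x ≠ 0 → ¬ E x →
      𝔊.leafw (Z x) (Om x) ≤ Kr * ν (C x) (Om x) * 𝔊.capw l (𝔊.anc l (Om x)) (Z x)) (ht : 0 < t) :
    P.pr (fun x => ¬ (P.fib (pair A C) x / P.fib C x ≤ t * (P.fib (pair A (pair C Om)) x / P.fib (pair C Om) x) ∧
        P.fib (pair A (pair C Om)) x / P.fib (pair C Om) x ≤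
          2 * (g.Γc ^ 𝔖.ℓ / ϖl * Kr * s) * t * (P.fib (pair A C) x / P.fib C x))) ≤
      2 * (P.pr E + p.ϖ0 / s) + (K₁ + 1) / t ∧
    P.pr (fun x => ¬ (P.surC A (pair C Om) x ≤ P.surC A C x + Real.log t ∧
        P.surC A C x ≤ P.surC A (pair C Om) x + Real.log (2 * (g.Γc ^ 𝔖.ℓ / ϖl * Kr * s) * t))) ≤
      2 * (P.pr E + p.ϖ0 / s) + (K₁ + 1) / t := by
  have hc : 0 < g.Γc ^ 𝔖.ℓ / ϖl * Kr * s :=
    mul_pos (mul_pos (div_pos (pow_pos (by linarith [hg.one_le_Γc]) _) hϖ) hKr) hs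
  set X : Ω₀ → 𝔖.Y × 𝔊.Cap l := fun x => (Z x, 𝔊.anc l (Om x)) with hX
  have hA' : ∀ x x', pair V X x = pair V X x' → A x = A x' := fun x x' hh =>
    hA x x' (congrArg Prod.fst hh) (congrArg (fun y => y.2.1) hh) (congrArg (fun y => y.2.2) hh)
  have hC' : ∀ x x', pair V X x = pair V X x' → C x = C x' := fun x x' hh =>
    hC x x' (congrArg Prod.fst hh) (congrArg (fun y => y.2.1) hh) (congrArg (fun y => y.2.2) hh)
  have hd := tp_dens_cap h hg hJ0 hJR hL ϖl hϖ hW l V hCI C ν hν hKr.le hs E href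
  have hE : P.pr (fun x => E x ∨ P.fib (pair (fun x => 𝔊.anc l (Om x)) Z) x <
      1 / s * 𝔊.capw l (𝔊.anc l (Om x)) (Z x) * P.fib Z x) ≤ P.pr E + p.ϖ0 / s :=
    (ent_pr_or_le P _ _).trans (add_le_add le_rfl (tp_cap_law h hg hJ0 hJR hL ϖl hϖ hW l hl hs).2)
  constructor
  · refine (fp_cond_pt P (pair V X) A C Om hA' hC' ν hν hK₁ hc.le _ hd ht).trans ?_
    linarith
  · refine (fp_cond_pt_surC P (pair V X) A C Om hA' hC' ν hν hK₁ hc _ hd ht).trans ?_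
    linarith

end TGeo

end

end Claimed.Agent.R257.FR2
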