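import Claimed.Agent.R257.FR2.Charge
import Claimed.Agent.R257.FR2.PathJoint

/-!
# ROW 257, package FR2, unit ANG, STEP 5 of `FR2/Notes.lean`: THE MACRO TREE, ITS FRESH NORM BOUND AND ITS PATH MASS      (architect helper125)            CONTRACT

Paper-free (H `frame.tex` l.1088-1107 "localization justification", l.1127-1133 "reconstruct the positive path law").   All leaves `L-257-GM-*` are proved.
Statements are frozen (defects: one line to helper125);  auxiliary lemmas (prefix `tgm_`) directly above your theorem;  edit only your block.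

DATA.  `S` frozen masks, `Sl ⊆ S lam` the retained cells of height `lam` (e.g. the broad ones), `SB B` = masks of the macro box `B` (omissions below `lam`), `O B ω` = "the direction `ω` is omitted for the macro box `B`":
 (H1) `SB B i ⊆ S i`      (H2) an omitted cell carries only omitted directions      (H3) an omitted direction is blocked at some height `< lam`      (H4) no omission below `bot`.
MACRO TREE.  Family of height `lam`: `res Sl (gN SB)`, `gN SB T = fld (SB (Bx T)) lam T`, amplitudes `aN`, fresh squares `bN`;  above `lam`: `prop S lam · d`, `pam`, fresh squares `pbet`.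
PATHS.  The paths of the macro tree = the paths of the frozen tree with the restriction `RO S Sl O`: at the height `lam` a path with direction `ω` may use `T ∈ Sl` iff `¬ O (Bx T) ω`.
EXITS.  `tgm_lowmass` (fresh root count from any height), `tgm_fresh_bud` (fresh budget of the macro family, (HQ) + (PSI)), `tgm_Wa_eq` (path mass = fresh square function), `tgm_root_set`.
-/

set_option autoImplicit false

namespace Claimed.Agent.R257.FR2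

open scoped BigOperators Classical
open Claimed.Agent.R255 Claimed.Agent.R255.FLaw Claimed.Agent.R257

noncomputable section

/-! ## 0. the forward recursion: three more lemmas -/

section Fw

variable {C : ℕ → Type} [∀ i, Fintype (C i)]

/-- `fw … n` depends only on the vertex weights of the heights `≤ n` -/
theorem fw_congr_le {v v' : ∀ i, C i → ℝ} (E : ∀ i, C i → C (i + 1) → ℝ) :
    ∀ n, (∀ j, j ≤ n → v j = v' j) → fw v E n = fw v' E n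
  | 0, h => by funext T; rw [fw_zero, fw_zero, h 0 le_rfl]
  | n + 1, h => by
      funext T
      rw [fw_succ, fw_succ, fw_congr_le E n fun j hj => h j (by omega), h (n + 1) le_rfl]

/-- no mass at the height `i`: no mass above -/
theorem fw_zero_up {v : ∀ i, C i → ℝ} {E : ∀ i, C i → C (i + 1) → ℝ} (i : ℕ) (h0 : ∀ T, fw v E i T = 0) :
    ∀ n, i ≤ n → ∀ T : C n, fw v E n T = 0 := by
  intro n hn
  induction n, hn using Nat.le_induction with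
  | base => exact h0
  | succ n _ ih =>
    intro T
    rw [fw_succ]
    simp only [ih, zero_mul, Finset.sum_const_zero]

/-- two systems of vertex weights which agree on a set `Q` closed along the edges and containing the supports at the height `0` -/
theorem fw_congr_on {v v' : ∀ i, C i → ℝ} {E : ∀ i, C i → C (i + 1) → ℝ} (Q : ∀ i, C i → Prop) (N : ℕ)
    (h0 : ∀ T, ¬ Q 0 T → v 0 T = 0 ∧ v' 0 T = 0) (hQ : ∀ i, i < N → ∀ T' T, Q i T' → E i T' T ≠ 0 → Q (i + 1) T)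
    (hv : ∀ i, i ≤ N → ∀ T, Q i T → v i T = v' i T) :
    ∀ n, n ≤ N → ∀ T : C n, fw v E n T = fw v' E n T ∧ (¬ Q n T → fw v E n T = 0)
  | 0, _, T => by
      rw [fw_zero, fw_zero]
      by_cases hT : Q 0 T
      · exact ⟨hv 0 (Nat.zero_le _) T hT, fun hh => absurd hT hh⟩
      · exact ⟨by rw [(h0 T hT).1, (h0 T hT).2], fun _ => (h0 T hT).1⟩
  | n + 1, hn, T => by
      have ih := fw_congr_on Q N h0 hQ hv n (by omega)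
      rw [fw_succ, fw_succ]
      have e : ∑ T', fw v E n T' * E n T' T = ∑ T', fw v' E n T' * E n T' T :=
        Finset.sum_congr rfl fun T' _ => by rw [(ih T').1]
      by_cases hT : Q (n + 1) T
      · exact ⟨by rw [e, hv (n + 1) hn T hT], fun hh => absurd hT hh⟩
      · have z : ∑ T', fw v E n T' * E n T' T = 0 := by
          refine Finset.sum_eq_zero fun T' _ => ?_
          by_cases hT' : Q n T'
          · have : E n T' T = 0 := by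
              by_contra hne
              exact hT (hQ n (by omega) T' T hT' hne)
            rw [this, mul_zero]
          · rw [(ih T').2 hT', zero_mul]
        exact ⟨by rw [← e, z, zero_mul, zero_mul], fun _ => by rw [z, zero_mul]⟩

/-- a change of the vertex weight at the top vertex only -/
theorem fw_top {v v' : ∀ i, C i → ℝ} (E : ∀ i, C i → C (i + 1) → ℝ) :
    ∀ n, (∀ j, j < n → v j = v' j) → ∀ (T : C n) (c : ℝ), v n T = c * v' n T → fw v E n T = c * fw v' E n T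
  | 0, _, T, c, hc => by rw [fw_zero, fw_zero, hc]
  | n + 1, h, T, c, hc => by
      rw [fw_succ, fw_succ, fw_congr_le E n fun j hj => h j (by omega), hc]
      ring
end Fw

namespace TSys

variable (𝔖 : TSys)

/-- the fresh propagated squares of `prop S i g d`, started from the squares `β` of height `i` (conventions of `prop`: `β` is used as it is, the later layers are restricted to the masks) -/
def pbet (S : ∀ i, Finset (𝔖.C i)) (i : ℕ) (β : 𝔖.C i → ℝ) : ∀ d, 𝔖.C (i + d) → ℝ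
  | 0 => β
  | d + 1 => fun T => ∑ T', (if d = 0 then pbet S i β d T' else 𝔖.resA (S (i + d)) (pbet S i β d) T') * 𝔖.eh (i + d) T' T

variable {𝔖} {p : TPar}

theorem tgm_pbet_nonneg (h : 𝔖.Ok p) (S : ∀ i, Finset (𝔖.C i)) (i : ℕ) (β : 𝔖.C i → ℝ) (hβ : ∀ T, 0 ≤ β T) :
    ∀ d T, 0 ≤ 𝔖.pbet S i β d T
  | 0, T => hβ T
  | d + 1, T => by
      refine Finset.sum_nonneg fun T' _ => mul_nonneg ?_ (h.eh_nonneg _ _ _)
      split_ifs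
      · exact tgm_pbet_nonneg h S i β hβ d T'
      · unfold TSys.resA
        split_ifs
        exacts [tgm_pbet_nonneg h S i β hβ d T', le_rfl]

/-- one step with fresh squares -/
theorem tgm_step_fresh (h : 𝔖.Ok p) (j : ℕ) (hj : j < 𝔖.ℓ) {g : 𝔖.C j → 𝔖.F} {α : 𝔖.C j → ℝ} (hg : 𝔖.Adm j g α)
    (β : 𝔖.C j → ℝ) (hβ : ∀ T, 0 ≤ β T) {R : ℝ} (hR0 : 0 ≤ R) (hR : ∀ T, α T ^ 2 ≤ R * β T) :
    (∀ T, 𝔖.amp j g T ^ 2 ≤ R * p.Γ j * ∑ T', β T' * 𝔖.eh j T' T) ∧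
    𝔖.bud p.q (j + 1) (𝔖.amp j g) (fun T => Real.sqrt (∑ T', β T' * 𝔖.eh j T' T)) ≤
      p.L * 𝔖.bud p.q j α (fun T => Real.sqrt (β T)) := by
  have hΓ : 0 ≤ p.Γ j := zero_le_one.trans (h.one_le_Γ j)
  have hs : ∀ T, 0 ≤ ∑ T', β T' * 𝔖.eh j T' T := fun T =>
    Finset.sum_nonneg fun T' _ => mul_nonneg (hβ T') (h.eh_nonneg _ _ _)
  constructor
  · intro T
    calc 𝔖.amp j g T ^ 2 ≤ p.Γ j * ∑ T', α T' ^ 2 * 𝔖.eh j T' T := h.cauchy j hj g α hg T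
      _ ≤ p.Γ j * ∑ T', (R * β T') * 𝔖.eh j T' T :=
          mul_le_mul_of_nonneg_left (Finset.sum_le_sum fun T' _ => mul_le_mul_of_nonneg_right (hR T') (h.eh_nonneg _ _ _)) hΓ
      _ = R * p.Γ j * ∑ T', β T' * 𝔖.eh j T' T := by
          rw [Finset.mul_sum, Finset.mul_sum]
          exact Finset.sum_congr rfl fun T' _ => by ring
  · refine h.hier j hj g α hg (fun T => Real.sqrt (β T)) (fun T => Real.sqrt (∑ T', β T' * 𝔖.eh j T' T))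
      (fun T => Real.sqrt_nonneg _) (fun T' hT' => ?_) (fun T => Real.sqrt_nonneg _) (fun T => ?_)
    · have h1 : 0 < α T' ^ 2 := by positivity
      have h2 := hR T'
      refine Real.sqrt_pos.2 (lt_of_le_of_ne (hβ T') fun h0 => ?_)
      rw [← h0, mul_zero] at h2
      linarith
    · rw [Real.sq_sqrt (hs T)]
      exact le_of_eq (Finset.sum_congr rfl fun T' _ => by rw [Real.sq_sqrt (hβ T')])

theorem tgm_sqrt_resA {i : ℕ} (M : Finset (𝔖.C i)) (β : 𝔖.C i → ℝ) :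
    (fun T => Real.sqrt (𝔖.resA M β T)) = 𝔖.resA M fun T => Real.sqrt (β T) := by
  funext T
  unfold TSys.resA
  split_ifs
  · rfl
  · exact Real.sqrt_zero

theorem tgm_resA_sq_le {i : ℕ} (M : Finset (𝔖.C i)) {α β : 𝔖.C i → ℝ} {R : ℝ} (hR : ∀ T, α T ^ 2 ≤ R * β T) (T : 𝔖.C i) :
    𝔖.resA M α T ^ 2 ≤ R * 𝔖.resA M β T := by
  unfold TSys.resA
  split_ifs
  · exact hR T
  · simp

theorem tgm_resA_nonneg {i : ℕ} (M : Finset (𝔖.C i)) {β : 𝔖.C i → ℝ} (hβ : ∀ T, 0 ≤ β T) (T : 𝔖.C i) : 0 ≤ 𝔖.resA M β T := by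
  unfold TSys.resA
  split_ifs
  exacts [hβ T, le_rfl]

/-- **LEAF L-257-GM-A1.**  The fresh version of `tsl_prop_inv` (`FR2/SelA.lean`; copy its structure): admissibility, Cauchy against the fresh squares, the hierarchy estimate against the fresh weights `√pbet`.
PLAN.  Induction on `d`.  Step `d → d+1`: input family `pin S i g d`, amplitudes `α = if d = 0 then pam d else resA (S (i+d)) (pam d)` (`tsl_adm_res`), weights `b' = if d = 0 then √pbet d else resA (S (i+d)) (√pbet d)`, `b = √pbet (d+1)`;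
`∑ b'² eh = pbet (d+1)` (`Real.sq_sqrt`, `tgm_pbet_nonneg`, `tp_sum_resA_sq`-style);  `α T' ≠ 0 → 0 < b' T'` from the Cauchy bound of the step `d`;  `h.cauchy`, `h.hier`, `h.closure`;  `tp_bud_res_le`;  `Finset.prod_Ico_succ_top`. -/
theorem tgm_prop_fresh (h : 𝔖.Ok p) (S : ∀ i, Finset (𝔖.C i)) (i : ℕ) {g : 𝔖.C i → 𝔖.F} {a : 𝔖.C i → ℝ} (hg : 𝔖.Adm i g a)
    (β : 𝔖.C i → ℝ) (hβ : ∀ T, 0 ≤ β T) {R : ℝ} (hR0 : 0 ≤ R) (hR : ∀ T, a T ^ 2 ≤ R * β T) : ∀ d, i + d ≤ 𝔖.ℓ →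
      𝔖.Adm (i + d) (𝔖.prop S i g d) (𝔖.pam S i g a d) ∧
      (∀ T, 𝔖.pam S i g a d T ^ 2 ≤ R * (∏ m ∈ Finset.Ico i (i + d), p.Γ m) * 𝔖.pbet S i β d T) ∧
      𝔖.bud p.q (i + d) (𝔖.pam S i g a d) (fun T => Real.sqrt (𝔖.pbet S i β d T)) ≤
        p.L ^ d * 𝔖.bud p.q i a (fun T => Real.sqrt (β T)) := by
  intro d
  induction d with
  | zero =>
    intro _
    refine ⟨hg, fun T => ?_, ?_⟩
    · have : (∏ m ∈ Finset.Ico i (i + 0), p.Γ m) = 1 := by simp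
      rw [this, mul_one]
      exact hR T
    · rw [pow_zero, one_mul]
      exact le_refl _
  | succ d ih =>
    intro hd
    have hd' : i + d < 𝔖.ℓ := hd
    obtain ⟨h1, h2, h3⟩ := ih hd'.le
    have hP0 : 0 ≤ R * ∏ m ∈ Finset.Ico i (i + d), p.Γ m := mul_nonneg hR0 (zero_le_one.trans (tsl_one_le_prod h _))
    have hb0 := tgm_pbet_nonneg h S i β hβ d
    have ha0 : ∀ T, 0 ≤ 𝔖.pam S i g a d T := fun T => tsl_adm_nonneg h h1 T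
    have hL : 0 ≤ p.L := zero_le_one.trans h.one_le_L
    have e : (∏ m ∈ Finset.Ico i (i + (d + 1)), p.Γ m) = (∏ m ∈ Finset.Ico i (i + d), p.Γ m) * p.Γ (i + d) :=
      Finset.prod_Ico_succ_top (Nat.le_add_right i d) _
    by_cases hd0 : d = 0
    · have hpin : 𝔖.pin S i g d = 𝔖.prop S i g d := if_pos hd0
      have hpb : ∀ T, 𝔖.pbet S i β (d + 1) T = ∑ T', 𝔖.pbet S i β d T' * 𝔖.eh (i + d) T' T := by
        intro T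
        show ∑ T', (if d = 0 then 𝔖.pbet S i β d T' else 𝔖.resA (S (i + d)) (𝔖.pbet S i β d) T') * 𝔖.eh (i + d) T' T = _
        simp only [if_pos hd0]
      obtain ⟨s1, s2⟩ := tgm_step_fresh h (i + d) hd' h1 _ hb0 hP0 h2
      have hadm : 𝔖.Adm (i + d) (𝔖.pin S i g d) (𝔖.pam S i g a d) := by rw [hpin]; exact h1
      refine ⟨h.closure (i + d) hd' _ _ hadm, fun T => ?_, ?_⟩
      · rw [e, ← mul_assoc, hpb]
        have := s1 T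
        rw [← hpin] at this
        exact this
      · simp only [hpb]
        rw [← hpin] at s2
        refine le_trans s2 ?_
        rw [pow_succ, mul_comm (p.L ^ d) p.L, mul_assoc]
        exact mul_le_mul_of_nonneg_left h3 hL
    · have hpin : 𝔖.pin S i g d = 𝔖.res (S (i + d)) (𝔖.prop S i g d) := if_neg hd0
      have hpb : ∀ T, 𝔖.pbet S i β (d + 1) T = ∑ T', 𝔖.resA (S (i + d)) (𝔖.pbet S i β d) T' * 𝔖.eh (i + d) T' T := by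
        intro T
        show ∑ T', (if d = 0 then 𝔖.pbet S i β d T' else 𝔖.resA (S (i + d)) (𝔖.pbet S i β d) T') * 𝔖.eh (i + d) T' T = _
        simp only [if_neg hd0]
      have hadm : 𝔖.Adm (i + d) (𝔖.pin S i g d) (𝔖.resA (S (i + d)) (𝔖.pam S i g a d)) := by
        rw [hpin]; exact tsl_adm_res h h1 _
      obtain ⟨s1, s2⟩ := tgm_step_fresh h (i + d) hd' hadm _ (tgm_resA_nonneg _ hb0) hP0 (tgm_resA_sq_le _ h2)
      refine ⟨h.closure (i + d) hd' _ _ hadm, fun T => ?_, ?_⟩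
      · rw [e, ← mul_assoc, hpb]
        exact s1 T
      · simp only [hpb]
        refine le_trans s2 ?_
        rw [pow_succ, mul_comm (p.L ^ d) p.L, mul_assoc]
        refine mul_le_mul_of_nonneg_left (le_trans ?_ h3) hL
        rw [tgm_sqrt_resA]
        exact tp_bud_res_le h _ _ _ ha0 fun T => Real.sqrt_nonneg _

/-- **LEAF L-257-GM-A2.**  The root count with fresh squares `β` at the height `j = ℓ`.
PLAN.  `subst hj`;  `h.root g a hg (fun T => √(β T)) … (ρ := √R)`: `a T ≤ √R √β` (`Real.sqrt_mul`, `Real.le_sqrt_of_sq_le` / `Real.abs_le_sqrt`), positivity from `hR`, `∑ (√β)² wh ≤ ∑ β w ℓ` (`Real.sq_sqrt`, `h.wh_le`).   Model: `tp_lowmass` (`FR2/PathMass.lean`). -/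
theorem tgm_root_fresh (h : 𝔖.Ok p) (j : ℕ) (hj : j = 𝔖.ℓ) {g : 𝔖.C j → 𝔖.F} {a : 𝔖.C j → ℝ} (hg : 𝔖.Adm j g a)
    (β : 𝔖.C j → ℝ) (hβ : ∀ T, 0 ≤ β T) {R θ ϖ : ℝ} (hR0 : 0 ≤ R) (hθ : 0 < θ) (hϖ : 0 < ϖ)
    (hR : ∀ T, a T ^ 2 ≤ R * β T) (hRm : R * p.Γr 𝔖.ℓ * ϖ ≤ (p.Rm * θ) ^ 2) :
    ((Finset.univ.filter fun z => θ ≤ ‖𝔖.Ev j g z‖ ∧ ∑ T, β T * 𝔖.w j T z ≤ ϖ).card : ℝ) ≤
      p.L0 * θ ^ (-p.q) * ϖ ^ (p.q / 2 - 1) * 𝔖.bud p.q j a (fun T => Real.sqrt (β T)) := by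
  subst hj
  refine h.root g a hg (fun T => Real.sqrt (β T)) (fun T => Real.sqrt_nonneg _) (fun T hT => ?_) _ θ ϖ (Real.sqrt R) hθ hϖ
    (fun T => ?_) (by rw [Real.sq_sqrt hR0]; exact hRm) fun z hz => ⟨(Finset.mem_filter.1 hz).2.1, ?_⟩
  · have h1 : 0 < a T ^ 2 := by positivity
    have h2 := hR T
    refine Real.sqrt_pos.2 (lt_of_le_of_ne (hβ T) fun h0 => ?_)
    rw [← h0, mul_zero] at h2
    linarith
  · rw [← Real.sqrt_mul hR0]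
    exact Real.le_sqrt_of_sq_le (hR T)
  · refine le_trans (Finset.sum_le_sum fun T _ => ?_) (Finset.mem_filter.1 hz).2.2
    rw [Real.sq_sqrt (hβ T)]
    exact mul_le_mul_of_nonneg_left (h.wh_le T z) (hβ T)

/-- **LEAF L-257-GM-A3.**  LOW FRESH SQUARE FUNCTION IS EXCEPTIONAL, for the tree which starts at the height `i` with ANY admissible family.
PLAN.  `tgm_prop_fresh` at `d`;  `tgm_root_fresh` at `j = i + d` with `g := res (S (i+d)) (prop …)`, `a := resA (S (i+d)) (pam …)` (`tsl_adm_res`), `β := resA (S (i+d)) (pbet …)`, `R := R * GamProd p i` (`GamProd`, `hid`);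
`∑_T resA M β T * w = ∑_{T ∈ M} β T * w`;  `√(resA M β T) = resA M (√β) T` (`Real.sqrt_zero`), `tp_bud_res_le`. -/
theorem tgm_lowmass (h : 𝔖.Ok p) (S : ∀ i, Finset (𝔖.C i)) (i d : ℕ) (hid : i + d = 𝔖.ℓ) {g : 𝔖.C i → 𝔖.F} {a : 𝔖.C i → ℝ}
    (hg : 𝔖.Adm i g a) (β : 𝔖.C i → ℝ) (hβ : ∀ T, 0 ≤ β T) {R θ ϖ : ℝ} (hR0 : 0 ≤ R) (hθ : 0 < θ) (hϖ : 0 < ϖ)
    (hR : ∀ T, a T ^ 2 ≤ R * β T) (hRm : R * 𝔖.GamProd p i * p.Γr 𝔖.ℓ * ϖ ≤ (p.Rm * θ) ^ 2) :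
    ((Finset.univ.filter fun z => θ ≤ ‖𝔖.Ev (i + d) (𝔖.res (S (i + d)) (𝔖.prop S i g d)) z‖ ∧
        ∑ T ∈ S (i + d), 𝔖.pbet S i β d T * 𝔖.w (i + d) T z ≤ ϖ).card : ℝ) ≤
      p.L0 * θ ^ (-p.q) * ϖ ^ (p.q / 2 - 1) * (p.L ^ d * 𝔖.bud p.q i a (fun T => Real.sqrt (β T))) := by
  obtain ⟨h1, h2, h3⟩ := tgm_prop_fresh h S i hg β hβ hR0 hR d hid.le
  have e : (∏ m ∈ Finset.Ico i (i + d), p.Γ m) = 𝔖.GamProd p i := by unfold GamProd; rw [hid]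
  rw [e] at h2
  have hG0 : 0 ≤ 𝔖.GamProd p i := zero_le_one.trans (tsl_one_le_prod h _)
  have hb0 := tgm_pbet_nonneg h S i β hβ d
  have ha0 : ∀ T, 0 ≤ 𝔖.pam S i g a d T := fun T => tsl_adm_nonneg h h1 T
  have := tgm_root_fresh h (i + d) hid (tsl_adm_res h h1 (S (i + d))) (𝔖.resA (S (i + d)) (𝔖.pbet S i β d))
    (tgm_resA_nonneg _ hb0) (mul_nonneg hR0 hG0) hθ hϖ (tgm_resA_sq_le _ h2) hRm
  have es : ∀ z, ∑ T, 𝔖.resA (S (i + d)) (𝔖.pbet S i β d) T * 𝔖.w (i + d) T z =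
      ∑ T ∈ S (i + d), 𝔖.pbet S i β d T * 𝔖.w (i + d) T z := by
    intro z
    unfold TSys.resA
    simp only [ite_mul, zero_mul, Finset.sum_ite_mem, Finset.univ_inter]
  simp only [es] at this
  refine le_trans this ?_
  have hc : 0 ≤ p.L0 * θ ^ (-p.q) * ϖ ^ (p.q / 2 - 1) :=
    mul_nonneg (mul_nonneg (zero_le_one.trans h.one_le_L0) (Real.rpow_nonneg hθ.le _)) (Real.rpow_nonneg hϖ.le _)
  refine mul_le_mul_of_nonneg_left (le_trans ?_ h3) hc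
  rw [tgm_sqrt_resA]
  exact tp_bud_res_le h _ _ _ ha0 fun T => Real.sqrt_nonneg _

/-- the fresh squares of height `i` depend only on the masks below `i` -/
theorem tgm_bet_congr (S S' : ∀ i, Finset (𝔖.C i)) : ∀ i, (∀ j, j < i → S j = S' j) → 𝔖.bet S i = 𝔖.bet S' i
  | 0, _ => rfl
  | i + 1, h => by
      funext T
      show ∑ T' ∈ S i, 𝔖.bet S i T' * 𝔖.eh i T' T = ∑ T' ∈ S' i, 𝔖.bet S' i T' * 𝔖.eh i T' T
      rw [tgm_bet_congr S S' i fun j hj => h j (by omega), h i (by omega)]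

end TSys

namespace TGeo
variable {𝔖 : TSys} {𝔊 : TGeo 𝔖}

theorem tgm_vx_congr {R R' : 𝔊.Restr} (nr : ∀ i, 𝔖.C i → Prop) (ω : 𝔊.Dir) :
    ∀ i, R i ω = R' i ω → 𝔊.vx R nr ω i = 𝔊.vx R' nr ω i
  | 0, h => by funext T; rw [vx_zero, vx_zero, h]
  | i + 1, h => by funext T; rw [vx_succ, vx_succ, h]

theorem tgm_vx_mask (R : 𝔊.Restr) (nr : ∀ i, 𝔖.C i → Prop) (ω : 𝔊.Dir) :
    ∀ i (T : 𝔖.C i), 𝔊.vx R nr ω i T = (if T ∈ R i ω then 1 else 0) * 𝔊.vx (fun _ _ => Finset.univ) nr ω i T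
  | 0, T => by
      rw [vx_zero, vx_zero]
      by_cases h : T ∈ R 0 ω
      · simp [h]
      · simp [h]
  | i + 1, T => by
      rw [vx_succ, vx_succ]
      by_cases h : T ∈ R (i + 1) ω
      · simp [h]
      · simp [h]

end TGeo

namespace TAng

variable {𝔖 : TSys} {𝔊 : TGeo 𝔖} {p : TPar} {g : GPar} {a : TAPar} (𝔄 : TAng 𝔖 𝔊)

/-- the macro family of height `lam` -/
def gN (SB : 𝔄.BB → ∀ i, Finset (𝔖.C i)) : 𝔖.C 𝔄.lam → 𝔖.F := fun T => 𝔖.fld (SB (𝔄.Bx T)) 𝔄.lam T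

/-- its actual amplitudes -/
def aN (SB : 𝔄.BB → ∀ i, Finset (𝔖.C i)) : 𝔖.C 𝔄.lam → ℝ := fun T => 𝔖.am (SB (𝔄.Bx T)) 𝔄.lam T

/-- its fresh squares -/
def bN (SB : 𝔄.BB → ∀ i, Finset (𝔖.C i)) : 𝔖.C 𝔄.lam → ℝ := fun T => 𝔖.bet (SB (𝔄.Bx T)) 𝔄.lam T

/-- the restriction of the paths of the macro tree -/
def RO (S : ∀ i, Finset (𝔖.C i)) (Sl : Finset (𝔖.C 𝔄.lam)) (O : 𝔄.BB → 𝔊.Dir → Prop) : 𝔊.Restr :=
  fun i ω => 𝔖.upd S 𝔄.lam (Sl.filter fun T => ¬ O (𝔄.Bx T) ω) i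

/-- the hypotheses (H1)-(H4) on the omissions -/
structure Omit (S : ∀ i, Finset (𝔖.C i)) (SB : 𝔄.BB → ∀ i, Finset (𝔖.C i)) (O : 𝔄.BB → 𝔊.Dir → Prop) : Prop where
  sub : ∀ B i, SB B i ⊆ S i
  cell : ∀ B i, i < 𝔄.lam → ∀ T ∈ S i, T ∉ SB B i → ∀ ω, 𝔊.cap i T = 𝔊.anc i ω → O B ω
  block : ∀ B ω, O B ω → ∃ i, i < 𝔄.lam ∧ ∀ T ∈ SB B i, 𝔊.cap i T ≠ 𝔊.anc i ω
  low : ∀ B i, i < 𝔄.bot → SB B i = S i

variable {𝔄}

theorem tgm_RO_lam (S : ∀ i, Finset (𝔖.C i)) (Sl : Finset (𝔖.C 𝔄.lam)) (O : 𝔄.BB → 𝔊.Dir → Prop) (ω : 𝔊.Dir) :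
    𝔄.RO S Sl O 𝔄.lam ω = Sl.filter fun T => ¬ O (𝔄.Bx T) ω := TSys.tcg_upd_self _ _ _

theorem tgm_RO_ne (S : ∀ i, Finset (𝔖.C i)) (Sl : Finset (𝔖.C 𝔄.lam)) (O : 𝔄.BB → 𝔊.Dir → Prop) (ω : 𝔊.Dir) {i : ℕ}
    (hi : i ≠ 𝔄.lam) : 𝔄.RO S Sl O i ω = S i := TSys.tcg_upd_ne _ hi _

theorem tgm_RO_sub (S : ∀ i, Finset (𝔖.C i)) (Sl : Finset (𝔖.C 𝔄.lam)) (hSl : Sl ⊆ S 𝔄.lam) (O : 𝔄.BB → 𝔊.Dir → Prop)
    (i : ℕ) (ω : 𝔊.Dir) : 𝔄.RO S Sl O i ω ⊆ S i := by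
  by_cases hi : i = 𝔄.lam
  · subst hi
    rw [tgm_RO_lam]
    exact (Finset.filter_subset _ _).trans hSl
  · rw [tgm_RO_ne S Sl O ω hi]

theorem tgm_adm (h : 𝔖.Ok p) (hA : 𝔄.Ok p a) (SB : 𝔄.BB → ∀ i, Finset (𝔖.C i)) (Sl : Finset (𝔖.C 𝔄.lam)) :
    𝔖.Adm 𝔄.lam (𝔖.res Sl (𝔄.gN SB)) (𝔖.resA Sl (𝔄.aN SB)) :=
  TSys.tpf_adm_res h (fun T => TSys.tpf_adm h (SB (𝔄.Bx T)) 𝔄.lam hA.lam_le T) Sl

theorem tgm_bN_nonneg (h : 𝔖.Ok p) (SB : 𝔄.BB → ∀ i, Finset (𝔖.C i)) (Sl : Finset (𝔖.C 𝔄.lam)) (T : 𝔖.C 𝔄.lam) :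
    0 ≤ 𝔖.resA Sl (𝔄.bN SB) T := by
  unfold TSys.resA
  split_ifs
  exacts [TSys.tp_bet_nonneg h _ _ _, le_rfl]

theorem tgm_aN_sq (h : 𝔖.Ok p) (hA : 𝔄.Ok p a) (SB : 𝔄.BB → ∀ i, Finset (𝔖.C i)) (Sl : Finset (𝔖.C 𝔄.lam)) (T : 𝔖.C 𝔄.lam) :
    𝔖.resA Sl (𝔄.aN SB) T ^ 2 ≤ (∏ m ∈ Finset.range 𝔄.lam, p.Γ m) * 𝔖.resA Sl (𝔄.bN SB) T := by
  unfold TSys.resA
  split_ifs
  · exact TSys.tp_am_sq_le h (SB (𝔄.Bx T)) 𝔄.lam hA.lam_le T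
  · simp

/-- the square of a conjugated fresh weight -/
theorem tgm_wF_sq {β Ψ q : ℝ} (hβ : 0 ≤ β) (hΨ : 0 < Ψ) :
    (Real.sqrt β * Ψ ^ (-(1 / (q - 2)))) ^ 2 = β * (Ψ ^ (2 / (q - 2)))⁻¹ := by
  rw [mul_pow, Real.sq_sqrt hβ, ← Real.rpow_natCast (Ψ ^ (-(1 / (q - 2)))) 2, ← Real.rpow_mul hΨ.le, ← Real.rpow_neg hΨ.le]
  congr 2
  push_cast
  ring

/-- the budget with conjugated fresh weights = the budget with the factor `Ψ` -/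
theorem tgm_bud_wF (h : 𝔖.Ok p) (hA : 𝔄.Ok p a) (B : 𝔄.BB) (i : ℕ) (N : Finset (𝔖.C i)) (α β : 𝔖.C i → ℝ) :
    𝔖.bud p.q i (𝔖.resA N α) (𝔖.resA N fun T => Real.sqrt (β T) * 𝔄.Psi B i T ^ (-(1 / (p.q - 2)))) =
      𝔖.budW p.q i N α (fun T => Real.sqrt (β T)) (𝔄.Psi B i) := by
  rw [TSys.tpf_bud_res h.q_gt]
  unfold TSys.budW
  refine Finset.sum_congr rfl fun T hT => ?_
  have hP := hA.Psi_pos B i T
  have e0 : 𝔖.resA N (fun T => Real.sqrt (β T) * 𝔄.Psi B i T ^ (-(1 / (p.q - 2)))) T =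
      Real.sqrt (β T) * 𝔄.Psi B i T ^ (-(1 / (p.q - 2))) := if_pos hT
  rw [e0, Real.mul_rpow (Real.sqrt_nonneg _) (Real.rpow_nonneg hP.le _), ← Real.rpow_mul hP.le]
  have e : -(1 / (p.q - 2)) * (2 - p.q) = 1 := by
    have : p.q - 2 ≠ 0 := by have := h.q_gt; linarith
    field_simp
    ring
  rw [e, Real.rpow_one]
  ring

/-- **LEAF L-257-GM-B1.**  (HQ) + (PSI) for the FRESH weights of ANY masks `M`: the budget with the macro factor `Ψ_B` against `√bet`.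
PLAN.  `Nat.le_induction` on `j`.   Step: `hA.hq j` (`Hier1 p.q a.Lq j (ehh j) ⊤`) with the family `res (M j) (fld M j)`, amplitudes `resA (M j) (am M j)` (`tpf_adm_sel`),
`b' = resA (M j) (fun T => √(bet M j T) * Ψ_B(T)^(-(1/(q-2))))`, `b = fun T => √(bet M (j+1) T) * Ψ_B(T)^(-(1/(q-2)))`.
Domination: `∑_{T' ∈ M j} bet_j(T') Ψ(T')^{-2/(q-2)} ehh ≤ Ψ(T)^{-2/(q-2)} ∑_{T' ∈ M j} bet_j(T') eh = Ψ(T)^{-2/(q-2)} bet_{j+1}(T)` by `hA.Psi_edge p.q (Or.inl rfl)` (copy `tcg_bw_dom`, `tcg_bw_sq` of `FR2/Charge.lean`).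
Positivity: `tp_am_sq_le`, `hA.Psi_pos`.   `bud q j (resA M α) (β Ψ^{-1/(q-2)}) = budW q j M α β Ψ` (copy `tcg_bud_bw`: `Real.mul_rpow`, `(-(1/(q-2))) * (2-q) = 1`);  the restriction to `M (j+1)` decreases the budget (`tcg_bud_res_le`). -/
theorem tgm_fresh_chain (h : 𝔖.Ok p) (hA : 𝔄.Ok p a) (M : ∀ i, Finset (𝔖.C i)) (B : 𝔄.BB) : ∀ j, 𝔄.bot ≤ j → j ≤ 𝔄.lam →
    𝔖.budW p.q j (M j) (𝔖.am M j) (fun T => Real.sqrt (𝔖.bet M j T)) (𝔄.Psi B j) ≤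
      a.Lq ^ (j - 𝔄.bot) * 𝔖.budW p.q 𝔄.bot (M 𝔄.bot) (𝔖.am M 𝔄.bot) (fun T => Real.sqrt (𝔖.bet M 𝔄.bot T)) (𝔄.Psi B 𝔄.bot) := by
  intro j hj
  induction j, hj using Nat.le_induction with
  | base => intro _; simp
  | succ j hj ih =>
    intro hjl
    have ih' := ih (by omega)
    have hjℓ : j < 𝔖.ℓ := lt_of_lt_of_le hjl hA.lam_le
    have hLq : 0 ≤ a.Lq := zero_le_one.trans hA.one_le_Lq
    have hb0 := TSys.tp_bet_nonneg h M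
    set wF : ∀ i, 𝔖.C i → ℝ := fun i T => Real.sqrt (𝔖.bet M i T) * 𝔄.Psi B i T ^ (-(1 / (p.q - 2))) with hwF
    have hw0 : ∀ i T, 0 ≤ wF i T := fun i T => mul_nonneg (Real.sqrt_nonneg _) (Real.rpow_nonneg (hA.Psi_pos B i T).le _)
    have h1 := hA.hq j hj hjl _ _ (TSys.tpf_adm_sel h M j hjℓ.le) (fun _ _ => trivial) (𝔖.resA (M j) (wF j)) (wF (j + 1))
      (fun T' => by unfold TSys.resA; split_ifs; exacts [hw0 j T', le_rfl]) (fun T' hT' => ?_) (hw0 (j + 1)) (fun T => ?_)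
    · have e1 : 𝔖.amp j (𝔖.res (M j) (𝔖.fld M j)) = 𝔖.am M (j + 1) := rfl
      rw [e1] at h1
      have h2 : 𝔖.bud p.q (j + 1) (𝔖.resA (M (j + 1)) (𝔖.am M (j + 1))) (𝔖.resA (M (j + 1)) (wF (j + 1))) ≤
          𝔖.bud p.q (j + 1) (𝔖.am M (j + 1)) (wF (j + 1)) :=
        TSys.tp_bud_res_le h _ _ _ (TSys.tp_am_nonneg h M (j + 1)) (hw0 (j + 1))
      rw [tgm_bud_wF h hA] at h2
      rw [tgm_bud_wF h hA] at h1
      have e : j + 1 - 𝔄.bot = (j - 𝔄.bot) + 1 := by omega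
      rw [e, pow_succ]
      calc _ ≤ 𝔖.bud p.q (j + 1) (𝔖.am M (j + 1)) (wF (j + 1)) := h2
        _ ≤ a.Lq * 𝔖.budW p.q j (M j) (𝔖.am M j) (fun T => Real.sqrt (𝔖.bet M j T)) (𝔄.Psi B j) := h1
        _ ≤ a.Lq * (a.Lq ^ (j - 𝔄.bot) * _) := mul_le_mul_of_nonneg_left ih' hLq
        _ = _ := by ring
    · unfold TSys.resA at hT' ⊢
      by_cases hm : T' ∈ M j
      · rw [if_pos hm] at hT' ⊢
        have s1 := TSys.tp_am_sq_le h M j hjℓ.le T'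
        have s2 : 0 < 𝔖.am M j T' ^ 2 := by positivity
        have s3 : 0 < 𝔖.bet M j T' := by
          refine lt_of_le_of_ne (hb0 j T') fun h0 => ?_
          rw [← h0, mul_zero] at s1
          linarith
        exact mul_pos (Real.sqrt_pos.2 s3) (Real.rpow_pos_of_pos (hA.Psi_pos B j T') _)
      · rw [if_neg hm] at hT'; exact absurd rfl hT'
    · rw [TSys.tp_sum_resA_sq]
      have eT : wF (j + 1) T ^ 2 = 𝔖.bet M (j + 1) T * (𝔄.Psi B (j + 1) T ^ (2 / (p.q - 2)))⁻¹ :=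
        tgm_wF_sq (hb0 _ T) (hA.Psi_pos B _ T)
      rw [eT]
      set X := 𝔄.Psi B (j + 1) T ^ (2 / (p.q - 2)) with hX
      have hXpos : 0 < X := Real.rpow_pos_of_pos (hA.Psi_pos B (j + 1) T) _
      have eb : 𝔖.bet M (j + 1) T = ∑ T' ∈ M j, 𝔖.bet M j T' * 𝔖.eh j T' T := rfl
      rw [eb, Finset.sum_mul]
      refine Finset.sum_le_sum fun T' _ => ?_
      have eT' : wF j T' ^ 2 = 𝔖.bet M j T' * (𝔄.Psi B j T' ^ (2 / (p.q - 2)))⁻¹ := tgm_wF_sq (hb0 _ T') (hA.Psi_pos B _ T')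
      rw [eT']
      set X' := 𝔄.Psi B j T' ^ (2 / (p.q - 2)) with hX'
      have hX'pos : 0 < X' := Real.rpow_pos_of_pos (hA.Psi_pos B j T') _
      have he := hA.Psi_edge p.q (Or.inl rfl) B j hj hjl T' T
      have h3 : X'⁻¹ * 𝔄.ehh j T' T ≤ X⁻¹ * 𝔖.eh j T' T := by
        calc X'⁻¹ * 𝔄.ehh j T' T = (X'⁻¹ * X⁻¹) * (X * 𝔄.ehh j T' T) := by field_simp
          _ ≤ (X'⁻¹ * X⁻¹) * (X' * 𝔖.eh j T' T) := mul_le_mul_of_nonneg_left he (by positivity)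
          _ = X⁻¹ * 𝔖.eh j T' T := by field_simp
      calc 𝔖.bet M j T' * X'⁻¹ * 𝔄.ehh j T' T = 𝔖.bet M j T' * (X'⁻¹ * 𝔄.ehh j T' T) := by ring
        _ ≤ 𝔖.bet M j T' * (X⁻¹ * 𝔖.eh j T' T) := mul_le_mul_of_nonneg_left h3 (hb0 _ T')
        _ = _ := by ring

theorem tgm_upd_sub (S : ∀ i, Finset (𝔖.C i)) (Sl : Finset (𝔖.C 𝔄.lam)) (hSl : Sl ⊆ S 𝔄.lam) (M : ∀ i, Finset (𝔖.C i))
    (hM : ∀ i, M i ⊆ S i) (i : ℕ) : 𝔖.upd M 𝔄.lam Sl i ⊆ S i := by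
  by_cases hi : i = 𝔄.lam
  · subst hi
    rw [TSys.tcg_upd_self]
    exact hSl
  · rw [TSys.tcg_upd_ne _ hi]
    exact hM i

/-- **LEAF L-257-GM-B2.**  THE FRESH BUDGET OF THE MACRO FAMILY (H l.1088-1107).
PLAN.  LHS `= ∑_{T ∈ Sl} vol aN^q (√bN)^{2-q}` (`tpf_bud_res`; `√(resA ..) = √bN` on `Sl`) `= ∑_B ∑_{T ∈ Sl, Bx T = B} …` (`Finset.sum_fiberwise`) `≤ ∑_B budW q lam Sl (am M_B lam) (√bet M_B lam) (Ψ_B)`, `M_B = upd (SB B) lam Sl`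
(`hA.Psi_ge`; terms `≥ 0`; `tcg_am_upd`, `tgm_bet_congr`/`tcg_upd_ne`: `am`, `bet` of height `lam` do not see the mask of height `lam`; `tcg_upd_self`).   `tgm_fresh_chain` for `M_B` at `j = lam`.
At `bot`: `M_B bot ⊆ S bot` (`hO.sub`, or `hSl` if `bot = lam`), `am M_B bot = am S bot`, `bet M_B bot = bet S bot` (`tcg_am_congr`, `tgm_bet_congr`, `hO.low`, `tcg_upd_ne`);  `∑_B budW … Ψ_B = ∑_{T} … ∑_B Ψ_B(T) ≤ CPsi …` (`Finset.sum_comm`, `hA.Psi_sum`);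
`∑_{T ∈ S bot} vol am^q (√bet)^{2-q} ≤ L^bot D` = `tp_fresh_bud` (`tpf_bud_res`). -/
theorem tgm_fresh_bud (h : 𝔖.Ok p) (hA : 𝔄.Ok p a) (S : ∀ i, Finset (𝔖.C i)) (Sl : Finset (𝔖.C 𝔄.lam)) (hSl : Sl ⊆ S 𝔄.lam)
    (SB : 𝔄.BB → ∀ i, Finset (𝔖.C i)) (O : 𝔄.BB → 𝔊.Dir → Prop) (hO : 𝔄.Omit S SB O) (hC : 0 ≤ a.CPsi) :
    𝔖.bud p.q 𝔄.lam (𝔖.resA Sl (𝔄.aN SB)) (fun T => Real.sqrt (𝔖.resA Sl (𝔄.bN SB) T)) ≤
      a.Lq ^ (𝔄.lam - 𝔄.bot) * (a.CPsi * (p.L ^ 𝔄.bot * 𝔖.D)) := by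
  have hLq : 0 ≤ a.Lq ^ (𝔄.lam - 𝔄.bot) := pow_nonneg (zero_le_one.trans hA.one_le_Lq) _
  set MB : 𝔄.BB → ∀ i, Finset (𝔖.C i) := fun B => 𝔖.upd (SB B) 𝔄.lam Sl with hMB
  -- nonnegativity of the terms
  have hterm : ∀ (M : ∀ i, Finset (𝔖.C i)) (i : ℕ) (T : 𝔖.C i),
      0 ≤ 𝔖.vol i * 𝔖.am M i T ^ p.q * Real.sqrt (𝔖.bet M i T) ^ (2 - p.q) := fun M i T =>
    mul_nonneg (mul_nonneg (h.vol_pos i).le (Real.rpow_nonneg (TSys.tp_am_nonneg h M i T) _))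
      (Real.rpow_nonneg (Real.sqrt_nonneg _) _)
  have ham : ∀ B, 𝔖.am (MB B) 𝔄.lam = 𝔖.am (SB B) 𝔄.lam := fun B => TSys.tcg_am_upd _ le_rfl _
  have hbet : ∀ B, 𝔖.bet (MB B) 𝔄.lam = 𝔖.bet (SB B) 𝔄.lam := fun B =>
    TSys.tgm_bet_congr _ _ _ fun j hj => TSys.tcg_upd_ne _ (by omega) _
  have hlow : ∀ B j, j < 𝔄.bot → MB B j = S j := fun B j hj => by
    have hb := hA.bot_le
    show 𝔖.upd (SB B) 𝔄.lam Sl j = S j
    rw [TSys.tcg_upd_ne _ (by omega), hO.low B j hj]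
  -- step 1: insert the macro weights
  have s1 : 𝔖.bud p.q 𝔄.lam (𝔖.resA Sl (𝔄.aN SB)) (fun T => Real.sqrt (𝔖.resA Sl (𝔄.bN SB) T)) ≤
      ∑ B, 𝔖.budW p.q 𝔄.lam (MB B 𝔄.lam) (𝔖.am (MB B) 𝔄.lam) (fun T => Real.sqrt (𝔖.bet (MB B) 𝔄.lam T)) (𝔄.Psi B 𝔄.lam) := by
    rw [TSys.tpf_bud_res h.q_gt]
    have e : ∀ B, MB B 𝔄.lam = Sl := fun B => TSys.tcg_upd_self _ _ _
    unfold TSys.budW
    simp only [e]
    rw [Finset.sum_comm]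
    refine Finset.sum_le_sum fun T hT => ?_
    have e1 : 𝔖.resA Sl (𝔄.bN SB) T = 𝔖.bet (SB (𝔄.Bx T)) 𝔄.lam T := if_pos hT
    have e2 : 𝔄.aN SB T = 𝔖.am (SB (𝔄.Bx T)) 𝔄.lam T := rfl
    rw [e1, e2]
    have hsingle := Finset.single_le_sum (f := fun B => 𝔖.vol 𝔄.lam * 𝔖.am (MB B) 𝔄.lam T ^ p.q *
        Real.sqrt (𝔖.bet (MB B) 𝔄.lam T) ^ (2 - p.q) * 𝔄.Psi B 𝔄.lam T)
      (fun B _ => mul_nonneg (hterm (MB B) 𝔄.lam T) (hA.Psi_pos B 𝔄.lam T).le) (Finset.mem_univ (𝔄.Bx T))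
    refine le_trans ?_ hsingle
    rw [ham, hbet]
    exact le_mul_of_one_le_right (hterm _ _ _) (hA.Psi_ge T)
  -- step 2: the chain, and the comparison at `bot`
  have s2 : ∀ B, 𝔖.budW p.q 𝔄.lam (MB B 𝔄.lam) (𝔖.am (MB B) 𝔄.lam) (fun T => Real.sqrt (𝔖.bet (MB B) 𝔄.lam T)) (𝔄.Psi B 𝔄.lam) ≤
      a.Lq ^ (𝔄.lam - 𝔄.bot) * ∑ T ∈ S 𝔄.bot, 𝔖.vol 𝔄.bot * 𝔖.am S 𝔄.bot T ^ p.q *
        Real.sqrt (𝔖.bet S 𝔄.bot T) ^ (2 - p.q) * 𝔄.Psi B 𝔄.bot T := by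
    intro B
    refine (tgm_fresh_chain h hA (MB B) B 𝔄.lam hA.bot_le le_rfl).trans (mul_le_mul_of_nonneg_left ?_ hLq)
    unfold TSys.budW
    rw [TSys.tcg_am_congr (MB B) S 𝔄.bot (hlow B), TSys.tgm_bet_congr (MB B) S 𝔄.bot (hlow B)]
    exact Finset.sum_le_sum_of_subset_of_nonneg (tgm_upd_sub S Sl hSl (SB B) (hO.sub B) 𝔄.bot) fun T _ _ =>
      mul_nonneg (hterm S 𝔄.bot T) (hA.Psi_pos B 𝔄.bot T).le
  -- step 3: sum over the macro boxes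
  have s3 : ∑ B, ∑ T ∈ S 𝔄.bot, 𝔖.vol 𝔄.bot * 𝔖.am S 𝔄.bot T ^ p.q *
      Real.sqrt (𝔖.bet S 𝔄.bot T) ^ (2 - p.q) * 𝔄.Psi B 𝔄.bot T ≤ a.CPsi * (p.L ^ 𝔄.bot * 𝔖.D) := by
    rw [Finset.sum_comm]
    have hfb := TSys.tp_fresh_bud h S 𝔄.bot (hA.bot_le.trans hA.lam_le)
    rw [TSys.tpf_bud_res h.q_gt] at hfb
    calc ∑ T ∈ S 𝔄.bot, ∑ B, 𝔖.vol 𝔄.bot * 𝔖.am S 𝔄.bot T ^ p.q * Real.sqrt (𝔖.bet S 𝔄.bot T) ^ (2 - p.q) * 𝔄.Psi B 𝔄.bot T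
        ≤ ∑ T ∈ S 𝔄.bot, 𝔖.vol 𝔄.bot * 𝔖.am S 𝔄.bot T ^ p.q * Real.sqrt (𝔖.bet S 𝔄.bot T) ^ (2 - p.q) * a.CPsi := by
          refine Finset.sum_le_sum fun T _ => ?_
          rw [← Finset.mul_sum]
          exact mul_le_mul_of_nonneg_left (hA.Psi_sum 𝔄.bot le_rfl hA.bot_le T) (hterm S 𝔄.bot T)
      _ = a.CPsi * ∑ T ∈ S 𝔄.bot, 𝔖.vol 𝔄.bot * 𝔖.am S 𝔄.bot T ^ p.q * Real.sqrt (𝔖.bet S 𝔄.bot T) ^ (2 - p.q) := by
          rw [Finset.mul_sum]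
          exact Finset.sum_congr rfl fun T _ => by ring
      _ ≤ a.CPsi * (p.L ^ 𝔄.bot * 𝔖.D) := by
          refine mul_le_mul_of_nonneg_left (le_trans (le_of_eq ?_) hfb) hC
          refine Finset.sum_congr rfl fun T hT => ?_
          have : 𝔖.resA (S 𝔄.bot) (fun T => Real.sqrt (𝔖.bet S 𝔄.bot T)) T = Real.sqrt (𝔖.bet S 𝔄.bot T) := if_pos hT
          rw [this]
  calc _ ≤ ∑ B, 𝔖.budW p.q 𝔄.lam (MB B 𝔄.lam) (𝔖.am (MB B) 𝔄.lam) (fun T => Real.sqrt (𝔖.bet (MB B) 𝔄.lam T)) (𝔄.Psi B 𝔄.lam) := s1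
    _ ≤ ∑ B, a.Lq ^ (𝔄.lam - 𝔄.bot) * ∑ T ∈ S 𝔄.bot, 𝔖.vol 𝔄.bot * 𝔖.am S 𝔄.bot T ^ p.q *
        Real.sqrt (𝔖.bet S 𝔄.bot T) ^ (2 - p.q) * 𝔄.Psi B 𝔄.bot T := Finset.sum_le_sum fun B _ => s2 B
    _ = a.Lq ^ (𝔄.lam - 𝔄.bot) * ∑ B, ∑ T ∈ S 𝔄.bot, 𝔖.vol 𝔄.bot * 𝔖.am S 𝔄.bot T ^ p.q *
        Real.sqrt (𝔖.bet S 𝔄.bot T) ^ (2 - p.q) * 𝔄.Psi B 𝔄.bot T := by rw [Finset.mul_sum]
    _ ≤ _ := mul_le_mul_of_nonneg_left s3 hLq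

/-- **LEAF L-257-GM-C1.**  A direction which is not omitted for `B` does not see the omissions of `B`; an omitted direction has no path.   `M_B = upd (SB B) lam (S lam)`.
PLAN.  `Q i T := cap i T = anc i ω`.   Case `¬ O B ω`: `fw_congr_on Q lam` for `v = vx (ofMask M_B) ⊤ ω`, `v' = vx (ofMask S) ⊤ ω`, `E = eh`:  `h0`: `vx_zero`, `hg.anc_leaf`;  `hQ`: `hg.nest` (`eh ≠ 0 → e ≠ 0`: `h.eh_le`, `h.eh_nonneg`);
`hv`: on `Q` the two masks agree: `T ∈ S i`, `T ∉ SB B i`, `i < lam` would give `O B ω` (`hO.cell`), `hO.sub`; at `i = lam` `tcg_upd_self`.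
Case `O B ω`: `hO.block` gives `i < lam`; `fa (ofMask M_B) ω i T = 0` for all `T` (`tp_fa_supp`: nonzero ⟹ `T ∈ M_B i = SB B i` and `cap = anc`); `fw_zero_up`. -/
theorem tgm_fa_omit (h : 𝔖.Ok p) (hg : 𝔊.Ok g) (hA : 𝔄.Ok p a) (S : ∀ i, Finset (𝔖.C i)) (SB : 𝔄.BB → ∀ i, Finset (𝔖.C i))
    (O : 𝔄.BB → 𝔊.Dir → Prop) (hO : 𝔄.Omit S SB O) (B : 𝔄.BB) (ω : 𝔊.Dir) (T : 𝔖.C 𝔄.lam) :
    𝔊.fa (𝔊.ofMask (𝔖.upd (SB B) 𝔄.lam (S 𝔄.lam))) ω 𝔄.lam T = if O B ω then 0 else 𝔊.fa (𝔊.ofMask S) ω 𝔄.lam T := by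
  by_cases hOB : O B ω
  · rw [if_pos hOB]
    obtain ⟨i, hi, hblock⟩ := hO.block B ω hOB
    refine fw_zero_up i (fun T' => ?_) 𝔄.lam hi.le T
    by_contra hne
    obtain ⟨h1, h2⟩ := TGeo.tp_fa_supp h hg _ ω i (hi.le.trans hA.lam_le) T' hne
    have h3 : T' ∈ SB B i := by
      have : 𝔊.ofMask (𝔖.upd (SB B) 𝔄.lam (S 𝔄.lam)) i ω = SB B i := TSys.tcg_upd_ne _ (by omega) _
      rwa [this] at h1
    exact hblock T' h3 h2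
  · rw [if_neg hOB]
    refine (fw_congr_on (fun i T => 𝔊.cap i T = 𝔊.anc i ω) 𝔄.lam (fun γ hγ => ?_) (fun k hk T' T hQ hE => ?_)
      (fun i hi T hQ => ?_) 𝔄.lam le_rfl T).1
    · have hd : 𝔊.dir γ ≠ ω := fun hd => hγ (by rw [hg.anc_leaf, hd])
      rw [TGeo.vx_zero, TGeo.vx_zero, if_neg (fun hh => hd hh.2.1), if_neg (fun hh => hd hh.2.1)]
      exact ⟨rfl, rfl⟩
    · refine hg.nest k (lt_of_lt_of_le hk hA.lam_le) T' T ω ?_ hQ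
      have := lt_of_le_of_ne (h.eh_nonneg k T' T) (Ne.symm hE)
      exact ne_of_gt (lt_of_lt_of_le this (h.eh_le k T' T))
    · rw [TGeo.tgm_vx_mask, TGeo.tgm_vx_mask (𝔊.ofMask S)]
      congr 1
      have hiff : T ∈ 𝔊.ofMask (𝔖.upd (SB B) 𝔄.lam (S 𝔄.lam)) i ω ↔ T ∈ 𝔊.ofMask S i ω := by
        show T ∈ 𝔖.upd (SB B) 𝔄.lam (S 𝔄.lam) i ↔ T ∈ S i
        by_cases hil : i = 𝔄.lam
        · subst hil
          rw [TSys.tcg_upd_self]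
        · rw [TSys.tcg_upd_ne _ hil]
          refine ⟨fun hh => hO.sub B i hh, fun hh => ?_⟩
          by_contra hn
          exact hOB (hO.cell B i (by omega) T hh hn ω hQ)
      simp only [hiff]

/-- **LEAF L-257-GM-C2.**  The forward mass of the restricted paths at the height `lam`.
PLAN.  `cases` on the value of `lam` is impossible (`𝔄.lam` is a projection): generalise: prove for all `n`, `(hn : n = 𝔄.lam)`, or use the auxiliary statement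
"`fw v E n T * v' n T = fw v' E n T * v n T` if `v j = v' j` for `j < n`" (cases on `n`; `fw_congr_le`).   Vertex weights at `lam`: `vx_ne_zero`/`vx_zero`/`vx_succ`, `tgm_RO_lam`, `Finset.mem_filter`; below `lam`: `tgm_RO_ne`. -/
theorem tgm_fa_RO (S : ∀ i, Finset (𝔖.C i)) (Sl : Finset (𝔖.C 𝔄.lam)) (hSl : Sl ⊆ S 𝔄.lam) (O : 𝔄.BB → 𝔊.Dir → Prop)
    (ω : 𝔊.Dir) (T : 𝔖.C 𝔄.lam) :
    𝔊.fa (𝔄.RO S Sl O) ω 𝔄.lam T = if T ∈ Sl ∧ ¬ O (𝔄.Bx T) ω then 𝔊.fa (𝔊.ofMask S) ω 𝔄.lam T else 0 := by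
  have key := fw_top (v := 𝔊.vx (𝔄.RO S Sl O) (fun _ _ => True) ω) (v' := 𝔊.vx (𝔊.ofMask S) (fun _ _ => True) ω) 𝔖.eh 𝔄.lam
    (fun j hj => TGeo.tgm_vx_congr _ ω j (tgm_RO_ne S Sl O ω (by omega))) T (if T ∈ Sl ∧ ¬ O (𝔄.Bx T) ω then 1 else 0) ?_
  · show fw _ _ _ _ = _
    rw [key]
    split_ifs
    · rw [one_mul]; rfl
    · rw [zero_mul]
  · rw [TGeo.tgm_vx_mask, TGeo.tgm_vx_mask (𝔊.ofMask S), tgm_RO_lam]
    by_cases hc : T ∈ Sl ∧ ¬ O (𝔄.Bx T) ω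
    · have h1 : T ∈ Sl.filter fun T => ¬ O (𝔄.Bx T) ω := Finset.mem_filter.2 hc
      have h2 : T ∈ 𝔊.ofMask S 𝔄.lam ω := hSl hc.1
      rw [if_pos h1, if_pos hc, if_pos h2, one_mul, one_mul]
    · have h1 : T ∉ Sl.filter fun T => ¬ O (𝔄.Bx T) ω := fun hh => hc (Finset.mem_filter.1 hh)
      rw [if_neg h1, if_neg hc, zero_mul, zero_mul]

/-- **LEAF L-257-GM-C3.**  Sum over the directions at the height `lam` = the fresh squares of the macro family.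
PLAN.  `T ∉ Sl`: all terms vanish (`tgm_fa_RO`).   `T ∈ Sl`, `B = Bx T`: `fa RO ω lam T = fa (ofMask M_B) ω lam T` (`tgm_fa_RO`, `tgm_fa_omit`), `tp_sum_fa M_B lam T` with `T ∈ M_B lam = S lam` (`tcg_upd_self`, `hSl`), `bet M_B lam = bet (SB B) lam` (`tgm_bet_congr`, `tcg_upd_ne`). -/
theorem tgm_sum_fa_lam (h : 𝔖.Ok p) (hg : 𝔊.Ok g) (hA : 𝔄.Ok p a) (S : ∀ i, Finset (𝔖.C i)) (Sl : Finset (𝔖.C 𝔄.lam))
    (hSl : Sl ⊆ S 𝔄.lam) (SB : 𝔄.BB → ∀ i, Finset (𝔖.C i)) (O : 𝔄.BB → 𝔊.Dir → Prop) (hO : 𝔄.Omit S SB O) (T : 𝔖.C 𝔄.lam) :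
    ∑ ω, 𝔊.fa (𝔄.RO S Sl O) ω 𝔄.lam T = 𝔖.resA Sl (𝔄.bN SB) T := by
  unfold TSys.resA
  by_cases hT : T ∈ Sl
  · rw [if_pos hT]
    have e : ∀ ω, 𝔊.fa (𝔄.RO S Sl O) ω 𝔄.lam T = 𝔊.fa (𝔊.ofMask (𝔖.upd (SB (𝔄.Bx T)) 𝔄.lam (S 𝔄.lam))) ω 𝔄.lam T := by
      intro ω
      rw [tgm_fa_RO S Sl hSl, tgm_fa_omit h hg hA S SB O hO]
      by_cases hOB : O (𝔄.Bx T) ω
      · rw [if_pos hOB, if_neg (fun hh => hh.2 hOB)]
      · rw [if_neg hOB, if_pos ⟨hT, hOB⟩]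
    simp only [e]
    rw [TGeo.tp_sum_fa, TSys.tcg_upd_self, if_pos (hSl hT)]
    show _ = 𝔖.bet (SB (𝔄.Bx T)) 𝔄.lam T
    rw [TSys.tgm_bet_congr _ (SB (𝔄.Bx T)) 𝔄.lam fun j hj => TSys.tcg_upd_ne _ (by omega) _]
  · rw [if_neg hT]
    refine Finset.sum_eq_zero fun ω _ => ?_
    rw [tgm_fa_RO S Sl hSl, if_neg (fun hh => hT hh.1)]

/-- **LEAF L-257-GM-C4.**  Above `lam`.
PLAN.  Induction on `d`.  `d = 0`: hypothesis `h0`.   Step: `fa R ω (lam+d+1) T = (∑_{T'} fa R ω (lam+d) T' eh) * (if T ∈ S (lam+d+1) then 1 else 0)` (`fw_succ`, `vx_succ`, `tgm_RO_ne`, `lam + d + 1 ≠ lam`), `Finset.sum_comm`, `Finset.sum_mul`;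
the inner sum is `pbet (d+1) T` by the induction hypothesis (both cases `d = 0`, `d ≠ 0` of the definition of `pbet`). -/
theorem tgm_sum_fa_up (S : ∀ i, Finset (𝔖.C i)) (Sl : Finset (𝔖.C 𝔄.lam)) (O : 𝔄.BB → 𝔊.Dir → Prop) (β : 𝔖.C 𝔄.lam → ℝ)
    (h0 : ∀ T, ∑ ω, 𝔊.fa (𝔄.RO S Sl O) ω 𝔄.lam T = β T) : ∀ d (T : 𝔖.C (𝔄.lam + d)),
    ∑ ω, 𝔊.fa (𝔄.RO S Sl O) ω (𝔄.lam + d) T =
      if d = 0 then 𝔖.pbet S 𝔄.lam β d T else 𝔖.resA (S (𝔄.lam + d)) (𝔖.pbet S 𝔄.lam β d) T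
  | 0, T => by
      rw [if_pos rfl]
      exact h0 T
  | d + 1, T => by
      have ih := tgm_sum_fa_up S Sl O β h0 d
      rw [if_neg (Nat.succ_ne_zero d)]
      have e : ∀ ω, 𝔊.fa (𝔄.RO S Sl O) ω (𝔄.lam + (d + 1)) T =
          (∑ T', 𝔊.fa (𝔄.RO S Sl O) ω (𝔄.lam + d) T' * 𝔖.eh (𝔄.lam + d) T' T) *
            (if T ∈ S (𝔄.lam + (d + 1)) then 1 else 0) := by
        intro ω
        show fw _ _ (𝔄.lam + d + 1) T = _
        rw [fw_succ, TGeo.vx_succ, tgm_RO_ne S Sl O ω (by omega : 𝔄.lam + d + 1 ≠ 𝔄.lam)]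
        simp only [and_true]
        rfl
      simp only [e]
      rw [← Finset.sum_mul, Finset.sum_comm]
      have e2 : ∑ T', ∑ ω, 𝔊.fa (𝔄.RO S Sl O) ω (𝔄.lam + d) T' * 𝔖.eh (𝔄.lam + d) T' T =
          𝔖.pbet S 𝔄.lam β (d + 1) T := by
        show _ = ∑ T', (if d = 0 then 𝔖.pbet S 𝔄.lam β d T' else 𝔖.resA (S (𝔄.lam + d)) (𝔖.pbet S 𝔄.lam β d) T') *
          𝔖.eh (𝔄.lam + d) T' T
        refine Finset.sum_congr rfl fun T' _ => ?_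
        rw [← Finset.sum_mul, ih T']
      rw [e2]
      unfold TSys.resA
      split_ifs
      · rw [mul_one]
      · rw [mul_zero]

/-- **LEAF L-257-GM-C5.**  THE PATH MASS OF THE MACRO TREE = ITS FRESH SQUARE FUNCTION.
PLAN.  `Wa R z = ∑_ω ∑_T fa R ω ℓ T * w ℓ T z`;  put `F j := ∑_ω ∑_{T : C j} fa R ω j T * w j T z`, `Wa R z = F ℓ = F (lam + d)` (`congrArg F hid.symm`);  `Finset.sum_comm`, `← Finset.sum_mul`, `tgm_sum_fa_up` with `tgm_sum_fa_lam`;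
`d = 0`: `resA Sl (bN SB)` vanishes off `Sl ⊆ S lam` (`Finset.sum_subset`);  `d ≠ 0`: `∑_T resA M β T * w = ∑_{T ∈ M} β T * w`. -/
theorem tgm_Wa_eq (h : 𝔖.Ok p) (hg : 𝔊.Ok g) (hA : 𝔄.Ok p a) (S : ∀ i, Finset (𝔖.C i)) (Sl : Finset (𝔖.C 𝔄.lam))
    (hSl : Sl ⊆ S 𝔄.lam) (SB : 𝔄.BB → ∀ i, Finset (𝔖.C i)) (O : 𝔄.BB → 𝔊.Dir → Prop) (hO : 𝔄.Omit S SB O) (d : ℕ)
    (hid : 𝔄.lam + d = 𝔖.ℓ) (z : 𝔖.Y) :
    𝔊.Wa (𝔄.RO S Sl O) z =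
      ∑ T ∈ S (𝔄.lam + d), 𝔖.pbet S 𝔄.lam (𝔖.resA Sl (𝔄.bN SB)) d T * 𝔖.w (𝔄.lam + d) T z := by
  have e0 : 𝔊.Wa (𝔄.RO S Sl O) z = ∑ ω, ∑ T, 𝔊.fa (𝔄.RO S Sl O) ω (𝔄.lam + d) T * 𝔖.w (𝔄.lam + d) T z :=
    congrArg (fun j => ∑ ω, ∑ T, 𝔊.fa (𝔄.RO S Sl O) ω j T * 𝔖.w j T z) hid.symm
  rw [e0, Finset.sum_comm]
  have e1 : ∀ T, ∑ ω, 𝔊.fa (𝔄.RO S Sl O) ω (𝔄.lam + d) T * 𝔖.w (𝔄.lam + d) T z =
      (if T ∈ S (𝔄.lam + d) then 𝔖.pbet S 𝔄.lam (𝔖.resA Sl (𝔄.bN SB)) d T * 𝔖.w (𝔄.lam + d) T z else 0) := by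
    intro T
    rw [← Finset.sum_mul, tgm_sum_fa_up S Sl O _ (tgm_sum_fa_lam h hg hA S Sl hSl SB O hO) d T]
    by_cases hd : d = 0
    · subst hd
      rw [if_pos rfl]
      by_cases hT : T ∈ S (𝔄.lam + 0)
      · rw [if_pos hT]
      · rw [if_neg hT]
        have : 𝔖.pbet S 𝔄.lam (𝔖.resA Sl (𝔄.bN SB)) 0 T = 0 := by
          show 𝔖.resA Sl (𝔄.bN SB) T = 0
          unfold TSys.resA
          rw [if_neg fun hh => hT (hSl hh)]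
        rw [this, zero_mul]
    · rw [if_neg hd]
      unfold TSys.resA
      split_ifs
      · rfl
      · rw [zero_mul]
  simp only [e1]
  rw [Finset.sum_ite_mem, Finset.univ_inter]

/-- **LEAF L-257-GM-D.**  THE ROOT SET OF THE MACRO TREE: on at least half of the witnesses where the new root field is `≥ θ` the near path mass is `≥ ϖl / 2`.
PLAN (model: `tp_root_set`, `FR2/PathTop.lean`).   `Y' = Yf'.filter (ϖl < Wa R z)`.   `Yf' \ Y'` is contained in the set of `tgm_lowmass` (`i = lam`, `g = res Sl (gN SB)`, `a = resA Sl (aN SB)`, `β = resA Sl (bN SB)`, `R = ∏_{m < lam} Γ m`: `tgm_adm`, `tgm_bN_nonneg`, `tgm_aN_sq`;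
`tgm_Wa_eq`;  `(∏_{range lam}) * GamProd p lam = ∏_{range ℓ}`: `Finset.prod_range_mul_prod_Ico`, `hA.lam_le`);  `tgm_fresh_bud`, `hsmall`.   On `Y'`: `ϖl < Wa ≤ Wn + δ (…) ≤ Wn + ϖl/2` (`tp_far`). -/
theorem tgm_root_set (h : 𝔖.Ok p) (hg : 𝔊.Ok g) (hA : 𝔄.Ok p a) (S : ∀ i, Finset (𝔖.C i)) (Sl : Finset (𝔖.C 𝔄.lam))
    (hSl : Sl ⊆ S 𝔄.lam) (SB : 𝔄.BB → ∀ i, Finset (𝔖.C i)) (O : 𝔄.BB → 𝔊.Dir → Prop) (hO : 𝔄.Omit S SB O) (d : ℕ)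
    (hid : 𝔄.lam + d = 𝔖.ℓ) (hC : 0 ≤ a.CPsi) (Yf' : Finset 𝔖.Y) (θ ϖl : ℝ) (hθ : 0 < θ) (hϖ : 0 < ϖl)
    (hN : ∀ z ∈ Yf', θ ≤ ‖𝔖.Ev (𝔄.lam + d) (𝔖.res (S (𝔄.lam + d)) (𝔖.prop S 𝔄.lam (𝔖.res Sl (𝔄.gN SB)) d)) z‖)
    (hR : (∏ m ∈ Finset.range 𝔖.ℓ, p.Γ m) * p.Γr 𝔖.ℓ * ϖl ≤ (p.Rm * θ) ^ 2)
    (hsmall : p.L0 * θ ^ (-p.q) * ϖl ^ (p.q / 2 - 1) *
      (p.L ^ d * (a.Lq ^ (𝔄.lam - 𝔄.bot) * (a.CPsi * (p.L ^ 𝔄.bot * 𝔖.D)))) ≤ Yf'.card / 2)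
    (hδ : g.δ * (𝔖.ℓ * p.ϖ0 + g.ϖb) ≤ ϖl / 2) :
    ∃ Y' ⊆ Yf', (Yf'.card : ℝ) ≤ 2 * Y'.card ∧ ∀ z ∈ Y', ϖl / 2 ≤ 𝔊.Wn (𝔄.RO S Sl O) z := by
  refine ⟨Yf'.filter fun z => ϖl < 𝔊.Wa (𝔄.RO S Sl O) z, Finset.filter_subset _ _, ?_, ?_⟩
  · have hprod : (∏ m ∈ Finset.range 𝔄.lam, p.Γ m) * 𝔖.GamProd p 𝔄.lam = ∏ m ∈ Finset.range 𝔖.ℓ, p.Γ m :=
      Finset.prod_range_mul_prod_Ico _ hA.lam_le
    have hlow := TSys.tgm_lowmass h S 𝔄.lam d hid (tgm_adm h hA SB Sl) (𝔖.resA Sl (𝔄.bN SB)) (tgm_bN_nonneg h SB Sl)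
      (R := ∏ m ∈ Finset.range 𝔄.lam, p.Γ m) (TSys.tp_prod_pos h _).le hθ hϖ (tgm_aN_sq h hA SB Sl) (by rw [hprod]; exact hR)
    have hpre : 0 ≤ p.L0 * θ ^ (-p.q) * ϖl ^ (p.q / 2 - 1) :=
      mul_nonneg (mul_nonneg (zero_le_one.trans h.one_le_L0) (Real.rpow_nonneg hθ.le _)) (Real.rpow_nonneg hϖ.le _)
    have hL : 0 ≤ p.L ^ d := pow_nonneg (zero_le_one.trans h.one_le_L) _
    have hlow2 := hlow.trans (mul_le_mul_of_nonneg_left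
      (mul_le_mul_of_nonneg_left (tgm_fresh_bud h hA S Sl hSl SB O hO hC) hL) hpre)
    have hsub : Yf' \ (Yf'.filter fun z => ϖl < 𝔊.Wa (𝔄.RO S Sl O) z) ⊆
        Finset.univ.filter fun z => θ ≤ ‖𝔖.Ev (𝔄.lam + d) (𝔖.res (S (𝔄.lam + d)) (𝔖.prop S 𝔄.lam (𝔖.res Sl (𝔄.gN SB)) d)) z‖ ∧
          ∑ T ∈ S (𝔄.lam + d), 𝔖.pbet S 𝔄.lam (𝔖.resA Sl (𝔄.bN SB)) d T * 𝔖.w (𝔄.lam + d) T z ≤ ϖl := by
      intro z hz
      obtain ⟨h1, h2⟩ := Finset.mem_sdiff.1 hz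
      refine Finset.mem_filter.2 ⟨Finset.mem_univ _, hN z h1, ?_⟩
      rw [← tgm_Wa_eq h hg hA S Sl hSl SB O hO d hid z]
      by_contra hcon
      exact h2 (Finset.mem_filter.2 ⟨h1, not_le.1 hcon⟩)
    have hc1 : ((Yf' \ (Yf'.filter fun z => ϖl < 𝔊.Wa (𝔄.RO S Sl O) z)).card : ℝ) ≤ Yf'.card / 2 :=
      le_trans (by exact_mod_cast Finset.card_le_card hsub) (hlow2.trans hsmall)
    have hc2 : Yf'.card ≤ (Yf' \ (Yf'.filter fun z => ϖl < 𝔊.Wa (𝔄.RO S Sl O) z)).card +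
        (Yf'.filter fun z => ϖl < 𝔊.Wa (𝔄.RO S Sl O) z).card := Finset.card_le_card_sdiff_add_card
    have hc3 : (Yf'.card : ℝ) ≤ (Yf' \ (Yf'.filter fun z => ϖl < 𝔊.Wa (𝔄.RO S Sl O) z)).card +
        (Yf'.filter fun z => ϖl < 𝔊.Wa (𝔄.RO S Sl O) z).card := by exact_mod_cast hc2
    linarith
  · intro z hz
    have h1 := (Finset.mem_filter.1 hz).2
    have h2 := TGeo.tp_far h hg (𝔄.RO S Sl O) z
    linarith

end TAng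

end

end Claimed.Agent.R257.FR2
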