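import Claimed.Agent.R257.FR2.AngErr

/-!
# ROW 257, package FR2, unit ANG, file 3: DELETION OF THE OMITTED STRIPS AT THE ROOT (end of STEP 4; H `frame.tex` l.1074-1077)      (helper37)

Paper-free.   PROVED, no sorry.
* `tgo_prop_add`, `tgo_prop_self`   `prop` is additive in the family;   the frozen tree above `lam` is `prop S lam (res (S lam) (fld S lam))`
* `tgo_am_le`       crude Cauchy bound for ANY masks `M`: `am M j T ≤ √(∏_{m<j} Γ_m) b_T`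
* `tgo_delete`      GENERAL deletion of an error family of height `lam` with a small `q`-budget (families, not masks)
* `TAng.Om`, `tgo_SB_sub`, `tgo_SB_om`, `tgo_Om_cut`, `tgo_SB_off`, `tgo_greedy_Om`   adapter to STEPS 5-6: (H1)-(H4) of `FR2/AngMac.lean` for `SB S Ms J`, `O = Om Ms J`
* `tgo_main`        **EXIT of STEPS 1-4** = hypothesis (N) for the macro tree:  the tree `prop S lam (res P₀ gNJ)` (`P₀ ⊆ S lam` = the broad cells of BROAD, or `S lam`) keeps the root field `≥ A/(2K)` on at least half of `Yf`.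
-/

set_option autoImplicit false

namespace Claimed.Agent.R257.FR2

open scoped BigOperators Classical

noncomputable section

namespace TSys

variable {𝔖 : TSys} {p : TPar}

theorem tgo_prop_add (h : 𝔖.Ok p) (S : ∀ i, Finset (𝔖.C i)) (i : ℕ) (g g' : 𝔖.C i → 𝔖.F) :
    ∀ d, 𝔖.prop S i (g + g') d = 𝔖.prop S i g d + 𝔖.prop S i g' d
  | 0 => rfl
  | d + 1 => by
    show 𝔖.asm (i + d) (if d = 0 then 𝔖.prop S i (g + g') d else 𝔖.res (S (i + d)) (𝔖.prop S i (g + g') d)) =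
      𝔖.asm (i + d) (if d = 0 then 𝔖.prop S i g d else 𝔖.res (S (i + d)) (𝔖.prop S i g d)) +
        𝔖.asm (i + d) (if d = 0 then 𝔖.prop S i g' d else 𝔖.res (S (i + d)) (𝔖.prop S i g' d))
    rw [tgo_prop_add h S i g g' d, ← h.asm_add]
    by_cases hd : d = 0
    · rw [if_pos hd, if_pos hd, if_pos hd]
    · rw [if_neg hd, if_neg hd, if_neg hd, tbw_res_add]

theorem tgo_res_res {i : ℕ} (M : Finset (𝔖.C i)) (g : 𝔖.C i → 𝔖.F) : 𝔖.res M (𝔖.res M g) = 𝔖.res M g := by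
  funext T
  unfold TSys.res
  by_cases hT : T ∈ M
  · simp [hT]
  · simp [hT]

/-- the tree above `lam` is the propagation of its selected family of height `lam` -/
theorem tgo_prop_self (S : ∀ i, Finset (𝔖.C i)) (lam d : ℕ) :
    𝔖.res (S (lam + d)) (𝔖.fld S (lam + d)) = 𝔖.res (S (lam + d)) (𝔖.prop S lam (𝔖.res (S lam) (𝔖.fld S lam)) d) := by
  cases d with
  | zero =>
    show 𝔖.res (S lam) (𝔖.fld S lam) = 𝔖.res (S lam) (𝔖.res (S lam) (𝔖.fld S lam))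
    rw [tgo_res_res]
  | succ d => rw [tcg_prop_fld, tcg_upd_eq]

/-- crude Cauchy bound for the amplitudes of ANY tree -/
theorem tgo_am_sq_le (h : 𝔖.Ok p) (M : ∀ i, Finset (𝔖.C i)) : ∀ j, j ≤ 𝔖.ℓ → ∀ T, 𝔖.am M j T ^ 2 ≤ (∏ m ∈ Finset.range j, p.Γ m) * 𝔖.b j T ^ 2
  | 0, _, T => by
    show 𝔖.b 0 T ^ 2 ≤ _
    simp
  | j + 1, hj, T => by
    have ih := tgo_am_sq_le h M j (by omega)
    have h0 : 0 ≤ ∏ m ∈ Finset.range j, p.Γ m := zero_le_one.trans (tsl_one_le_prod h _)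
    have h1 := tsl_step_ratio h j hj (tpf_adm_sel h M j (by omega)) h0 (fun T' => by
      unfold TSys.resA
      by_cases hT' : T' ∈ M j
      · rw [if_pos hT']; exact ih T'
      · rw [if_neg hT']
        have : 0 ≤ (∏ m ∈ Finset.range j, p.Γ m) * 𝔖.b j T' ^ 2 := mul_nonneg h0 (sq_nonneg _)
        simpa using this) T
    rw [Finset.prod_range_succ]
    exact h1

theorem tgo_am_le (h : 𝔖.Ok p) (M : ∀ i, Finset (𝔖.C i)) (j : ℕ) (hj : j ≤ 𝔖.ℓ) (T : 𝔖.C j) :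
    𝔖.am M j T ≤ Real.sqrt (∏ m ∈ Finset.range j, p.Γ m) * 𝔖.b j T :=
  tsl_le_of_sq (h.b_nonneg j T) (tgo_am_sq_le h M j hj T)

/-- **general deletion of an error family** of height `lam`: `g₀ = g₁ + gE`, the tree of `g₀` is high on `Y₀`, `gE` has a small budget: the tree of `g₁` is high on half of `Y₀`. -/
theorem tgo_delete (h : 𝔖.Ok p) (S : ∀ i, Finset (𝔖.C i)) (lam d : ℕ) (hid : lam + d = 𝔖.ℓ) (g₁ gE : 𝔖.C lam → 𝔖.F) (aE : 𝔖.C lam → ℝ)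
    (hE : 𝔖.Adm lam gE aE) {A K₀ ρ β : ℝ} (hA0 : 0 < A) (hK : 0 < K₀) (hρ : ∀ T, aE T ≤ ρ * 𝔖.b lam T) (hβ : 𝔖.bud p.q lam aE (𝔖.b lam) ≤ β)
    (Y₀ : Finset 𝔖.Y) (hhigh : ∀ z ∈ Y₀, A ≤ K₀ * ‖𝔖.Ev (lam + d) (𝔖.res (S (lam + d)) (𝔖.prop S lam (g₁ + gE) d)) z‖)
    (hR : ρ ^ 2 * 𝔖.GamProd p lam * p.Γr 𝔖.ℓ * p.ϖ0 ≤ (p.Rm * (A / (2 * K₀))) ^ 2)
    (hgain : 2 * (p.L0 * p.L ^ d * p.ϖ0 ^ (p.q / 2 - 1) * (A / (2 * K₀)) ^ (-p.q) * β) ≤ Y₀.card) :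
    ∃ Y₁ ⊆ Y₀, (Y₀.card : ℝ) ≤ 2 * Y₁.card ∧
      ∀ z ∈ Y₁, A ≤ 2 * K₀ * ‖𝔖.Ev (lam + d) (𝔖.res (S (lam + d)) (𝔖.prop S lam g₁ d)) z‖ := by
  have hθ0 : 0 < A / (2 * K₀) := by positivity
  have hdis := 𝔖.ts_discard p h S lam d hid gE aE hE ρ (A / (2 * K₀)) hθ0 hρ hR
  set Bad := Finset.univ.filter fun z => A / (2 * K₀) ≤ ‖𝔖.Ev (lam + d) (𝔖.res (S (lam + d)) (𝔖.prop S lam gE d)) z‖ with hBaddef
  have hpref : 0 ≤ p.L0 * p.L ^ d * p.ϖ0 ^ (p.q / 2 - 1) * (A / (2 * K₀)) ^ (-p.q) :=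
    mul_nonneg (mul_nonneg (mul_nonneg (zero_le_one.trans h.one_le_L0) (pow_nonneg (zero_le_one.trans h.one_le_L) _))
      (Real.rpow_nonneg (zero_le_one.trans h.one_le_ϖ0) _)) (Real.rpow_nonneg hθ0.le _)
  have hBad : 2 * (Bad.card : ℝ) ≤ Y₀.card := by
    have := hdis.trans (mul_le_mul_of_nonneg_left hβ hpref)
    linarith
  refine ⟨Y₀ \ Bad, Finset.sdiff_subset, ?_, ?_⟩
  · have h1 : Y₀.card ≤ (Y₀ \ Bad).card + Bad.card := Finset.card_le_card_sdiff_add_card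
    have h2 : (Y₀.card : ℝ) ≤ (Y₀ \ Bad).card + Bad.card := by exact_mod_cast h1
    linarith
  · intro z hz
    have hzY := (Finset.mem_sdiff.1 hz).1
    have hzB : ‖𝔖.Ev (lam + d) (𝔖.res (S (lam + d)) (𝔖.prop S lam gE d)) z‖ < A / (2 * K₀) := by
      by_contra hcon
      exact (Finset.mem_sdiff.1 hz).2 (Finset.mem_filter.2 ⟨Finset.mem_univ _, not_lt.1 hcon⟩)
    have hh := hhigh z hzY
    rw [tgo_prop_add h, tbw_res_add, tbw_Ev_add h] at hh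
    have h3 := norm_add_le (𝔖.Ev (lam + d) (𝔖.res (S (lam + d)) (𝔖.prop S lam g₁ d)) z)
      (𝔖.Ev (lam + d) (𝔖.res (S (lam + d)) (𝔖.prop S lam gE d)) z)
    have h4 : K₀ * (A / (2 * K₀)) = A / 2 := by field_simp
    have h5 := mul_le_mul_of_nonneg_left h3 hK.le
    have h6 := mul_lt_mul_of_pos_left hzB hK
    nlinarith

end TSys

namespace TAng

variable {𝔖 : TSys} {𝔊 : TGeo 𝔖} {𝔄 : TAng 𝔖 𝔊} {p : TPar} {a : TAPar} {A K G : ℝ} {S : ∀ i, Finset (𝔖.C i)} {r : ℕ → ℝ} {Yf : Finset 𝔖.Y}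

/-- **EXIT of STEPS 1-4 of ANG.**   `P₀ ⊆ S lam` arbitrary with `q`-budget of `S lam \ P₀` at most `β₀` (BROAD: `P₀ = bcell`, `β₀ = bndQ`, `tbw_budget`;   no BROAD: `P₀ = S lam`, `β₀ = 0`). -/
theorem tgo_main (h : 𝔖.Ok p) (hA : 𝔄.Ok p a) (hF : 𝔖.Frozen p.q A K G S r Yf) (hY : Yf.Nonempty) (hA0 : 0 < A) (hC : 0 ≤ a.CPsi)
    (Ms : Finset ℕ) (J : 𝔄.BB → ℕ → Finset 𝔄.Str) (hMs : ∀ k ∈ Ms, 𝔄.bot ≤ k ∧ k < 𝔄.lam) (hJl : ∀ B k, ∀ σ ∈ J B k, 𝔄.lev σ = k)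
    (n : ℕ → ℝ) (hn : ∀ k ∈ Ms, 0 ≤ n k) (hJc : ∀ B, ∀ k ∈ Ms, ((J B k).card : ℝ) ≤ n k)
    (P₀ : Finset (𝔖.C 𝔄.lam)) (hP₀ : P₀ ⊆ S 𝔄.lam) (β₀ : ℝ) (hβ₀ : 𝔖.bud p.q 𝔄.lam (𝔖.resA (S 𝔄.lam \ P₀) (𝔖.am S 𝔄.lam)) (𝔖.b 𝔄.lam) ≤ β₀)
    (d : ℕ) (hid : 𝔄.lam + d = 𝔖.ℓ)
    (hR : ((Ms.card + 1 : ℝ) ^ 2 * ∏ m ∈ Finset.range 𝔄.lam, p.Γ m) * 𝔖.GamProd p 𝔄.lam * p.Γr 𝔖.ℓ * p.ϖ0 ≤ (p.Rm * (A / (2 * K))) ^ 2)
    (hgain : 2 * (p.L0 * p.L ^ d * p.ϖ0 ^ (p.q / 2 - 1) * (A / (2 * K)) ^ (-p.q) *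
      ((Ms.card : ℝ) ^ (p.q - 1) * ∑ k ∈ Ms, 𝔄.cQ p a K r n k + β₀)) ≤ Yf.card) :
    ∃ Yf' ⊆ Yf, (Yf.card : ℝ) ≤ 2 * Yf'.card ∧
      ∀ z ∈ Yf', A ≤ 2 * K * ‖𝔖.Ev (𝔄.lam + d) (𝔖.res (S (𝔄.lam + d)) (𝔖.prop S 𝔄.lam (𝔖.res P₀ (𝔄.gNJ S Ms J)) d)) z‖ := by
  have hK : 0 < K := TSys.tpf_K_pos hF hY
  have hq0 : p.q ≠ 0 := by have := h.q_gt; linarith
  obtain ⟨ρ₀, hρ₀⟩ : ∃ ρ₀, ρ₀ = Real.sqrt (∏ m ∈ Finset.range 𝔄.lam, p.Γ m) := ⟨_, rfl⟩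
  have hρ₀0 : 0 ≤ ρ₀ := by rw [hρ₀]; exact Real.sqrt_nonneg _
  have hρ₀sq : ρ₀ ^ 2 = ∏ m ∈ Finset.range 𝔄.lam, p.Γ m := by
    rw [hρ₀]
    exact Real.sq_sqrt (zero_le_one.trans (TSys.tsl_one_le_prod h _))
  -- the total error
  obtain ⟨gT, hgT⟩ : ∃ gT, gT = 𝔖.res P₀ (𝔄.gE S Ms J) + 𝔖.res (S 𝔄.lam \ P₀) (𝔖.fld S 𝔄.lam) := ⟨_, rfl⟩
  obtain ⟨aT, haT⟩ : ∃ aT : 𝔖.C 𝔄.lam → ℝ, aT = fun T => 𝔖.resA P₀ (𝔄.aE S Ms J) T + 𝔖.resA (S 𝔄.lam \ P₀) (𝔖.am S 𝔄.lam) T := ⟨_, rfl⟩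
  have hadm : 𝔖.Adm 𝔄.lam gT aT := by
    intro T
    rw [hgT, haT]
    exact h.pk_add _ T _ _ _ _ (TSys.tpf_adm_res h (tgo_adm_E h hA.lam_le S Ms J) P₀ T)
      (TSys.tpf_adm_res h (TSys.tpf_adm h S 𝔄.lam hA.lam_le) (S 𝔄.lam \ P₀) T)
  have hsplit : 𝔖.res (S 𝔄.lam) (𝔖.fld S 𝔄.lam) = 𝔖.res P₀ (𝔄.gNJ S Ms J) + gT := by
    rw [hgT]
    funext T
    have e := congrFun (tgo_split h S Ms J fun k hk => (hMs k hk).2) T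
    simp only [TSys.res, Pi.add_apply, Finset.mem_sdiff] at e ⊢
    by_cases h1 : T ∈ P₀
    · have h2 := hP₀ h1
      simp [h1, h2, e]
    · by_cases h2 : T ∈ S 𝔄.lam
      · simp [h1, h2]
      · simp [h1, h2]
  have hcases : ∀ T, (T ∈ P₀ ∧ aT T = 𝔄.aE S Ms J T) ∨ (T ∈ S 𝔄.lam \ P₀ ∧ aT T = 𝔖.am S 𝔄.lam T) ∨ (T ∉ P₀ ∧ T ∉ S 𝔄.lam \ P₀ ∧ aT T = 0) := by
    intro T
    rw [haT]
    by_cases h1 : T ∈ P₀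
    · left
      have h2 : T ∉ S 𝔄.lam \ P₀ := fun hm => (Finset.mem_sdiff.1 hm).2 h1
      exact ⟨h1, by simp [TSys.resA, h1, h2]⟩
    · right
      by_cases h2 : T ∈ S 𝔄.lam \ P₀
      · left
        exact ⟨h2, by simp [TSys.resA, h1, h2]⟩
      · right
        exact ⟨h1, h2, by simp [TSys.resA, h1, h2]⟩
  have hρ : ∀ T, aT T ≤ ((Ms.card : ℝ) + 1) * ρ₀ * 𝔖.b 𝔄.lam T := by
    intro T
    have hb := h.b_nonneg 𝔄.lam T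
    have hX : 0 ≤ ρ₀ * 𝔖.b 𝔄.lam T := mul_nonneg hρ₀0 hb
    have hc : (0 : ℝ) ≤ Ms.card := Nat.cast_nonneg _
    rcases hcases T with ⟨-, e⟩ | ⟨-, e⟩ | ⟨-, -, e⟩
    · rw [e]
      have h1 : 𝔄.aE S Ms J T ≤ ∑ _k ∈ Ms, ρ₀ * 𝔖.b 𝔄.lam T :=
        Finset.sum_le_sum fun k _ => by rw [hρ₀]; exact TSys.tgo_am_le h _ 𝔄.lam hA.lam_le T
      rw [Finset.sum_const, nsmul_eq_mul] at h1
      nlinarith
    · rw [e]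
      have h1 : 𝔖.am S 𝔄.lam T ≤ ρ₀ * 𝔖.b 𝔄.lam T := by rw [hρ₀]; exact TSys.tgo_am_le h _ 𝔄.lam hA.lam_le T
      nlinarith
    · rw [e]
      nlinarith
  have hbud : 𝔖.bud p.q 𝔄.lam aT (𝔖.b 𝔄.lam) ≤ (Ms.card : ℝ) ^ (p.q - 1) * ∑ k ∈ Ms, 𝔄.cQ p a K r n k + β₀ := by
    have e : 𝔖.bud p.q 𝔄.lam aT (𝔖.b 𝔄.lam) = 𝔖.bud p.q 𝔄.lam (𝔖.resA P₀ (𝔄.aE S Ms J)) (𝔖.b 𝔄.lam) +
        𝔖.bud p.q 𝔄.lam (𝔖.resA (S 𝔄.lam \ P₀) (𝔖.am S 𝔄.lam)) (𝔖.b 𝔄.lam) := by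
      unfold TSys.bud
      rw [← Finset.sum_add_distrib]
      refine Finset.sum_congr rfl fun T _ => ?_
      rcases hcases T with ⟨h1, e⟩ | ⟨h1, e⟩ | ⟨h1, h2, e⟩
      · have h2 : T ∉ S 𝔄.lam \ P₀ := fun hm => (Finset.mem_sdiff.1 hm).2 h1
        rw [e]
        simp [TSys.resA, h1, h2, Real.zero_rpow hq0]
      · have h2 : T ∉ P₀ := (Finset.mem_sdiff.1 h1).2
        rw [e]
        simp only [TSys.resA, if_pos h1, if_neg h2, Real.zero_rpow hq0]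
        ring
      · rw [e]
        simp only [TSys.resA, if_neg h1, if_neg h2, Real.zero_rpow hq0]
        ring
    rw [e]
    exact add_le_add (tgo_budget h hA hF hC Ms J hMs hJl n hn hJc P₀ hP₀) hβ₀
  refine TSys.tgo_delete h S 𝔄.lam d hid (𝔖.res P₀ (𝔄.gNJ S Ms J)) gT aT hadm hA0 hK hρ hbud Yf ?_ ?_ hgain
  · intro z hz
    rw [← hsplit, ← TSys.tgo_prop_self]
    have := hF.high 𝔖.ℓ le_rfl z hz
    rw [← hid] at this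
    exact this
  · rw [mul_pow, hρ₀sq]
    exact hR

/-! ## adapter to STEPS 5-6 (`FR2/AngMac.lean`, helper125): the omitted directions -/

/-- the direction `ω` is omitted in the macro box `B` -/
def Om (𝔄 : TAng 𝔖 𝔊) (Ms : Finset ℕ) (J : 𝔄.BB → ℕ → Finset 𝔄.Str) (B : 𝔄.BB) (ω : 𝔊.Dir) : Prop :=
  ∃ k ∈ Ms, ∃ σ ∈ J B k, 𝔄.inStr k σ ω

/-- (H1) -/
theorem tgo_SB_sub (S : ∀ i, Finset (𝔖.C i)) (Ms : Finset ℕ) (J : 𝔄.BB → ℕ → Finset 𝔄.Str) (B : 𝔄.BB) (i : ℕ) : 𝔄.SB S Ms J B i ⊆ S i :=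
  tgo_SBk_sub S Ms J B 0 i

/-- (H2) an omitted cell of the assigned cap: the direction is omitted -/
theorem tgo_SB_om (S : ∀ i, Finset (𝔖.C i)) (Ms : Finset ℕ) (J : 𝔄.BB → ℕ → Finset 𝔄.Str) (B : 𝔄.BB) (i : ℕ) (T : 𝔖.C i)
    (hT : T ∈ S i \ 𝔄.SB S Ms J B i) (ω : 𝔊.Dir) (hc : 𝔊.cap i T = 𝔊.anc i ω) : 𝔄.Om Ms J B ω := by
  obtain ⟨h1, h2⟩ := Finset.mem_sdiff.1 hT
  by_cases hi : i ∈ Ms
  · have e : 𝔄.SB S Ms J B i = S i \ 𝔄.om S J B i := tgo_SBk_of_mem S Ms J B hi (Nat.zero_le i)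
    rw [e, Finset.mem_sdiff] at h2
    have h3 : T ∈ 𝔄.om S J B i := by
      by_contra hcon
      exact h2 ⟨h1, hcon⟩
    obtain ⟨σ, hσ, hu⟩ := (Finset.mem_filter.1 h3).2
    refine ⟨i, hi, σ, hσ, ?_⟩
    unfold TAng.under at hu
    unfold TAng.inStr
    rwa [← hc]
  · have e : 𝔄.SB S Ms J B i = S i := tgo_SBk_of_notMem S Ms J B 0 hi
    rw [e] at h2
    exact absurd h1 h2

/-- (H3) an omitted direction has no cell at some mesh height -/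
theorem tgo_Om_cut (S : ∀ i, Finset (𝔖.C i)) (Ms : Finset ℕ) (J : 𝔄.BB → ℕ → Finset 𝔄.Str) (B : 𝔄.BB) (ω : 𝔊.Dir) (hω : 𝔄.Om Ms J B ω) :
    ∃ i ∈ Ms, ∀ T ∈ 𝔄.SB S Ms J B i, 𝔊.cap i T ≠ 𝔊.anc i ω := by
  obtain ⟨k, hk, σ, hσ, hin⟩ := hω
  refine ⟨k, hk, fun T hT hc => ?_⟩
  have e : 𝔄.SB S Ms J B k = S k \ 𝔄.om S J B k := tgo_SBk_of_mem S Ms J B hk (Nat.zero_le k)
  rw [e, Finset.mem_sdiff] at hT
  refine hT.2 (Finset.mem_filter.2 ⟨hT.1, σ, hσ, ?_⟩)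
  unfold TAng.inStr at hin
  unfold TAng.under
  rwa [hc]

/-- (H4) no omission off the mesh -/
theorem tgo_SB_off (S : ∀ i, Finset (𝔖.C i)) (Ms : Finset ℕ) (J : 𝔄.BB → ℕ → Finset 𝔄.Str) (B : 𝔄.BB) {i : ℕ} (hi : i ∉ Ms) : 𝔄.SB S Ms J B i = S i :=
  tgo_SBk_of_notMem S Ms J B 0 hi

/-- STEP 1 in terms of `Om` -/
theorem tgo_greedy_Om (Ms : Finset ℕ) (nu : 𝔄.BB → 𝔊.Dir → ℝ) (hnu : ∀ B ω, 0 ≤ nu B ω) {Kν : ℝ} (hK : ∀ B, ∑ ω, nu B ω ≤ Kν)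
    (t : ℕ → ℝ) (ht : ∀ k ∈ Ms, 0 < t k) :
    ∃ J : 𝔄.BB → ℕ → Finset 𝔄.Str, (∀ B k, ∀ σ ∈ J B k, 𝔄.lev σ = k) ∧ (∀ B, ∀ k ∈ Ms, ((J B k).card : ℝ) ≤ Kν / t k) ∧
      ∀ B, ∀ k ∈ Ms, ∀ σ, 𝔄.lev σ = k → ∑ ω ∈ Finset.univ.filter (fun ω => 𝔄.inStr k σ ω ∧ ¬ 𝔄.Om Ms J B ω), nu B ω < t k := by
  obtain ⟨J, h1, h2, h3⟩ := tgo_greedy (𝔄 := 𝔄) Ms nu hnu hK t ht
  refine ⟨J, h1, fun B k hk => ?_, fun B k hk σ hσ => ?_⟩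
  · rw [le_div_iff₀ (ht k hk)]
    exact h2 B k hk
  · refine lt_of_le_of_lt (le_of_eq ?_) (h3 B k hk σ hσ)
    refine Finset.sum_congr ?_ fun _ _ => rfl
    ext ω
    rw [Finset.mem_filter, Finset.mem_filter]
    constructor
    · rintro ⟨-, h4, h5⟩
      exact ⟨Finset.mem_univ _, h4, fun k' hk' σ' hσ' hin => h5 ⟨k', hk', σ', hσ', hin⟩⟩
    · rintro ⟨-, h4, h5⟩
      exact ⟨Finset.mem_univ _, h4, fun ⟨k', hk', σ', hσ', hin⟩ => h5 k' hk' σ' hσ' hin⟩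

end TAng


end

end Claimed.Agent.R257.FR2
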