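import Claimed.Agent.R257.FR2.AngMain
import Claimed.Agent.R257.FR2.AngExit

/-!
# ROW 257, package FR2, unit ANG: EXIT = `f:angular` (first assertion) WITH EXPLICIT LOSSES      (helper125; STEPS 1-4 = helper37, `AngTree/AngErr/AngMain`; STEPS 5-6 = `AngMac/AngExit`)

Paper-free (H `frame.tex` l.1010-1138).   INTERFACE to FR3 (BIN, MID).
DATA: frozen tree `hF`, angular data `𝔄` (`hA : 𝔄.Ok p a`, `hV : 𝔄.Var Kv`), mesh `Ms ⊆ [bot, lam)`, thresholds `t k` (`= Λ^{-2ηv}`), retained cells `P₀ ⊆ S lam` (BROAD: the broad cells; `β₀` bounds the `q`-budget of `S lam \ P₀`).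
* `tgx_omit`   (H1)-(H4) for the omissions of `AngTree`
* `tgx_main`   there are omitted directions `O B ω` and a root set `Y' ⊆ Yf`, `#Yf ≤ 4 #Y'`, such that the restriction `R = RO S P₀ O` of the FROZEN tree (`R i ω ⊆ S i`: `tgm_RO_sub`) has near path mass `≥ ϖl/2` on `Y'`
               and every strip of a mesh height `k` has residual reference measure `≤ t k` in every macro box.
* `tgx_law`    consequently, for EVERY path law of `R` (any kernel `0 ≤ J ≤ Jn R` of mass `≥ ϖ'` on `Y'`; it exists: `tp_law_exists`): the angular test.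
ALL the exits of PATH / JOINT / COND (`tp_cap_law`, `tp_lcap_law`, `tp_occ_law` with the SAME recorded occupancy sizes, `tp_law_att`, `tp_law_redraw`, `tp_cond_cap`, …) apply to this `R`, `J = Jn R`, `ϖl/2`.
Pointwise domination of `P(Ω | Z, τ_l)` by the residual reference measure: `tgx_dom_law`;   (NU): `tgx_NU`;   `∑ nu ≤ 1`: `tgx_nu_sum`.
-/

set_option autoImplicit false

namespace Claimed.Agent.R257.FR2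

open scoped BigOperators Classical
open Claimed.Agent.R255 Claimed.Agent.R255.FLaw Claimed.Agent.R257

noncomputable section

namespace TAng

variable {𝔖 : TSys} {𝔊 : TGeo 𝔖} {𝔄 : TAng 𝔖 𝔊} {p : TPar} {g : GPar} {a : TAPar} {A K G : ℝ} {S : ∀ i, Finset (𝔖.C i)} {r : ℕ → ℝ}
  {Yf : Finset 𝔖.Y}

/-- (H1)-(H4) for the omissions of `AngTree` -/
theorem tgx_omit (S : ∀ i, Finset (𝔖.C i)) (Ms : Finset ℕ) (J : 𝔄.BB → ℕ → Finset 𝔄.Str) (hMs : ∀ k ∈ Ms, 𝔄.bot ≤ k ∧ k < 𝔄.lam) :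
    𝔄.Omit S (𝔄.SB S Ms J) (𝔄.Om Ms J) where
  sub := tgo_SB_sub S Ms J
  cell := fun B i _ T hT hT' ω hc => tgo_SB_om S Ms J B i T (Finset.mem_sdiff.2 ⟨hT, hT'⟩) ω hc
  block := fun B ω hω => by
    obtain ⟨i, hi, hh⟩ := tgo_Om_cut S Ms J B ω hω
    exact ⟨i, (hMs i hi).2, hh⟩
  low := fun B i hi => tgo_SB_off S Ms J B fun hm => by have := (hMs i hm).1; omega

/-- **EXIT of ANG.** -/
theorem tgx_main (h : 𝔖.Ok p) (hg : 𝔊.Ok g) (hA : 𝔄.Ok p a) (hF : 𝔖.Frozen p.q A K G S r Yf) (hY : Yf.Nonempty) (hA0 : 0 < A)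
    (hC : 0 ≤ a.CPsi) (Ms : Finset ℕ) (hMs : ∀ k ∈ Ms, 𝔄.bot ≤ k ∧ k < 𝔄.lam) (t : ℕ → ℝ) (ht : ∀ k ∈ Ms, 0 < t k)
    (P₀ : Finset (𝔖.C 𝔄.lam)) (hP₀ : P₀ ⊆ S 𝔄.lam) (β₀ : ℝ)
    (hβ₀ : 𝔖.bud p.q 𝔄.lam (𝔖.resA (S 𝔄.lam \ P₀) (𝔖.am S 𝔄.lam)) (𝔖.b 𝔄.lam) ≤ β₀) (d : ℕ) (hid : 𝔄.lam + d = 𝔖.ℓ)
    (hR : ((Ms.card + 1 : ℝ) ^ 2 * ∏ m ∈ Finset.range 𝔄.lam, p.Γ m) * 𝔖.GamProd p 𝔄.lam * p.Γr 𝔖.ℓ * p.ϖ0 ≤ (p.Rm * (A / (2 * K))) ^ 2)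
    (hgain : 2 * (p.L0 * p.L ^ d * p.ϖ0 ^ (p.q / 2 - 1) * (A / (2 * K)) ^ (-p.q) *
      ((Ms.card : ℝ) ^ (p.q - 1) * ∑ k ∈ Ms, 𝔄.cQ p a K r (fun k => 1 / t k) k + β₀)) ≤ Yf.card)
    (ϖl : ℝ) (hϖ : 0 < ϖl) (hR' : (∏ m ∈ Finset.range 𝔖.ℓ, p.Γ m) * p.Γr 𝔖.ℓ * ϖl ≤ (p.Rm * (A / (2 * K))) ^ 2)
    (hsmall : p.L0 * (A / (2 * K)) ^ (-p.q) * ϖl ^ (p.q / 2 - 1) *
      (p.L ^ d * (a.Lq ^ (𝔄.lam - 𝔄.bot) * (a.CPsi * (p.L ^ 𝔄.bot * 𝔖.D)))) ≤ Yf.card / 4)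
    (hδ : g.δ * (𝔖.ℓ * p.ϖ0 + g.ϖb) ≤ ϖl / 2) :
    ∃ (O : 𝔄.BB → 𝔊.Dir → Prop) (Y' : Finset 𝔖.Y), Y' ⊆ Yf ∧ (Yf.card : ℝ) ≤ 4 * Y'.card ∧
      (∀ z ∈ Y', ϖl / 2 ≤ 𝔊.Wn (𝔄.RO S P₀ O) z) ∧
      ∀ B σ, ∑ ω, (if 𝔄.inStr (𝔄.lev σ) σ ω ∧ ¬ O B ω then 𝔄.nu B ω else 0) ≤ if 𝔄.lev σ ∈ Ms then t (𝔄.lev σ) else 1 := by
  have hK : 0 < K := TSys.tpf_K_pos hF hY
  obtain ⟨J, hJ1, hJ2, hJ3⟩ := tgo_greedy_Om (𝔄 := 𝔄) Ms 𝔄.nu (tgx_nu_nonneg h) (Kν := 1)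
    (fun B => tgx_nu_sum h B Finset.univ) t ht
  obtain ⟨Yf', hs1, hc1, hN⟩ := tgo_main h hA hF hY hA0 hC Ms J hMs hJ1 (fun k => 1 / t k)
    (fun k hk => by have := ht k hk; positivity) hJ2 P₀ hP₀ β₀ hβ₀ d hid hR hgain
  have hθ : 0 < A / (2 * K) := by positivity
  obtain ⟨Y', hs2, hc2, hW⟩ := tgm_root_set h hg hA S P₀ hP₀ (𝔄.SB S Ms J) (𝔄.Om Ms J) (tgx_omit S Ms J hMs) d hid hC Yf'
    (A / (2 * K)) ϖl hθ hϖ (fun z hz => by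
      rw [div_le_iff₀ (by positivity)]
      have := hN z hz
      calc A ≤ 2 * K * _ := this
        _ = _ := by rw [mul_comm]; rfl) hR' (by linarith) hδ
  refine ⟨𝔄.Om Ms J, Y', hs2.trans hs1, by linarith, hW, fun B σ => ?_⟩
  rw [← Finset.sum_filter]
  by_cases hσ : 𝔄.lev σ ∈ Ms
  · rw [if_pos hσ]
    exact (hJ3 B _ hσ σ rfl).le
  · rw [if_neg hσ]
    exact tgx_nu_sum h B _

variable {J : 𝔖.Y → 𝔊.Dir → ℝ} {Y' : Finset 𝔖.Y} {Ω₀ : Type} [Fintype Ω₀] {P : FLaw Ω₀} {Z : Ω₀ → 𝔖.Y} {Om : Ω₀ → 𝔊.Dir}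

/-- **the angular test for the path laws of the macro tree**: off probability `ϖ0 / s`, every strip `σ` of a mesh height has conditional probability `≤ (Γc^ℓ Kv² m / ϖ') s t(lev σ)` given `(Z, τ_l)`. -/
theorem tgx_law (h : 𝔖.Ok p) (hg : 𝔊.Ok g) (hA : 𝔄.Ok p a) {Kv : ℝ} (hV : 𝔄.Var Kv) (S : ∀ i, Finset (𝔖.C i))
    (P₀ : Finset (𝔖.C 𝔄.lam)) (O : 𝔄.BB → 𝔊.Dir → Prop) (Ms : Finset ℕ) (t : ℕ → ℝ) (ht : ∀ k ∈ Ms, 0 < t k)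
    (hres : ∀ B σ, ∑ ω, (if 𝔄.inStr (𝔄.lev σ) σ ω ∧ ¬ O B ω then 𝔄.nu B ω else 0) ≤ if 𝔄.lev σ ∈ Ms then t (𝔄.lev σ) else 1)
    (hJ0 : ∀ z ω, 0 ≤ J z ω) (hJR : ∀ z ω, J z ω ≤ 𝔊.Jn (𝔄.RO S P₀ O) z ω) (hL : 𝔊.IsLaw J Y' P Z Om) (ϖ' : ℝ)
    (hϖ : 0 < ϖ') (hW : ∀ z ∈ Y', ϖ' ≤ ∑ ω, J z ω) {s : ℝ} (hs : 0 < s) :
    P.pr (fun x => ¬ ∀ σ, 𝔄.lev σ ∈ Ms → P.pr (fun x' => (Z x' = Z x ∧ 𝔊.anc 𝔄.lam (Om x') = 𝔊.anc 𝔄.lam (Om x)) ∧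
        𝔄.inStr (𝔄.lev σ) σ (Om x')) ≤
      g.Γc ^ 𝔖.ℓ * Kv ^ 2 * g.m / ϖ' * s * t (𝔄.lev σ) * P.fib (pair (fun x => 𝔊.anc 𝔄.lam (Om x)) Z) x) ≤ p.ϖ0 / s := by
  have := tgx_ang_law h hg hA S P₀ O 𝔄.nu (tgx_nu_nonneg h) (m4 := Kv ^ 2) (sq_nonneg _)
    (fun z T ω hz hω => tgx_NU h hA hV z T ω hz hω) (fun k => if k ∈ Ms then t k else 1)
    (fun k => by split_ifs with hk; exacts [(ht k hk).le, zero_le_one]) hres hJ0 hJR hL ϖ' hϖ hW hs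
  refine le_trans (ent_pr_mono P fun x _ hb => ?_) this
  intro hall
  apply hb
  intro σ hσ
  have := hall σ
  rwa [if_pos hσ] at this

end TAng

end

end Claimed.Agent.R257.FR2
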