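import Mathlib

/-!
# ROW 257, package FR2, unit U7 (rest): ABSTRACT COMBINATORICS behind `f:angular`      (helper37; PROVED, no sorry)

Paper-free, Mathlib only.   U7 P1-P4 = `FR2/PathProb.lean` (helper125, proved);  P6 (simplex dichotomy) = `Lib/BD/Geo.lean` `bdg_trans_or_slab(_idx)` (helper63, proved).
* `tq_greedy`        **P5, greedy removal of heavy strips** (H `frame.tex` l.1045-1051): at most `K / lam` strips, each heavy in `U`, whose removal leaves every strip with mass `< lam`.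
* `tq_greedy_mesh`   the same for a finite mesh of widths at once (the order of the omissions is irrelevant for the residue bound).
* `tq_residue_law`   a law dominated by `K ν` on the residue gives mass `≤ K lam` to every strip.
-/

set_option autoImplicit false

namespace Claimed.Agent.R257.FR2

open scoped BigOperators
open Classical

/-- **P5, greedy removal** (`f:angular`, l.1045-1051).  `U` = the directions (caps), `ν` = the reference measure of total mass `≤ K`, `H i` = the (enlarged) strips, ANY family.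
There are at most `K / lam` strips whose removal leaves a residue in which EVERY strip has mass `< lam`. -/
theorem tq_greedy {X ι : Type*} (U : Finset X) (ν : X → ℝ) (hν : ∀ x, 0 ≤ ν x) (H : ι → Finset X) {K lam : ℝ}
    (hlam : 0 < lam) (hK : ∑ x ∈ U, ν x ≤ K) :
    ∃ J : Finset ι, (J.card : ℝ) * lam ≤ K ∧ (∀ j ∈ J, lam ≤ ∑ x ∈ U ∩ H j, ν x) ∧
      ∀ i, ∑ x ∈ (U \ J.biUnion H) ∩ H i, ν x < lam := by
  induction' hn : U.card using Nat.strong_induction_on with n ih generalizing U K
  by_cases hall : ∀ i, ∑ x ∈ U ∩ H i, ν x < lam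
  · refine ⟨∅, ?_, by simp, fun i => ?_⟩
    · simpa using (Finset.sum_nonneg fun x _ => hν x).trans hK
    · simpa using hall i
  · push Not at hall
    obtain ⟨i, hi⟩ := hall
    have hne : (U ∩ H i).Nonempty := by
      by_contra h0
      rw [Finset.not_nonempty_iff_eq_empty] at h0
      rw [h0, Finset.sum_empty] at hi
      exact absurd hi (not_le.2 hlam)
    have hcard : (U \ H i).card < n := by
      rw [← hn]
      refine Finset.card_lt_card ⟨Finset.sdiff_subset, fun hsub => ?_⟩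
      obtain ⟨x, hx⟩ := hne
      rw [Finset.mem_inter] at hx
      exact (Finset.mem_sdiff.1 (hsub hx.1)).2 hx.2
    have hsplit : ∑ x ∈ U \ H i, ν x + ∑ x ∈ U ∩ H i, ν x = ∑ x ∈ U, ν x := by
      rw [add_comm]
      exact Finset.sum_inter_add_sum_sdiff U (H i) ν
    obtain ⟨J, hJ1, hJ2, hJ3⟩ := ih _ hcard (U \ H i) (K := K - lam) (by linarith) rfl
    refine ⟨insert i J, ?_, ?_, fun i' => ?_⟩
    · have h1 : ((insert i J).card : ℝ) ≤ J.card + 1 := by exact_mod_cast Finset.card_insert_le i J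
      nlinarith
    · intro j hj
      rcases Finset.mem_insert.1 hj with rfl | hj
      · exact hi
      · refine (hJ2 j hj).trans (Finset.sum_le_sum_of_subset_of_nonneg ?_ fun x _ _ => hν x)
        exact Finset.inter_subset_inter_right Finset.sdiff_subset
    · have e : U \ (insert i J).biUnion H = (U \ H i) \ J.biUnion H := by
        rw [Finset.biUnion_insert, Finset.sdiff_union_distrib]
        ext x
        simp only [Finset.mem_inter, Finset.mem_sdiff]
        tauto
      rw [e]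
      exact hJ3 i'

/-- **P5 for a finite mesh** `M` of widths: strips `H v i`, thresholds `lam v`.  One residue `U \ ⋃_v ⋃_{j ∈ J v} H v j` for all the widths. -/
theorem tq_greedy_mesh {X ι μ : Type*} (M : Finset μ) (U : Finset X) (ν : X → ℝ) (hν : ∀ x, 0 ≤ ν x) (H : μ → ι → Finset X)
    {K : ℝ} (lam : μ → ℝ) (hlam : ∀ v ∈ M, 0 < lam v) (hK : ∑ x ∈ U, ν x ≤ K) :
    ∃ J : μ → Finset ι, (∀ v ∈ M, ((J v).card : ℝ) * lam v ≤ K) ∧ (∀ v ∈ M, ∀ j ∈ J v, lam v ≤ ∑ x ∈ U ∩ H v j, ν x) ∧
      ∀ v ∈ M, ∀ i, ∑ x ∈ (U \ M.biUnion fun v' => (J v').biUnion (H v')) ∩ H v i, ν x < lam v := by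
  have h : ∀ v, ∃ J : Finset ι, v ∈ M → ((J.card : ℝ) * lam v ≤ K ∧ (∀ j ∈ J, lam v ≤ ∑ x ∈ U ∩ H v j, ν x) ∧
      ∀ i, ∑ x ∈ (U \ J.biUnion (H v)) ∩ H v i, ν x < lam v) := by
    intro v
    by_cases hv : v ∈ M
    · obtain ⟨J, hJ⟩ := tq_greedy U ν hν (H v) (hlam v hv) hK
      exact ⟨J, fun _ => hJ⟩
    · exact ⟨∅, fun h => absurd h hv⟩
  choose J hJ using h
  refine ⟨J, fun v hv => (hJ v hv).1, fun v hv => (hJ v hv).2.1, fun v hv i => ?_⟩
  refine lt_of_le_of_lt (Finset.sum_le_sum_of_subset_of_nonneg ?_ fun x _ _ => hν x) ((hJ v hv).2.2 i)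
  refine Finset.inter_subset_inter_right (Finset.sdiff_subset_sdiff (Finset.Subset.refl U) ?_)
  exact Finset.subset_biUnion_of_mem (fun v' => (J v').biUnion (H v')) hv

/-- a weight `p` supported in the residue `R` and dominated there by `K ν` gives mass `≤ K lam` to a strip of residual `ν`-mass `≤ lam`. -/
theorem tq_residue_law {X : Type*} (R S : Finset X) (ν p : X → ℝ) {K lam : ℝ} (hK : 0 ≤ K)
    (hp : ∀ x ∈ R, p x ≤ K * ν x) (h0 : ∀ x ∈ S, x ∉ R → p x ≤ 0) (hS : ∑ x ∈ R ∩ S, ν x ≤ lam) :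
    ∑ x ∈ S, p x ≤ K * lam := by
  have e : ∑ x ∈ S, p x = ∑ x ∈ S ∩ R, p x + ∑ x ∈ S \ R, p x := (Finset.sum_inter_add_sum_sdiff S R p).symm
  have h1 : ∑ x ∈ S \ R, p x ≤ 0 := Finset.sum_nonpos fun x hx => h0 x (Finset.mem_sdiff.1 hx).1 (Finset.mem_sdiff.1 hx).2
  have h2 : ∑ x ∈ S ∩ R, p x ≤ K * ∑ x ∈ R ∩ S, ν x := by
    rw [Finset.mul_sum, Finset.inter_comm]
    exact Finset.sum_le_sum fun x hx => hp x (Finset.mem_inter.1 hx).1
  have h3 := mul_le_mul_of_nonneg_left hS hK
  linarith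

end Claimed.Agent.R257.FR2
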