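import Claimed.Agent.R257.FR2.Broad
import Claimed.Agent.R257.FR2.Prob

/-!
# ROW 257, package FR2, unit ANG (H `frame.tex` l.1010-1104, first half of `f:angular`), file 1: THE MACRO TREE (STEPS 1-3 of `FR2/Notes.lean`)      (helper37)

Paper-free.   PROVED, no sorry.   Data: masks `S`, an instance `𝔄 : TAng 𝔖 𝔊`, a MESH `Ms : Finset ℕ` of heights in `[bot, lam)`, OMITTED STRIPS `J B k : Finset 𝔄.Str` (`B` macro box, `k ∈ Ms`, all of mesh height `k`).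
* `TAng.om S J B k`        the omitted cells of height `k` for the macro box `B`: the cells of `S k` under one of the strips of `J B k`
* `TAng.SBk S Ms J B k`    the masks of `B` with the omissions at the mesh heights `≥ k` only;   `SBk … lam = S`;   `TAng.SB S Ms J B = SBk … 0` ALL the omissions
* `TAng.EB S Ms J B k`     the masks of the error tree of the height `k`: below `k` the ORIGINAL masks, at `k` the omitted cells, above `k` the masks with the omissions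
* `TAng.gNJ`, `TAng.aNJ`     the NEW family of height `lam`: `gNJ T = fld (SB (Bx T)) lam T`, actual amplitudes `aNJ T = am (SB (Bx T)) lam T`;   above `lam` the new tree is `prop S lam (res P₀ gNJ)`
* `TAng.gEk`, `aEk`, `gE`, `aE`   the error families
RESULTS.
* `tgo_greedy`   STEP 1: for reference laws `nu B` on the directions: strips `J B k`, `#(J B k) t_k ≤ Kν`, every strip of height `k ∈ Ms` has residual `nu B`-mass `< t_k`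
* `tgo_tele`     STEP 3: `fld S lam = fld (SB B) lam + ∑_{k ∈ Ms} fld (EB B k) lam`;    `tgo_split`: `fld S lam = gNJ + gE`
* `tgo_am_EB`    the error tree of the height `k` starts from the ORIGINAL frozen amplitudes: `am (EB B k) k = am S k`
* `tgo_adm_N`, `tgo_adm_E`   admissibility
-/

set_option autoImplicit false

namespace Claimed.Agent.R257.FR2

open scoped BigOperators Classical

noncomputable section

namespace TAng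

variable {𝔖 : TSys} {𝔊 : TGeo 𝔖} (𝔄 : TAng 𝔖 𝔊)

/-- the omitted cells of height `k` for the macro box `B` -/
def om (S : ∀ i, Finset (𝔖.C i)) (J : 𝔄.BB → ℕ → Finset 𝔄.Str) (B : 𝔄.BB) (k : ℕ) : Finset (𝔖.C k) :=
  (S k).filter fun T => ∃ σ ∈ J B k, 𝔄.under k σ T

/-- the masks of the macro box `B` with the omissions at the mesh heights `≥ k` -/
def SBk (S : ∀ i, Finset (𝔖.C i)) (Ms : Finset ℕ) (J : 𝔄.BB → ℕ → Finset 𝔄.Str) (B : 𝔄.BB) (k : ℕ) : ∀ i, Finset (𝔖.C i) :=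
  fun i => if i ∈ Ms ∧ k ≤ i then S i \ 𝔄.om S J B i else S i

/-- the masks of the macro box `B` with all the omissions -/
def SB (S : ∀ i, Finset (𝔖.C i)) (Ms : Finset ℕ) (J : 𝔄.BB → ℕ → Finset 𝔄.Str) (B : 𝔄.BB) : ∀ i, Finset (𝔖.C i) := 𝔄.SBk S Ms J B 0

/-- the masks of the error tree of the height `k` -/
def EB (S : ∀ i, Finset (𝔖.C i)) (Ms : Finset ℕ) (J : 𝔄.BB → ℕ → Finset 𝔄.Str) (B : 𝔄.BB) (k : ℕ) : ∀ i, Finset (𝔖.C i) :=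
  𝔖.upd (𝔄.SBk S Ms J B (k + 1)) k (𝔄.om S J B k)

/-- the new family of height `lam` -/
def gNJ (S : ∀ i, Finset (𝔖.C i)) (Ms : Finset ℕ) (J : 𝔄.BB → ℕ → Finset 𝔄.Str) : 𝔖.C 𝔄.lam → 𝔖.F :=
  fun T => 𝔖.fld (𝔄.SB S Ms J (𝔄.Bx T)) 𝔄.lam T

/-- the actual amplitudes of the new family -/
def aNJ (S : ∀ i, Finset (𝔖.C i)) (Ms : Finset ℕ) (J : 𝔄.BB → ℕ → Finset 𝔄.Str) : 𝔖.C 𝔄.lam → ℝ :=
  fun T => 𝔖.am (𝔄.SB S Ms J (𝔄.Bx T)) 𝔄.lam T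

/-- the error family of the mesh height `k` -/
def gEk (S : ∀ i, Finset (𝔖.C i)) (Ms : Finset ℕ) (J : 𝔄.BB → ℕ → Finset 𝔄.Str) (k : ℕ) : 𝔖.C 𝔄.lam → 𝔖.F :=
  fun T => 𝔖.fld (𝔄.EB S Ms J (𝔄.Bx T) k) 𝔄.lam T

def aEk (S : ∀ i, Finset (𝔖.C i)) (Ms : Finset ℕ) (J : 𝔄.BB → ℕ → Finset 𝔄.Str) (k : ℕ) : 𝔖.C 𝔄.lam → ℝ :=
  fun T => 𝔖.am (𝔄.EB S Ms J (𝔄.Bx T) k) 𝔄.lam T

/-- the total error family -/
def gE (S : ∀ i, Finset (𝔖.C i)) (Ms : Finset ℕ) (J : 𝔄.BB → ℕ → Finset 𝔄.Str) : 𝔖.C 𝔄.lam → 𝔖.F :=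
  fun T => ∑ k ∈ Ms, 𝔄.gEk S Ms J k T

def aE (S : ∀ i, Finset (𝔖.C i)) (Ms : Finset ℕ) (J : 𝔄.BB → ℕ → Finset 𝔄.Str) : 𝔖.C 𝔄.lam → ℝ :=
  fun T => ∑ k ∈ Ms, 𝔄.aEk S Ms J k T

variable {𝔄} {p : TPar} {a : TAPar}

/-! ## STEP 1: the greedy choice -/

/-- **STEP 1.**   `nu B` = reference law of the macro box `B` on the fine directions, `t k` = threshold of the mesh height `k`. -/
theorem tgo_greedy (Ms : Finset ℕ) (nu : 𝔄.BB → 𝔊.Dir → ℝ) (hnu : ∀ B ω, 0 ≤ nu B ω) {Kν : ℝ} (hK : ∀ B, ∑ ω, nu B ω ≤ Kν)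
    (t : ℕ → ℝ) (ht : ∀ k ∈ Ms, 0 < t k) :
    ∃ J : 𝔄.BB → ℕ → Finset 𝔄.Str, (∀ B k, ∀ σ ∈ J B k, 𝔄.lev σ = k) ∧ (∀ B, ∀ k ∈ Ms, ((J B k).card : ℝ) * t k ≤ Kν) ∧
      ∀ B, ∀ k ∈ Ms, ∀ σ, 𝔄.lev σ = k →
        ∑ ω ∈ Finset.univ.filter (fun ω => 𝔄.inStr k σ ω ∧ ∀ k' ∈ Ms, ∀ σ' ∈ J B k', ¬ 𝔄.inStr k' σ' ω), nu B ω < t k := by
  have key : ∀ B : 𝔄.BB, ∃ J : ℕ → Finset 𝔄.Str, (∀ k, ∀ σ ∈ J k, 𝔄.lev σ = k) ∧ (∀ k ∈ Ms, ((J k).card : ℝ) * t k ≤ Kν) ∧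
      ∀ k ∈ Ms, ∀ σ, 𝔄.lev σ = k →
        ∑ ω ∈ Finset.univ.filter (fun ω => 𝔄.inStr k σ ω ∧ ∀ k' ∈ Ms, ∀ σ' ∈ J k', ¬ 𝔄.inStr k' σ' ω), nu B ω < t k := by
    intro B
    obtain ⟨J, h1, h2, h3⟩ := tq_greedy_mesh Ms (Finset.univ : Finset 𝔊.Dir) (nu B) (hnu B)
      (fun k σ => if 𝔄.lev σ = k then Finset.univ.filter (fun ω => 𝔄.inStr k σ ω) else ∅) t ht (hK B)
    obtain ⟨J', hJ'⟩ : ∃ J' : ℕ → Finset 𝔄.Str, ∀ k, J' k = if k ∈ Ms then J k else ∅ := ⟨_, fun _ => rfl⟩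
    have hlev : ∀ k ∈ Ms, ∀ σ ∈ J k, 𝔄.lev σ = k := by
      intro k hk σ hσ
      by_contra hne
      have := h2 k hk σ hσ
      rw [if_neg hne, Finset.inter_empty, Finset.sum_empty] at this
      exact absurd (ht k hk) (not_lt.2 this)
    refine ⟨J', ?_, ?_, ?_⟩
    · intro k σ hσ
      rw [hJ'] at hσ
      by_cases hk : k ∈ Ms
      · rw [if_pos hk] at hσ
        exact hlev k hk σ hσ
      · rw [if_neg hk] at hσ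
        exact absurd hσ (Finset.notMem_empty σ)
    · intro k hk
      rw [hJ', if_pos hk]
      exact h1 k hk
    · intro k hk σ hσ
      refine lt_of_le_of_lt (le_of_eq ?_) (h3 k hk σ)
      refine Finset.sum_congr ?_ fun _ _ => rfl
      ext ω
      simp only [Finset.mem_filter, Finset.mem_univ, true_and, Finset.mem_inter, Finset.mem_sdiff, Finset.mem_biUnion, if_pos hσ]
      constructor
      · rintro ⟨h4, h5⟩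
        refine ⟨?_, h4⟩
        rintro ⟨k', hk', σ', hσ', hω⟩
        rw [if_pos (hlev k' hk' σ' hσ')] at hω
        exact h5 k' hk' σ' (by rw [hJ', if_pos hk']; exact hσ') (Finset.mem_filter.1 hω).2
      · rintro ⟨h4, h5⟩
        refine ⟨h5, fun k' hk' σ' hσ' hω => h4 ⟨k', hk', σ', ?_, ?_⟩⟩
        · rw [hJ', if_pos hk'] at hσ'
          exact hσ'
        · rw [hJ', if_pos hk'] at hσ'
          rw [if_pos (hlev k' hk' σ' hσ')]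
          exact Finset.mem_filter.2 ⟨Finset.mem_univ _, hω⟩
  choose J hJ using key
  exact ⟨J, fun B => (hJ B).1, fun B => (hJ B).2.1, fun B => (hJ B).2.2⟩

/-! ## STEPS 2, 3: the masks, telescoping -/

theorem tgo_om_sub (S : ∀ i, Finset (𝔖.C i)) (J : 𝔄.BB → ℕ → Finset 𝔄.Str) (B : 𝔄.BB) (k : ℕ) : 𝔄.om S J B k ⊆ S k :=
  Finset.filter_subset _ _

theorem tgo_SBk_sub (S : ∀ i, Finset (𝔖.C i)) (Ms : Finset ℕ) (J : 𝔄.BB → ℕ → Finset 𝔄.Str) (B : 𝔄.BB) (k i : ℕ) : 𝔄.SBk S Ms J B k i ⊆ S i := by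
  unfold TAng.SBk
  split_ifs
  · exact Finset.sdiff_subset
  · exact Finset.Subset.refl _

theorem tgo_SBk_of_lt (S : ∀ i, Finset (𝔖.C i)) (Ms : Finset ℕ) (J : 𝔄.BB → ℕ → Finset 𝔄.Str) (B : 𝔄.BB) {k i : ℕ} (hi : i < k) : 𝔄.SBk S Ms J B k i = S i := by
  unfold TAng.SBk
  rw [if_neg]
  rintro ⟨-, h2⟩
  omega

theorem tgo_SBk_of_notMem (S : ∀ i, Finset (𝔖.C i)) (Ms : Finset ℕ) (J : 𝔄.BB → ℕ → Finset 𝔄.Str) (B : 𝔄.BB) (k : ℕ) {i : ℕ} (hi : i ∉ Ms) : 𝔄.SBk S Ms J B k i = S i := by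
  unfold TAng.SBk
  rw [if_neg]
  rintro ⟨h1, -⟩
  exact hi h1

theorem tgo_SBk_of_mem (S : ∀ i, Finset (𝔖.C i)) (Ms : Finset ℕ) (J : 𝔄.BB → ℕ → Finset 𝔄.Str) (B : 𝔄.BB) {k i : ℕ} (hi : i ∈ Ms) (hk : k ≤ i) :
    𝔄.SBk S Ms J B k i = S i \ 𝔄.om S J B i := by
  unfold TAng.SBk
  rw [if_pos ⟨hi, hk⟩]

theorem tgo_SBk_top (S : ∀ i, Finset (𝔖.C i)) (Ms : Finset ℕ) (J : 𝔄.BB → ℕ → Finset 𝔄.Str) (B : 𝔄.BB) (k : ℕ) (hMs : ∀ i ∈ Ms, i < k) : 𝔄.SBk S Ms J B k = S := by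
  funext i
  by_cases hi : i ∈ Ms
  · exact tgo_SBk_of_lt S Ms J B (hMs i hi)
  · exact tgo_SBk_of_notMem S Ms J B k hi

theorem tgo_SBk_step_not (S : ∀ i, Finset (𝔖.C i)) (Ms : Finset ℕ) (J : 𝔄.BB → ℕ → Finset 𝔄.Str) (B : 𝔄.BB) {k : ℕ} (hk : k ∉ Ms) :
    𝔄.SBk S Ms J B (k + 1) = 𝔄.SBk S Ms J B k := by
  funext i
  unfold TAng.SBk
  by_cases hi : i ∈ Ms
  · have hne : i ≠ k := fun e => hk (e ▸ hi)
    by_cases hki : k ≤ i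
    · rw [if_pos ⟨hi, by omega⟩, if_pos ⟨hi, hki⟩]
    · rw [if_neg (by rintro ⟨-, h2⟩; omega), if_neg (by rintro ⟨-, h2⟩; omega)]
  · rw [if_neg (fun h => hi h.1), if_neg (fun h => hi h.1)]

theorem tgo_SBk_step_mem (S : ∀ i, Finset (𝔖.C i)) (Ms : Finset ℕ) (J : 𝔄.BB → ℕ → Finset 𝔄.Str) (B : 𝔄.BB) {k : ℕ} (hk : k ∈ Ms) :
    𝔄.SBk S Ms J B k = 𝔖.upd (𝔄.SBk S Ms J B (k + 1)) k (S k \ 𝔄.om S J B k) := by
  funext i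
  by_cases hik : i = k
  · subst hik
    rw [TSys.tcg_upd_self, tgo_SBk_of_mem S Ms J B hk le_rfl]
  · rw [TSys.tcg_upd_ne _ hik]
    unfold TAng.SBk
    by_cases hi : i ∈ Ms ∧ k ≤ i
    · rw [if_pos hi, if_pos ⟨hi.1, by have := hi.2; omega⟩]
    · rw [if_neg hi, if_neg (fun h => hi ⟨h.1, by have := h.2; omega⟩)]

/-- one step of the telescoping -/
theorem tgo_tele_step (h : 𝔖.Ok p) (S : ∀ i, Finset (𝔖.C i)) (Ms : Finset ℕ) (J : 𝔄.BB → ℕ → Finset 𝔄.Str) (B : 𝔄.BB) {k j : ℕ} (hk : k ∈ Ms) (hkj : k < j) :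
    𝔖.fld (𝔄.SBk S Ms J B (k + 1)) j = 𝔖.fld (𝔄.SBk S Ms J B k) j + 𝔖.fld (𝔄.EB S Ms J B k) j := by
  have h1 := TSys.tcg_fld_split2 h (𝔄.SBk S Ms J B (k + 1)) k (S k \ 𝔄.om S J B k) (𝔄.om S J B k) Finset.sdiff_disjoint j hkj
  rw [Finset.sdiff_union_of_subset (tgo_om_sub S J B k)] at h1
  have e : 𝔖.upd (𝔄.SBk S Ms J B (k + 1)) k (S k) = 𝔄.SBk S Ms J B (k + 1) := by
    have := TSys.tcg_upd_eq (𝔄.SBk S Ms J B (k + 1)) k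
    rwa [tgo_SBk_of_lt S Ms J B (Nat.lt_succ_self k)] at this
  rw [e, ← tgo_SBk_step_mem S Ms J B hk] at h1
  exact h1

/-- **STEP 3, telescoping** (partial) -/
theorem tgo_tele_aux (h : 𝔖.Ok p) (S : ∀ i, Finset (𝔖.C i)) (Ms : Finset ℕ) (J : 𝔄.BB → ℕ → Finset 𝔄.Str) (B : 𝔄.BB) (j : ℕ) :
    ∀ k, k ≤ j → 𝔖.fld (𝔄.SBk S Ms J B k) j = 𝔖.fld (𝔄.SB S Ms J B) j + ∑ i ∈ Ms.filter (fun i => i < k), 𝔖.fld (𝔄.EB S Ms J B i) j := by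
  intro k
  induction k with
  | zero =>
    intro _
    simp [TAng.SB]
  | succ k ih =>
    intro hk
    have ih' := ih (by omega)
    by_cases hkM : k ∈ Ms
    · have e : Ms.filter (fun i => i < k + 1) = insert k (Ms.filter fun i => i < k) := by
        ext i
        simp only [Finset.mem_filter, Finset.mem_insert]
        constructor
        · rintro ⟨h1, h2⟩
          rcases Nat.lt_succ_iff_lt_or_eq.1 h2 with h3 | h3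
          · exact Or.inr ⟨h1, h3⟩
          · exact Or.inl h3
        · rintro (rfl | ⟨h1, h2⟩)
          · exact ⟨hkM, Nat.lt_succ_self _⟩
          · exact ⟨h1, by omega⟩
      rw [e, Finset.sum_insert (by simp), tgo_tele_step h S Ms J B hkM (by omega), ih']
      abel
    · have e : Ms.filter (fun i => i < k + 1) = Ms.filter fun i => i < k := by
        ext i
        simp only [Finset.mem_filter]
        constructor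
        · rintro ⟨h1, h2⟩
          refine ⟨h1, ?_⟩
          have : i ≠ k := fun e => hkM (e ▸ h1)
          omega
        · rintro ⟨h1, h2⟩
          exact ⟨h1, by omega⟩
      rw [e, tgo_SBk_step_not S Ms J B hkM, ih']

/-- **STEP 3, telescoping** -/
theorem tgo_tele (h : 𝔖.Ok p) (S : ∀ i, Finset (𝔖.C i)) (Ms : Finset ℕ) (J : 𝔄.BB → ℕ → Finset 𝔄.Str) (B : 𝔄.BB) (j : ℕ) (hMs : ∀ i ∈ Ms, i < j) :
    𝔖.fld S j = 𝔖.fld (𝔄.SB S Ms J B) j + ∑ i ∈ Ms, 𝔖.fld (𝔄.EB S Ms J B i) j := by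
  have h1 := tgo_tele_aux h S Ms J B j j le_rfl
  rw [tgo_SBk_top S Ms J B j hMs, Finset.filter_true_of_mem hMs] at h1
  exact h1

/-- the old family of height `lam` = the new family + the error family -/
theorem tgo_split (h : 𝔖.Ok p) (S : ∀ i, Finset (𝔖.C i)) (Ms : Finset ℕ) (J : 𝔄.BB → ℕ → Finset 𝔄.Str) (hMs : ∀ i ∈ Ms, i < 𝔄.lam) :
    𝔖.fld S 𝔄.lam = 𝔄.gNJ S Ms J + 𝔄.gE S Ms J := by
  funext T
  rw [tgo_tele h S Ms J (𝔄.Bx T) 𝔄.lam hMs]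
  simp only [Pi.add_apply, Finset.sum_apply]
  rfl

/-- the masks of the error tree -/
theorem tgo_EB_self (S : ∀ i, Finset (𝔖.C i)) (Ms : Finset ℕ) (J : 𝔄.BB → ℕ → Finset 𝔄.Str) (B : 𝔄.BB) (k : ℕ) : 𝔄.EB S Ms J B k k = 𝔄.om S J B k :=
  TSys.tcg_upd_self _ _ _

theorem tgo_EB_of_lt (S : ∀ i, Finset (𝔖.C i)) (Ms : Finset ℕ) (J : 𝔄.BB → ℕ → Finset 𝔄.Str) (B : 𝔄.BB) {k i : ℕ} (hi : i < k) : 𝔄.EB S Ms J B k i = S i := by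
  unfold TAng.EB
  rw [TSys.tcg_upd_ne _ (by omega), tgo_SBk_of_lt S Ms J B (by omega)]

theorem tgo_EB_sub (S : ∀ i, Finset (𝔖.C i)) (Ms : Finset ℕ) (J : 𝔄.BB → ℕ → Finset 𝔄.Str) (B : 𝔄.BB) (k i : ℕ) : 𝔄.EB S Ms J B k i ⊆ S i := by
  by_cases hik : i = k
  · subst hik
    rw [tgo_EB_self]
    exact tgo_om_sub S J B i
  · unfold TAng.EB
    rw [TSys.tcg_upd_ne _ hik]
    exact tgo_SBk_sub S Ms J B _ i

/-- the error tree of the height `k` starts from the ORIGINAL amplitudes -/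
theorem tgo_am_EB (S : ∀ i, Finset (𝔖.C i)) (Ms : Finset ℕ) (J : 𝔄.BB → ℕ → Finset 𝔄.Str) (B : 𝔄.BB) (k : ℕ) : 𝔖.am (𝔄.EB S Ms J B k) k = 𝔖.am S k :=
  TSys.tcg_am_congr _ _ k fun _ hj => tgo_EB_of_lt S Ms J B hj

theorem tgo_fld_EB (S : ∀ i, Finset (𝔖.C i)) (Ms : Finset ℕ) (J : 𝔄.BB → ℕ → Finset 𝔄.Str) (B : 𝔄.BB) (k : ℕ) : 𝔖.fld (𝔄.EB S Ms J B k) k = 𝔖.fld S k :=
  TSys.tcg_fld_congr _ _ k fun _ hj => tgo_EB_of_lt S Ms J B hj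

/-! ## admissibility -/

theorem tgo_adm_N (h : 𝔖.Ok p) (hl : 𝔄.lam ≤ 𝔖.ℓ) (S : ∀ i, Finset (𝔖.C i)) (Ms : Finset ℕ) (J : 𝔄.BB → ℕ → Finset 𝔄.Str) :
    𝔖.Adm 𝔄.lam (𝔄.gNJ S Ms J) (𝔄.aNJ S Ms J) := fun T => TSys.tpf_adm h (𝔄.SB S Ms J (𝔄.Bx T)) 𝔄.lam hl T

theorem tgo_adm_Ek (h : 𝔖.Ok p) (hl : 𝔄.lam ≤ 𝔖.ℓ) (S : ∀ i, Finset (𝔖.C i)) (Ms : Finset ℕ) (J : 𝔄.BB → ℕ → Finset 𝔄.Str) (k : ℕ) :
    𝔖.Adm 𝔄.lam (𝔄.gEk S Ms J k) (𝔄.aEk S Ms J k) := fun T => TSys.tpf_adm h (𝔄.EB S Ms J (𝔄.Bx T) k) 𝔄.lam hl T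

theorem tgo_pk_sum (h : 𝔖.Ok p) (i : ℕ) (T : 𝔖.C i) {ι : Type*} (s : Finset ι) (α : ι → ℝ) (f : ι → 𝔖.F) (hf : ∀ x ∈ s, 𝔖.Pk i T (α x) (f x)) :
    𝔖.Pk i T (∑ x ∈ s, α x) (∑ x ∈ s, f x) := by
  induction s using Finset.induction_on with
  | empty => simpa using h.pk_zero i T
  | insert x s hx ih =>
    rw [Finset.sum_insert hx, Finset.sum_insert hx]
    exact h.pk_add i T _ _ _ _ (hf x (Finset.mem_insert_self x s)) (ih fun y hy => hf y (Finset.mem_insert_of_mem hy))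

theorem tgo_adm_E (h : 𝔖.Ok p) (hl : 𝔄.lam ≤ 𝔖.ℓ) (S : ∀ i, Finset (𝔖.C i)) (Ms : Finset ℕ) (J : 𝔄.BB → ℕ → Finset 𝔄.Str) :
    𝔖.Adm 𝔄.lam (𝔄.gE S Ms J) (𝔄.aE S Ms J) := fun T => tgo_pk_sum h 𝔄.lam T Ms _ _ fun k _ => tgo_adm_Ek h hl S Ms J k T

theorem tgo_aEk_nonneg (h : 𝔖.Ok p) (S : ∀ i, Finset (𝔖.C i)) (Ms : Finset ℕ) (J : 𝔄.BB → ℕ → Finset 𝔄.Str) (k : ℕ) (T : 𝔖.C 𝔄.lam) : 0 ≤ 𝔄.aEk S Ms J k T :=
  TSys.tpf_am_nonneg h _ _ T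

theorem tgo_aE_nonneg (h : 𝔖.Ok p) (S : ∀ i, Finset (𝔖.C i)) (Ms : Finset ℕ) (J : 𝔄.BB → ℕ → Finset 𝔄.Str) (T : 𝔖.C 𝔄.lam) : 0 ≤ 𝔄.aE S Ms J T :=
  Finset.sum_nonneg fun k _ => tgo_aEk_nonneg h S Ms J k T

end TAng

end

end Claimed.Agent.R257.FR2
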