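import Claimed.Agent.R257.FR2.Charge

/-!
# ROW 257, package FR2, unit BROAD (H `frame.tex` l.1106-1125, second half of `f:angular`): ORIGINAL BROAD WITNESSES      (architect helper37)

Paper-free.   Plan: `FR2/Notes.lean`, last part of ANG.   Data: a frozen tree `(S, r, Yf)`, an instance `𝔄 : TAng 𝔖 𝔊` (macro boxes of side `Λ^{3 v₀}`), ONE mesh height `mu < lam`; GROUPS = caps of height `mu`.
* `TGeo.grp S mu G`      the cells of the mask `S mu` in the group `G`;   `TGeo.grps S mu` the groups which occur.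
* `TAng.aG S mu G T`     the amplitude at the cell `T` of height `lam` of the ORIGINAL contribution of the group `G` through the frozen intervening masks `= am (upd S mu (grp S mu G)) lam T`.
* `TAng.marked …  B`     `G` is marked for the macro box `B` if `thr r_lam b_T ≤ aG_T` for SOME ACTIVE cell `T ∈ S lam` of `B`.
* `Br`                   ANY predicate on finite sets of groups ("contains a transverse `(k+1)`-tuple") with the DICHOTOMY `hdich` (P6 = `Lib/BD/Geo.bdg_trans_or_slab_idx`): a set of groups of one `lam`-cap is `Br` or lies under a strip of height `mu`.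
* `TAng.bcell …`         the BROAD active cells `{T ∈ S lam | Br (marked (Bx T))}`;   `TAng.nbcell` the others.
EXPORT `tbw_main`: the tree `S' = upd S lam (bcell …)` (only the mask of height `lam` is smaller) keeps the root field `≥ A/(2K)` on at least half of `Yf` (= hypothesis (N) of PATH / ANG).
By DEFINITION every `T ∈ S' lam` has `Br (marked (Bx T))`: a transverse tuple of groups `G_j` and ACTIVE cells `T_j` of the macro box of `T` with `thr r_lam b(T_j) ≤ aG G_j T_j`.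
-/

set_option autoImplicit false

namespace Claimed.Agent.R257.FR2

open scoped BigOperators Classical

noncomputable section

namespace TGeo

variable {𝔖 : TSys} (𝔊 : TGeo 𝔖)

/-- the cells of the mask of height `mu` in the group `G` -/
def grp (S : ∀ i, Finset (𝔖.C i)) (mu : ℕ) (G : 𝔊.Cap mu) : Finset (𝔖.C mu) := (S mu).filter fun T => 𝔊.cap mu T = G

/-- the groups which occur in the mask -/
def grps (S : ∀ i, Finset (𝔖.C i)) (mu : ℕ) : Finset (𝔊.Cap mu) := (S mu).image (𝔊.cap mu)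

/-- the cells of the mask of height `mu` whose group lies in `𝒢` -/
def grpU (S : ∀ i, Finset (𝔖.C i)) (mu : ℕ) (𝒢 : Finset (𝔊.Cap mu)) : Finset (𝔖.C mu) := (S mu).filter fun T => 𝔊.cap mu T ∈ 𝒢

end TGeo

namespace TAng

variable {𝔖 : TSys} {𝔊 : TGeo 𝔖} (𝔄 : TAng 𝔖 𝔊)

/-- the amplitude at height `lam` of the original contribution of the group `G` -/
def aG (S : ∀ i, Finset (𝔖.C i)) (mu : ℕ) (G : 𝔊.Cap mu) : 𝔖.C 𝔄.lam → ℝ := 𝔖.am (𝔖.upd S mu (𝔊.grp S mu G)) 𝔄.lam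

/-- the marked groups of a macro box -/
def marked (S : ∀ i, Finset (𝔖.C i)) (r : ℕ → ℝ) (mu : ℕ) (thr : ℝ) (B : 𝔄.BB) : Finset (𝔊.Cap mu) :=
  (𝔊.grps S mu).filter fun G => ∃ T ∈ S 𝔄.lam, 𝔄.Bx T = B ∧ thr * r 𝔄.lam * 𝔖.b 𝔄.lam T ≤ 𝔄.aG S mu G T

/-- the broad active cells -/
def bcell (S : ∀ i, Finset (𝔖.C i)) (r : ℕ → ℝ) (mu : ℕ) (thr : ℝ) (Br : Finset (𝔊.Cap mu) → Prop) : Finset (𝔖.C 𝔄.lam) :=
  (S 𝔄.lam).filter fun T => Br (𝔄.marked S r mu thr (𝔄.Bx T))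

/-- the non-broad active cells -/
def nbcell (S : ∀ i, Finset (𝔖.C i)) (r : ℕ → ℝ) (mu : ℕ) (thr : ℝ) (Br : Finset (𝔊.Cap mu) → Prop) : Finset (𝔖.C 𝔄.lam) :=
  (S 𝔄.lam).filter fun T => ¬ Br (𝔄.marked S r mu thr (𝔄.Bx T))

/-- the bound of the `q'`-charge of the non-broad cells -/
def bndQ' (p : TPar) (a : TAPar) (K : ℝ) (r : ℕ → ℝ) (mu : ℕ) : ℝ :=
  (4 / 3) ^ a.q' * a.L' ^ (𝔄.lam - mu) * (a.CPsi * (2 * r mu) ^ (a.q' - p.q) * (K * 𝔖.D))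

/-- the bound of the `q`-budget of the non-broad cells, `= K D ((4/3)^{q'} L'^d CΨ 2^{q'-q})^{q/q'} (r_mu / r_lam)^{q (q'-q)/q'}` -/
def bndQ (p : TPar) (a : TAPar) (K : ℝ) (r : ℕ → ℝ) (mu : ℕ) : ℝ :=
  𝔄.bndQ' p a K r mu ^ (p.q / a.q') * (K * 𝔖.D / r 𝔄.lam ^ p.q) ^ (1 - p.q / a.q')

variable {𝔄} {p : TPar} {a : TAPar} {A K G : ℝ} {S : ∀ i, Finset (𝔖.C i)} {r : ℕ → ℝ} {Yf : Finset 𝔖.Y}

/-- **L-BRD-1** a group which contributes to the cell `T` lies under the cap of `T`.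
PLAN: `TSys.tcg_supp h (upd S mu (grp S mu G)) mu lam hA.lam_le (U := fun i T => 𝔄.up i (𝔊.cap i T) = 𝔄.up mu G)`; closed upwards by `hA.up_edge` (`bot ≤ mu ≤ i`); the mask of height `mu` is `grp S mu G` (`tcg_upd_self`, `Finset.mem_filter`); at `lam`: `hA.up_lam`. -/
theorem tbw_aG_cap (h : 𝔖.Ok p) (hA : 𝔄.Ok p a) (S : ∀ i, Finset (𝔖.C i)) (mu : ℕ) (hmu : 𝔄.bot ≤ mu) (hml : mu < 𝔄.lam) (G : 𝔊.Cap mu) (T : 𝔖.C 𝔄.lam)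
    (hT : 𝔄.aG S mu G T ≠ 0) : 𝔄.up mu G = 𝔊.cap 𝔄.lam T := by
  have h1 := TSys.tcg_supp h (𝔖.upd S mu (𝔊.grp S mu G)) mu 𝔄.lam hA.lam_le (fun i T => 𝔄.up i (𝔊.cap i T) = 𝔄.up mu G)
    (fun i h1 h2 T' T hT' he => by rw [← hA.up_edge i (hmu.trans h1) h2 T' T he]; exact hT')
    (fun T hT => by
      rw [TSys.tcg_upd_self] at hT
      rw [(Finset.mem_filter.1 hT).2]) 𝔄.lam hml le_rfl T hT
  rw [hA.up_lam] at h1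
  exact h1.symm

/-- **L-BRD-2** the marked part carries three quarters of the amplitude of an active cell.
PLAN: `B = Bx T`, `𝒢 = marked … B`, `𝒰 = grps S mu \ 𝒢`.  `S mu = grpU S mu 𝒢 ∪ 𝒰.biUnion (grp S mu)` (disjoint), `upd S mu (S mu) = S` (`tcg_upd_eq`).
`tcg_am_split2` + `tcg_am_split_le` (the groups are pairwise disjoint):  `am S lam T ≤ am (upd S mu (grpU S mu 𝒢)) lam T + ∑_{G ∈ 𝒰} aG G T`.
In the sum only `G` with `aG G T ≠ 0` count: they have `up mu G = cap lam T` (`tbw_aG_cap`), so there are `≤ nG` of them (`hnG`); each is `< thr r_lam b_T` (`G ∈ grps`, not marked, `T ∈ S lam`, `Bx T = B`).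
So the sum is `≤ nG thr r_lam b_T ≤ r_lam b_T / 4 ≤ am S lam T / 4` (`hF.ratio`). -/
theorem tbw_three_quarters (h : 𝔖.Ok p) (hA : 𝔄.Ok p a) (hF : 𝔖.Frozen p.q A K G S r Yf) (mu : ℕ) (hmu : 𝔄.bot ≤ mu) (hml : mu < 𝔄.lam)
    (nG thr : ℝ) (hthr : 0 < thr) (hnt : 4 * nG * thr ≤ 1)
    (hnG : ∀ τ (𝒢 : Finset (𝔊.Cap mu)), (∀ G ∈ 𝒢, 𝔄.up mu G = τ) → (𝒢.card : ℝ) ≤ nG) (T : 𝔖.C 𝔄.lam) (hT : T ∈ S 𝔄.lam) :
    𝔖.am S 𝔄.lam T ≤ 4 / 3 * 𝔖.am (𝔖.upd S mu (𝔊.grpU S mu (𝔄.marked S r mu thr (𝔄.Bx T)))) 𝔄.lam T := by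
  obtain ⟨𝒢, h𝒢⟩ : ∃ 𝒢, 𝒢 = 𝔄.marked S r mu thr (𝔄.Bx T) := ⟨_, rfl⟩
  rw [← h𝒢]
  obtain ⟨𝒰, h𝒰⟩ : ∃ 𝒰, 𝒰 = 𝔊.grps S mu \ 𝒢 := ⟨_, rfl⟩
  have e1 : S mu = 𝔊.grpU S mu 𝒢 ∪ 𝒰.biUnion (𝔊.grp S mu) := by
    ext T'
    simp only [TGeo.grpU, TGeo.grp, Finset.mem_union, Finset.mem_filter, Finset.mem_biUnion]
    constructor
    · intro hT'
      by_cases hc : 𝔊.cap mu T' ∈ 𝒢
      · exact Or.inl ⟨hT', hc⟩
      · refine Or.inr ⟨𝔊.cap mu T', ?_, hT', rfl⟩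
        rw [h𝒰, Finset.mem_sdiff]
        exact ⟨Finset.mem_image_of_mem _ hT', hc⟩
    · rintro (⟨h1, -⟩ | ⟨_, -, h1, -⟩)
      · exact h1
      · exact h1
  have hdis : Disjoint (𝔊.grpU S mu 𝒢) (𝒰.biUnion (𝔊.grp S mu)) := by
    rw [Finset.disjoint_left]
    intro T' h1 h2
    simp only [TGeo.grpU, TGeo.grp, Finset.mem_filter, Finset.mem_biUnion] at h1 h2
    obtain ⟨G', hG', -, hc⟩ := h2
    rw [h𝒰, Finset.mem_sdiff] at hG'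
    rw [hc] at h1
    exact hG'.2 h1.2
  have hpd : (𝒰 : Set (𝔊.Cap mu)).PairwiseDisjoint (𝔊.grp S mu) := by
    intro G₁ _ G₂ _ hne
    rw [Function.onFun, Finset.disjoint_left]
    intro T' h1 h2
    simp only [TGeo.grp, Finset.mem_filter] at h1 h2
    exact hne (h1.2.symm.trans h2.2)
  have s1 : 𝔖.am S 𝔄.lam T ≤ 𝔖.am (𝔖.upd S mu (𝔊.grpU S mu 𝒢)) 𝔄.lam T + ∑ G' ∈ 𝒰, 𝔄.aG S mu G' T := by
    have a1 := TSys.tcg_am_split2 h S mu _ _ hdis 𝔄.lam hml hA.lam_le T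
    rw [← e1, TSys.tcg_upd_eq] at a1
    have a2 := TSys.tcg_am_split_le h S mu 𝒰 (𝔊.grp S mu) hpd 𝔄.lam hml hA.lam_le T
    exact a1.trans (add_le_add le_rfl a2)
  obtain ⟨hb, hlo, -⟩ := hF.ratio 𝔄.lam hA.lam_le T hT
  have hr0 := hF.r_pos 𝔄.lam
  obtain ⟨c, hc⟩ : ∃ c, c = thr * r 𝔄.lam * 𝔖.b 𝔄.lam T := ⟨_, rfl⟩
  have hc0 : 0 < c := by
    rw [hc]
    exact mul_pos (mul_pos hthr hr0) hb
  have hsmall : ∀ G' ∈ 𝒰, 𝔄.aG S mu G' T ≤ c := by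
    intro G' hG'
    rw [h𝒰, Finset.mem_sdiff] at hG'
    by_contra hcon
    apply hG'.2
    rw [h𝒢]
    unfold marked
    rw [Finset.mem_filter]
    exact ⟨hG'.1, T, hT, rfl, by rw [← hc]; exact (not_le.1 hcon).le⟩
  have s2 : ∑ G' ∈ 𝒰, 𝔄.aG S mu G' T ≤ nG * c := by
    rw [← Finset.sum_filter_ne_zero]
    have hcard : ((𝒰.filter fun G' => 𝔄.aG S mu G' T ≠ 0).card : ℝ) ≤ nG :=
      hnG (𝔊.cap 𝔄.lam T) _ fun G' hG' => tbw_aG_cap h hA S mu hmu hml G' T (Finset.mem_filter.1 hG').2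
    calc ∑ G' ∈ 𝒰.filter (fun G' => 𝔄.aG S mu G' T ≠ 0), 𝔄.aG S mu G' T
        ≤ ∑ _G' ∈ 𝒰.filter (fun G' => 𝔄.aG S mu G' T ≠ 0), c :=
          Finset.sum_le_sum fun G' hG' => hsmall G' (Finset.mem_filter.1 hG').1
      _ = ((𝒰.filter fun G' => 𝔄.aG S mu G' T ≠ 0).card : ℝ) * c := by rw [Finset.sum_const, nsmul_eq_mul]
      _ ≤ nG * c := mul_le_mul_of_nonneg_right hcard hc0.le
  have s3 : nG * c ≤ 𝔖.am S 𝔄.lam T / 4 := by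
    have h1 : 0 < r 𝔄.lam * 𝔖.b 𝔄.lam T := mul_pos hr0 hb
    have h2 : 4 * nG * thr * (r 𝔄.lam * 𝔖.b 𝔄.lam T) ≤ 1 * (r 𝔄.lam * 𝔖.b 𝔄.lam T) := mul_le_mul_of_nonneg_right hnt h1.le
    rw [hc]
    linarith
  linarith

/-- **L-BRD-3** the marked groups of a macro box lie under one `lam`-cap.
PLAN: `G` marked through `T₁ ∈ S lam`: `0 < thr r_lam b(T₁) ≤ aG G T₁` (`hF.ratio`, `hF.r_pos`), so `up mu G = cap lam T₁` (`tbw_aG_cap`) `= cap lam T` (`hA.Bx_cap`). -/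
theorem tbw_marked_cap (h : 𝔖.Ok p) (hA : 𝔄.Ok p a) (hF : 𝔖.Frozen p.q A K G S r Yf) (mu : ℕ) (hmu : 𝔄.bot ≤ mu) (hml : mu < 𝔄.lam)
    (thr : ℝ) (hthr : 0 < thr) (T : 𝔖.C 𝔄.lam) : ∀ G ∈ 𝔄.marked S r mu thr (𝔄.Bx T), 𝔄.up mu G = 𝔊.cap 𝔄.lam T := by
  intro G hG
  obtain ⟨T₁, hT₁, hB, hle⟩ := (Finset.mem_filter.1 hG).2
  obtain ⟨hb, -, -⟩ := hF.ratio 𝔄.lam hA.lam_le T₁ hT₁
  have hpos : 0 < thr * r 𝔄.lam * 𝔖.b 𝔄.lam T₁ := mul_pos (mul_pos hthr (hF.r_pos _)) hb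
  rw [tbw_aG_cap h hA S mu hmu hml G T₁ (lt_of_lt_of_le hpos hle).ne']
  exact hA.Bx_cap T₁ T hB

theorem tbw_budW_nonneg (h : 𝔖.Ok p) (hA : 𝔄.Ok p a) (pp : ℝ) (i : ℕ) (M : Finset (𝔖.C i)) (S' : ∀ i, Finset (𝔖.C i)) (B : 𝔄.BB) :
    0 ≤ 𝔖.budW pp i M (𝔖.am S' i) (𝔖.b i) (𝔄.Psi B i) :=
  Finset.sum_nonneg fun T _ => mul_nonneg (mul_nonneg (mul_nonneg (h.vol_pos i).le (Real.rpow_nonneg (TSys.tpf_am_nonneg h S' i T) _))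
    (Real.rpow_nonneg (h.b_nonneg i T) _)) (hA.Psi_pos B i T).le

/-- **L-BRD-4** the `q'`-charge of the non-broad cells of ONE macro box.
PLAN: if no `T ∈ nbcell` has `Bx T = B` the left side is `0` (right side `≥ 0`).  Else fix such a `T₀`: `¬ Br (marked B)`, so `hdich (cap lam T₀) (marked B) (tbw_marked_cap …)` gives a strip `σ`, `lev σ = mu`, with `grpU S mu (marked B)` under `σ`.
`M = upd S mu (grpU S mu (marked B))`: `M lam = S lam` (`tcg_upd_ne`), `M mu = grpU …` (`tcg_upd_self`), `am M mu = am S mu` (`tcg_am_upd`).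
For `T` in the filter: `(am S lam T)^{q'} ≤ (4/3)^{q'} (am M lam T)^{q'}` (`tbw_three_quarters`, `Real.rpow_le_rpow`, `Real.mul_rpow`), `1 ≤ Psi B lam T` (`hA.Psi_ge`).
So LHS `≤ (4/3)^{q'} budW q' lam (S lam) (am M lam) b (Psi B lam) ≤ (4/3)^{q'} L'^{lam-mu} budW q' mu (grpU …) (am S mu) b (Psi B mu)` (`tcg_plate`), and `grpU … ⊆ S mu`, terms `≥ 0`. -/
theorem tbw_charge_box (h : 𝔖.Ok p) (hA : 𝔄.Ok p a) (hF : 𝔖.Frozen p.q A K G S r Yf) (mu : ℕ) (hmu : 𝔄.bot ≤ mu) (hml : mu < 𝔄.lam)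
    (Br : Finset (𝔊.Cap mu) → Prop) (nG thr : ℝ) (hthr : 0 < thr) (hnt : 4 * nG * thr ≤ 1)
    (hnG : ∀ τ (𝒢 : Finset (𝔊.Cap mu)), (∀ G ∈ 𝒢, 𝔄.up mu G = τ) → (𝒢.card : ℝ) ≤ nG)
    (hdich : ∀ τ (𝒢 : Finset (𝔊.Cap mu)), (∀ G ∈ 𝒢, 𝔄.up mu G = τ) → Br 𝒢 ∨ ∃ σ, 𝔄.lev σ = mu ∧ ∀ T, 𝔊.cap mu T ∈ 𝒢 → 𝔄.under mu σ T) (B : 𝔄.BB) :
    ∑ T ∈ (𝔄.nbcell S r mu thr Br).filter (fun T => 𝔄.Bx T = B), 𝔖.vol 𝔄.lam * 𝔖.am S 𝔄.lam T ^ a.q' * 𝔖.b 𝔄.lam T ^ (2 - a.q') ≤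
      (4 / 3) ^ a.q' * a.L' ^ (𝔄.lam - mu) * 𝔖.budW a.q' mu (S mu) (𝔖.am S mu) (𝔖.b mu) (𝔄.Psi B mu) := by
  have hq' : 0 < a.q' := by have := h.q_gt; have := hA.q_lt; linarith
  have hL : 0 ≤ a.L' := zero_le_one.trans hA.one_le_L'
  have hc0 : (0 : ℝ) ≤ (4 / 3) ^ a.q' := Real.rpow_nonneg (by norm_num) _
  by_cases hex : ∃ T₀ ∈ 𝔄.nbcell S r mu thr Br, 𝔄.Bx T₀ = B
  swap
  · rw [Finset.sum_eq_zero]
    · exact mul_nonneg (mul_nonneg hc0 (pow_nonneg hL _)) (tbw_budW_nonneg h hA _ _ _ _ _)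
    · intro T hT
      exact absurd ⟨T, (Finset.mem_filter.1 hT).1, (Finset.mem_filter.1 hT).2⟩ hex
  obtain ⟨T₀, hT₀, rfl⟩ := hex
  have hnb : ¬ Br (𝔄.marked S r mu thr (𝔄.Bx T₀)) := (Finset.mem_filter.1 hT₀).2
  obtain ⟨σ, hσ, hund⟩ := (hdich (𝔊.cap 𝔄.lam T₀) _ (tbw_marked_cap h hA hF mu hmu hml thr hthr T₀)).resolve_left hnb
  set 𝒢 := 𝔄.marked S r mu thr (𝔄.Bx T₀) with h𝒢
  set M := 𝔖.upd S mu (𝔊.grpU S mu 𝒢) with hM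
  have hMlam : M 𝔄.lam = S 𝔄.lam := TSys.tcg_upd_ne S (by omega) _
  have hMmu : M mu = 𝔊.grpU S mu 𝒢 := TSys.tcg_upd_self S mu _
  have hamu : 𝔖.am M mu = 𝔖.am S mu := TSys.tcg_am_upd S le_rfl _
  have hpl := tcg_plate h hA M σ mu hσ (𝔄.Bx T₀) (fun T hT => by
    rw [hMmu] at hT
    exact hund T (Finset.mem_filter.1 hT).2)
  rw [hMlam, hMmu, hamu] at hpl
  have h1 : ∑ T ∈ (𝔄.nbcell S r mu thr Br).filter (fun T => 𝔄.Bx T = 𝔄.Bx T₀), 𝔖.vol 𝔄.lam * 𝔖.am S 𝔄.lam T ^ a.q' * 𝔖.b 𝔄.lam T ^ (2 - a.q') ≤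
      (4 / 3) ^ a.q' * 𝔖.budW a.q' 𝔄.lam (S 𝔄.lam) (𝔖.am M 𝔄.lam) (𝔖.b 𝔄.lam) (𝔄.Psi (𝔄.Bx T₀) 𝔄.lam) := by
    unfold TSys.budW
    rw [Finset.mul_sum]
    refine le_trans (Finset.sum_le_sum fun T hT => ?_) (Finset.sum_le_sum_of_subset_of_nonneg
      (fun T hT => (Finset.mem_filter.1 (Finset.mem_filter.1 hT).1).1) fun T _ _ => ?_)
    · have hTS : T ∈ S 𝔄.lam := (Finset.mem_filter.1 (Finset.mem_filter.1 hT).1).1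
      have hTB : 𝔄.Bx T = 𝔄.Bx T₀ := (Finset.mem_filter.1 hT).2
      have h34 := tbw_three_quarters h hA hF mu hmu hml nG thr hthr hnt hnG T hTS
      rw [hTB] at h34
      have hP : 1 ≤ 𝔄.Psi (𝔄.Bx T₀) 𝔄.lam T := by rw [← hTB]; exact hA.Psi_ge T
      have ha0 := TSys.tpf_am_nonneg h S 𝔄.lam T
      have hM0 := TSys.tpf_am_nonneg h M 𝔄.lam T
      have h2 : 𝔖.am S 𝔄.lam T ^ a.q' ≤ (4 / 3) ^ a.q' * 𝔖.am M 𝔄.lam T ^ a.q' := by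
        rw [← Real.mul_rpow (by norm_num) hM0]
        exact Real.rpow_le_rpow ha0 h34 hq'.le
      have hb0 : 0 ≤ 𝔖.b 𝔄.lam T ^ (2 - a.q') := Real.rpow_nonneg (h.b_nonneg _ T) _
      have hv := (h.vol_pos 𝔄.lam).le
      have hX : 0 ≤ 𝔖.vol 𝔄.lam * ((4 / 3) ^ a.q' * 𝔖.am M 𝔄.lam T ^ a.q') * 𝔖.b 𝔄.lam T ^ (2 - a.q') :=
        mul_nonneg (mul_nonneg hv (mul_nonneg hc0 (Real.rpow_nonneg hM0 _))) hb0
      calc 𝔖.vol 𝔄.lam * 𝔖.am S 𝔄.lam T ^ a.q' * 𝔖.b 𝔄.lam T ^ (2 - a.q')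
          ≤ 𝔖.vol 𝔄.lam * ((4 / 3) ^ a.q' * 𝔖.am M 𝔄.lam T ^ a.q') * 𝔖.b 𝔄.lam T ^ (2 - a.q') :=
            mul_le_mul_of_nonneg_right (mul_le_mul_of_nonneg_left h2 hv) hb0
        _ ≤ 𝔖.vol 𝔄.lam * ((4 / 3) ^ a.q' * 𝔖.am M 𝔄.lam T ^ a.q') * 𝔖.b 𝔄.lam T ^ (2 - a.q') * 𝔄.Psi (𝔄.Bx T₀) 𝔄.lam T :=
            le_mul_of_one_le_right hX hP
        _ = _ := by ring
    · exact mul_nonneg hc0 (mul_nonneg (mul_nonneg (mul_nonneg (h.vol_pos _).le (Real.rpow_nonneg (TSys.tpf_am_nonneg h M _ T) _))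
        (Real.rpow_nonneg (h.b_nonneg _ T) _)) (hA.Psi_pos _ _ T).le)
  have h3 : 𝔖.budW a.q' mu (𝔊.grpU S mu 𝒢) (𝔖.am S mu) (𝔖.b mu) (𝔄.Psi (𝔄.Bx T₀) mu) ≤
      𝔖.budW a.q' mu (S mu) (𝔖.am S mu) (𝔖.b mu) (𝔄.Psi (𝔄.Bx T₀) mu) := by
    unfold TSys.budW
    exact Finset.sum_le_sum_of_subset_of_nonneg (Finset.filter_subset _ _) fun T _ _ =>
      mul_nonneg (mul_nonneg (mul_nonneg (h.vol_pos _).le (Real.rpow_nonneg (TSys.tpf_am_nonneg h S _ T) _))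
        (Real.rpow_nonneg (h.b_nonneg _ T) _)) (hA.Psi_pos _ _ T).le
  calc _ ≤ (4 / 3) ^ a.q' * 𝔖.budW a.q' 𝔄.lam (S 𝔄.lam) (𝔖.am M 𝔄.lam) (𝔖.b 𝔄.lam) (𝔄.Psi (𝔄.Bx T₀) 𝔄.lam) := h1
    _ ≤ (4 / 3) ^ a.q' * (a.L' ^ (𝔄.lam - mu) * 𝔖.budW a.q' mu (S mu) (𝔖.am S mu) (𝔖.b mu) (𝔄.Psi (𝔄.Bx T₀) mu)) :=
        mul_le_mul_of_nonneg_left (hpl.trans (mul_le_mul_of_nonneg_left h3 (pow_nonneg hL _))) hc0
    _ = _ := by ring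

/-- **L-BRD-5** the `q'`-charge of all the non-broad cells.
PLAN: `∑_{T ∈ N} f T = ∑_B ∑_{T ∈ N.filter (Bx T = B)} f T` (`Finset.sum_fiberwise`), `tbw_charge_box`, `∑_B budW … (Psi B mu) = budW … (fun T => ∑_B Psi B mu T)` (`Finset.sum_comm`, `Finset.mul_sum`),
`TSys.tcg_fine h hF mu _ hA.q_lt.le _ (c := CPsi)` with `hA.Psi_sum mu hmu hml.le`; `0 ≤ CPsi`: given. -/
theorem tbw_charge (h : 𝔖.Ok p) (hA : 𝔄.Ok p a) (hF : 𝔖.Frozen p.q A K G S r Yf) (hC : 0 ≤ a.CPsi) (mu : ℕ) (hmu : 𝔄.bot ≤ mu) (hml : mu < 𝔄.lam)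
    (Br : Finset (𝔊.Cap mu) → Prop) (nG thr : ℝ) (hthr : 0 < thr) (hnt : 4 * nG * thr ≤ 1)
    (hnG : ∀ τ (𝒢 : Finset (𝔊.Cap mu)), (∀ G ∈ 𝒢, 𝔄.up mu G = τ) → (𝒢.card : ℝ) ≤ nG)
    (hdich : ∀ τ (𝒢 : Finset (𝔊.Cap mu)), (∀ G ∈ 𝒢, 𝔄.up mu G = τ) → Br 𝒢 ∨ ∃ σ, 𝔄.lev σ = mu ∧ ∀ T, 𝔊.cap mu T ∈ 𝒢 → 𝔄.under mu σ T) :
    ∑ T ∈ 𝔄.nbcell S r mu thr Br, 𝔖.vol 𝔄.lam * 𝔖.am S 𝔄.lam T ^ a.q' * 𝔖.b 𝔄.lam T ^ (2 - a.q') ≤ 𝔄.bndQ' p a K r mu := by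
  have hL : 0 ≤ a.L' := zero_le_one.trans hA.one_le_L'
  have hc0 : (0 : ℝ) ≤ (4 / 3) ^ a.q' := Real.rpow_nonneg (by norm_num) _
  rw [← Finset.sum_fiberwise (𝔄.nbcell S r mu thr Br) 𝔄.Bx]
  refine (Finset.sum_le_sum fun B _ => tbw_charge_box h hA hF mu hmu hml Br nG thr hthr hnt hnG hdich B).trans ?_
  rw [← Finset.mul_sum]
  unfold TAng.bndQ'
  refine mul_le_mul_of_nonneg_left ?_ (mul_nonneg hc0 (pow_nonneg hL _))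
  have e : ∑ B, 𝔖.budW a.q' mu (S mu) (𝔖.am S mu) (𝔖.b mu) (𝔄.Psi B mu) =
      𝔖.budW a.q' mu (S mu) (𝔖.am S mu) (𝔖.b mu) (fun T => ∑ B, 𝔄.Psi B mu T) := by
    unfold TSys.budW
    rw [Finset.sum_comm]
    refine Finset.sum_congr rfl fun T _ => ?_
    rw [Finset.mul_sum]
  rw [e]
  exact TSys.tcg_fine h hF mu (hml.le.trans hA.lam_le) hA.q_lt.le _ hC (hA.Psi_sum mu hmu hml.le)

/-- **L-BRD-6** the `q`-budget of the non-broad cells.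
PLAN: `tpf_bud_res`, `TSys.tcg_holder lam N (am S lam) (b lam)` (`0 < q`, `q < q'`, `am ≥ 0`, `b > 0` on `N ⊆ S lam` by `hF.ratio`), then `Real.rpow_le_rpow` with `tbw_charge` and `TSys.tcg_coarse`, `mul_le_mul`. -/
theorem tbw_budget (h : 𝔖.Ok p) (hA : 𝔄.Ok p a) (hF : 𝔖.Frozen p.q A K G S r Yf) (hC : 0 ≤ a.CPsi) (mu : ℕ) (hmu : 𝔄.bot ≤ mu) (hml : mu < 𝔄.lam)
    (Br : Finset (𝔊.Cap mu) → Prop) (nG thr : ℝ) (hthr : 0 < thr) (hnt : 4 * nG * thr ≤ 1)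
    (hnG : ∀ τ (𝒢 : Finset (𝔊.Cap mu)), (∀ G ∈ 𝒢, 𝔄.up mu G = τ) → (𝒢.card : ℝ) ≤ nG)
    (hdich : ∀ τ (𝒢 : Finset (𝔊.Cap mu)), (∀ G ∈ 𝒢, 𝔄.up mu G = τ) → Br 𝒢 ∨ ∃ σ, 𝔄.lev σ = mu ∧ ∀ T, 𝔊.cap mu T ∈ 𝒢 → 𝔄.under mu σ T) :
    𝔖.bud p.q 𝔄.lam (𝔖.resA (𝔄.nbcell S r mu thr Br) (𝔖.am S 𝔄.lam)) (𝔖.b 𝔄.lam) ≤ 𝔄.bndQ p a K r mu := by
  have hq : 0 < p.q := by have := h.q_gt; linarith
  have hq' : 0 < a.q' := hq.trans hA.q_lt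
  have hsub : 𝔄.nbcell S r mu thr Br ⊆ S 𝔄.lam := Finset.filter_subset _ _
  rw [TSys.tpf_bud_res h.q_gt]
  refine (TSys.tcg_holder 𝔄.lam (𝔄.nbcell S r mu thr Br) (𝔖.am S 𝔄.lam) (𝔖.b 𝔄.lam) hq hA.q_lt (h.vol_pos _)
    (fun T _ => TSys.tpf_am_nonneg h S _ T) (fun T hT => (hF.ratio 𝔄.lam hA.lam_le T (hsub hT)).1)).trans ?_
  unfold TAng.bndQ
  have h1 := tbw_charge h hA hF hC mu hmu hml Br nG thr hthr hnt hnG hdich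
  have h2 := TSys.tcg_coarse h hF 𝔄.lam hA.lam_le _ hsub
  have n1 : 0 ≤ ∑ T ∈ 𝔄.nbcell S r mu thr Br, 𝔖.vol 𝔄.lam * 𝔖.am S 𝔄.lam T ^ a.q' * 𝔖.b 𝔄.lam T ^ (2 - a.q') :=
    Finset.sum_nonneg fun T _ => mul_nonneg (mul_nonneg (h.vol_pos _).le (Real.rpow_nonneg (TSys.tpf_am_nonneg h S _ T) _)) (Real.rpow_nonneg (h.b_nonneg _ T) _)
  have n2 : 0 ≤ ∑ T ∈ 𝔄.nbcell S r mu thr Br, 𝔖.vol 𝔄.lam * 𝔖.b 𝔄.lam T ^ 2 :=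
    Finset.sum_nonneg fun T _ => mul_nonneg (h.vol_pos _).le (sq_nonneg _)
  have t0 : 0 ≤ p.q / a.q' := (div_pos hq hq').le
  have t1 : 0 ≤ 1 - p.q / a.q' := by
    have := (div_lt_one hq').2 hA.q_lt
    linarith
  exact mul_le_mul (Real.rpow_le_rpow n1 h1 t0) (Real.rpow_le_rpow n2 h2 t1) (Real.rpow_nonneg n2 _) (Real.rpow_nonneg (n1.trans h1) _)

end TAng

namespace TSys

variable {𝔖 : TSys} {p : TPar} {A K G : ℝ} {S : ∀ i, Finset (𝔖.C i)} {r : ℕ → ℝ} {Yf : Finset 𝔖.Y}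

theorem tbw_res_add {i : ℕ} (M : Finset (𝔖.C i)) (g g' : 𝔖.C i → 𝔖.F) : 𝔖.res M (g + g') = 𝔖.res M g + 𝔖.res M g' := by
  funext T
  unfold TSys.res
  by_cases hT : T ∈ M
  · simp [hT]
  · simp [hT]

/-- **L-BRD-7** splitting of the selected field of height `lam + d` when the mask of height `lam` is split into `S lam \ N` and `N ⊆ S lam`.
PLAN: `d = 0`: `prop … 0 = res N (fld S lam)`, `upd … lam = S lam \ N` (`tcg_upd_self`), `fld (upd …) lam = fld S lam` (`tcg_fld_upd`); pointwise in `T` by cases `T ∈ N`, `T ∈ S lam`.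
`d + 1`: `tcg_prop_fld`, `tcg_fld_split2 h S lam (S lam \ N) N` (`Finset.sdiff_union_of_subset`, `tcg_upd_eq`), `tcg_upd_ne`, `res` additive (funext, `split_ifs`). -/
theorem tbw_split (h : 𝔖.Ok p) (S : ∀ i, Finset (𝔖.C i)) (lam : ℕ) (N : Finset (𝔖.C lam)) (hN : N ⊆ S lam) (d : ℕ) :
    𝔖.res (S (lam + d)) (𝔖.fld S (lam + d)) =
      𝔖.res (𝔖.upd S lam (S lam \ N) (lam + d)) (𝔖.fld (𝔖.upd S lam (S lam \ N)) (lam + d)) +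
        𝔖.res (S (lam + d)) (𝔖.prop S lam (𝔖.res N (𝔖.fld S lam)) d) := by
  cases d with
  | zero =>
    show 𝔖.res (S lam) (𝔖.fld S lam) = 𝔖.res (𝔖.upd S lam (S lam \ N) lam) (𝔖.fld (𝔖.upd S lam (S lam \ N)) lam) +
      𝔖.res (S lam) (𝔖.res N (𝔖.fld S lam))
    rw [tcg_upd_self, tcg_fld_upd S le_rfl]
    funext T
    simp only [TSys.res, Pi.add_apply, Finset.mem_sdiff]
    by_cases h1 : T ∈ N
    · have h2 := hN h1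
      simp [h1, h2]
    · by_cases h2 : T ∈ S lam
      · simp [h1, h2]
      · simp [h1, h2]
  | succ d =>
    rw [tcg_prop_fld, tcg_upd_ne S (by omega), ← tbw_res_add]
    congr 1
    have h1 := tcg_fld_split2 h S lam (S lam \ N) N Finset.sdiff_disjoint (lam + (d + 1)) (by omega)
    rw [Finset.sdiff_union_of_subset hN, tcg_upd_eq] at h1
    exact h1

theorem tbw_Ev_add (h : 𝔖.Ok p) (i : ℕ) (g g' : 𝔖.C i → 𝔖.F) (z : 𝔖.Y) : 𝔖.Ev i (g + g') z = 𝔖.Ev i g z + 𝔖.Ev i g' z := by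
  unfold TSys.Ev
  rw [← Finset.sum_add_distrib]
  exact Finset.sum_congr rfl fun T _ => h.ev_add i T _ _ z

/-- **L-BRD-8, deletion of a part of ONE mask with a small budget** (general; also for ANG).   `N ⊆ S lam` with `q`-budget `≤ β`: the tree `upd S lam (S lam \ N)` keeps the root field `≥ A/(2K)` on at least half of `Yf`.
PLAN: `d = ℓ - lam`, `hid : lam + d = ℓ`; `g = res N (fld S lam)`, `α = resA N (am S lam)`: `Adm` by `tpf_adm_res h (tpf_adm h S lam hl) N`; `α T ≤ 2 r_lam b_T` (`hF.ratio`, else `0 ≤`).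
`ts_discard p h S lam d hid g α _ (2 r_lam) θ` with `θ = A/(2K)`:  the set `Bad` of the `z` with `θ ≤ ‖Ev (lam+d) (res (S (lam+d)) (prop S lam g d)) z‖` has `#Bad ≤ … β ≤ #Yf / 2`.   `Yf' = Yf \ Bad`.
For `z ∈ Yf'`: rewrite the goal with `← hid` (the goal is a function of the height), `tbw_split` + `ev_add` (`Ev` additive): `A/K ≤ ‖Ev S‖ ≤ ‖Ev S'‖ + θ` (`hF.high ℓ`, also rewritten with `← hid`). -/
theorem tbw_delete (h : 𝔖.Ok p) (hF : 𝔖.Frozen p.q A K G S r Yf) (hY : Yf.Nonempty) (hA0 : 0 < A) (lam : ℕ) (hl : lam ≤ 𝔖.ℓ) (N : Finset (𝔖.C lam)) (hN : N ⊆ S lam)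
    (β : ℝ) (hβ : 𝔖.bud p.q lam (𝔖.resA N (𝔖.am S lam)) (𝔖.b lam) ≤ β)
    (hR : (2 * r lam) ^ 2 * 𝔖.GamProd p lam * p.Γr 𝔖.ℓ * p.ϖ0 ≤ (p.Rm * (A / (2 * K))) ^ 2)
    (hgain : 2 * (p.L0 * p.L ^ (𝔖.ℓ - lam) * p.ϖ0 ^ (p.q / 2 - 1) * (A / (2 * K)) ^ (-p.q) * β) ≤ Yf.card) :
    ∃ Yf' ⊆ Yf, (Yf.card : ℝ) ≤ 2 * Yf'.card ∧
      ∀ z ∈ Yf', A ≤ 2 * K * ‖𝔖.Ev 𝔖.ℓ (𝔖.res (𝔖.upd S lam (S lam \ N) 𝔖.ℓ) (𝔖.fld (𝔖.upd S lam (S lam \ N)) 𝔖.ℓ)) z‖ := by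
  have hK : 0 < K := tpf_K_pos hF hY
  have hθ0 : 0 < A / (2 * K) := by positivity
  obtain ⟨d, hid⟩ : ∃ d, lam + d = 𝔖.ℓ := ⟨𝔖.ℓ - lam, by omega⟩
  have hd : 𝔖.ℓ - lam = d := by omega
  have hg : 𝔖.Adm lam (𝔖.res N (𝔖.fld S lam)) (𝔖.resA N (𝔖.am S lam)) := tpf_adm_res h (tpf_adm h S lam hl) N
  have hρ : ∀ T, 𝔖.resA N (𝔖.am S lam) T ≤ 2 * r lam * 𝔖.b lam T := by
    intro T
    unfold TSys.resA
    by_cases hT : T ∈ N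
    · rw [if_pos hT]; exact (hF.ratio lam hl T (hN hT)).2.2
    · rw [if_neg hT]; exact mul_nonneg (mul_nonneg zero_le_two (hF.r_pos lam).le) (h.b_nonneg lam T)
  have hdis := 𝔖.ts_discard p h S lam d hid _ _ hg (2 * r lam) (A / (2 * K)) hθ0 hρ hR
  set Bad := Finset.univ.filter fun z => A / (2 * K) ≤ ‖𝔖.Ev (lam + d) (𝔖.res (S (lam + d)) (𝔖.prop S lam (𝔖.res N (𝔖.fld S lam)) d)) z‖ with hBaddef
  have hpref : 0 ≤ p.L0 * p.L ^ d * p.ϖ0 ^ (p.q / 2 - 1) * (A / (2 * K)) ^ (-p.q) :=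
    mul_nonneg (mul_nonneg (mul_nonneg (zero_le_one.trans h.one_le_L0) (pow_nonneg (zero_le_one.trans h.one_le_L) _))
      (Real.rpow_nonneg (zero_le_one.trans h.one_le_ϖ0) _)) (Real.rpow_nonneg hθ0.le _)
  have hBad : 2 * (Bad.card : ℝ) ≤ Yf.card := by
    rw [hd] at hgain
    have := hdis.trans (mul_le_mul_of_nonneg_left hβ hpref)
    linarith
  refine ⟨Yf \ Bad, Finset.sdiff_subset, ?_, ?_⟩
  · have h1 : Yf.card ≤ (Yf \ Bad).card + Bad.card := Finset.card_le_card_sdiff_add_card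
    have h2 : (Yf.card : ℝ) ≤ (Yf \ Bad).card + Bad.card := by exact_mod_cast h1
    linarith
  · intro z hz
    have hzY := (Finset.mem_sdiff.1 hz).1
    have hzB : ‖𝔖.Ev (lam + d) (𝔖.res (S (lam + d)) (𝔖.prop S lam (𝔖.res N (𝔖.fld S lam)) d)) z‖ < A / (2 * K) := by
      by_contra hcon
      exact (Finset.mem_sdiff.1 hz).2 (Finset.mem_filter.2 ⟨Finset.mem_univ _, not_lt.1 hcon⟩)
    have hhigh := hF.high 𝔖.ℓ le_rfl z hzY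
    rw [← hid] at hhigh ⊢
    rw [tbw_split h S lam N hN d, tbw_Ev_add h] at hhigh
    have h3 := norm_add_le (𝔖.Ev (lam + d) (𝔖.res (𝔖.upd S lam (S lam \ N) (lam + d)) (𝔖.fld (𝔖.upd S lam (S lam \ N)) (lam + d))) z)
      (𝔖.Ev (lam + d) (𝔖.res (S (lam + d)) (𝔖.prop S lam (𝔖.res N (𝔖.fld S lam)) d)) z)
    have h4 : K * (A / (2 * K)) = A / 2 := by field_simp
    have h5 := mul_le_mul_of_nonneg_left h3 hK.le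
    have h6 := mul_lt_mul_of_pos_left hzB hK
    nlinarith

end TSys

namespace TAng

variable {𝔖 : TSys} {𝔊 : TGeo 𝔖} {𝔄 : TAng 𝔖 𝔊} {p : TPar} {a : TAPar} {A K G : ℝ} {S : ∀ i, Finset (𝔖.C i)} {r : ℕ → ℝ} {Yf : Finset 𝔖.Y}

/-- **BROAD, export.** -/
theorem tbw_main (h : 𝔖.Ok p) (hA : 𝔄.Ok p a) (hF : 𝔖.Frozen p.q A K G S r Yf) (hY : Yf.Nonempty) (hA0 : 0 < A) (hC : 0 ≤ a.CPsi)
    (mu : ℕ) (hmu : 𝔄.bot ≤ mu) (hml : mu < 𝔄.lam)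
    (Br : Finset (𝔊.Cap mu) → Prop) (nG thr : ℝ) (hthr : 0 < thr) (hnt : 4 * nG * thr ≤ 1)
    (hnG : ∀ τ (𝒢 : Finset (𝔊.Cap mu)), (∀ G ∈ 𝒢, 𝔄.up mu G = τ) → (𝒢.card : ℝ) ≤ nG)
    (hdich : ∀ τ (𝒢 : Finset (𝔊.Cap mu)), (∀ G ∈ 𝒢, 𝔄.up mu G = τ) → Br 𝒢 ∨ ∃ σ, 𝔄.lev σ = mu ∧ ∀ T, 𝔊.cap mu T ∈ 𝒢 → 𝔄.under mu σ T)
    (hR : (2 * r 𝔄.lam) ^ 2 * 𝔖.GamProd p 𝔄.lam * p.Γr 𝔖.ℓ * p.ϖ0 ≤ (p.Rm * (A / (2 * K))) ^ 2)
    (hgain : 2 * (p.L0 * p.L ^ (𝔖.ℓ - 𝔄.lam) * p.ϖ0 ^ (p.q / 2 - 1) * (A / (2 * K)) ^ (-p.q) * 𝔄.bndQ p a K r mu) ≤ Yf.card) :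
    ∃ Yf' ⊆ Yf, (Yf.card : ℝ) ≤ 2 * Yf'.card ∧
      ∀ z ∈ Yf', A ≤ 2 * K * ‖𝔖.Ev 𝔖.ℓ (𝔖.res (𝔖.upd S 𝔄.lam (𝔄.bcell S r mu thr Br) 𝔖.ℓ) (𝔖.fld (𝔖.upd S 𝔄.lam (𝔄.bcell S r mu thr Br)) 𝔖.ℓ)) z‖ := by
  have e : S 𝔄.lam \ 𝔄.nbcell S r mu thr Br = 𝔄.bcell S r mu thr Br := by
    ext T
    simp only [TAng.nbcell, TAng.bcell, Finset.mem_sdiff, Finset.mem_filter]
    tauto
  have := TSys.tbw_delete h hF hY hA0 𝔄.lam hA.lam_le (𝔄.nbcell S r mu thr Br) (Finset.filter_subset _ _) (𝔄.bndQ p a K r mu)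
    (tbw_budget h hA hF hC mu hmu hml Br nG thr hthr hnt hnG hdich) hR hgain
  rwa [e] at this

end TAng

end

end Claimed.Agent.R257.FR2
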