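import Claimed.Agent.R257.FR2.AngDefs

/-!
# ROW 257, package FR2, file 5: THE CHARGE LEMMAS of `f:angular` (STEP 4 of `FR2/Notes.lean`)      (helper37; shared by ANG and BROAD)

Paper-free.   PROVED, no sorry.   Paper: H `frame.tex` l.1053-1104.   Everything is a consequence of `TSys.Ok`, `TAng.Ok`, `Frozen`.
## 1. trees with one modified mask
* `tcg_upd_self`, `tcg_upd_ne`, `tcg_upd_eq`, `tcg_fld_congr`, `tcg_am_congr`, `tcg_fld_upd`, `tcg_am_upd`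
* `tcg_fld_split`, `tcg_am_split_le`, `tcg_am_split2`   the field is additive, the amplitude subadditive in the mask of ONE height
* `tcg_prop_fld`    `prop S i (res N (fld S i)) (d+1) = fld (upd S i N) (i+(d+1))`   (bridge to `ts_discard`)
## 2. support and positivity
* `tcg_edge`, `tcg_b_pos`, `tcg_supp`
## 3. the chain
* `tcg_chain`       a one step hierarchy `Hier1 pp L i (κ i) (U i)`, `mu ≤ i < lam`, iterated through ARBITRARY masks `M` with ARBITRARY dominated weights `bw`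
* `TAng.bw`, `tcg_bw_dom`, `tcg_bud_bw`    conjugation by the macro weights
* `tcg_plate`       (HP) + (PSI) through all the intervening masks;   `tcg_full` the same with (HQ) at `q` (no strip)
## 4. Hoelder and the fine budget
* `tcg_holder`, `tcg_fine`, `tcg_coarse`
-/

set_option autoImplicit false

namespace Claimed.Agent.R257.FR2

open scoped BigOperators Classical

noncomputable section

namespace TSys

variable {𝔖 : TSys} {p : TPar}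

/-! ## 1. trees with one modified mask -/

theorem tcg_upd_self (S : ∀ i, Finset (𝔖.C i)) (i : ℕ) (P : Finset (𝔖.C i)) : 𝔖.upd S i P i = P := by
  unfold TSys.upd
  exact Function.update_self (β := fun i => Finset (𝔖.C i)) i P S

theorem tcg_upd_ne (S : ∀ i, Finset (𝔖.C i)) {i j : ℕ} (h : j ≠ i) (P : Finset (𝔖.C i)) : 𝔖.upd S i P j = S j := by
  unfold TSys.upd
  exact Function.update_of_ne (β := fun i => Finset (𝔖.C i)) h P S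

theorem tcg_upd_eq (S : ∀ i, Finset (𝔖.C i)) (i : ℕ) : 𝔖.upd S i (S i) = S := by
  unfold TSys.upd
  exact Function.update_eq_self (β := fun i => Finset (𝔖.C i)) i S

/-- the field of height `i` depends only on the masks below `i` -/
theorem tcg_fld_congr (S S' : ∀ i, Finset (𝔖.C i)) : ∀ i, (∀ j, j < i → S j = S' j) → 𝔖.fld S i = 𝔖.fld S' i
  | 0, _ => rfl
  | i + 1, h => by
    show 𝔖.asm i (𝔖.res (S i) (𝔖.fld S i)) = 𝔖.asm i (𝔖.res (S' i) (𝔖.fld S' i))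
    rw [h i (Nat.lt_succ_self i), tcg_fld_congr S S' i fun j hj => h j (Nat.lt_succ_of_lt hj)]

theorem tcg_am_congr (S S' : ∀ i, Finset (𝔖.C i)) : ∀ i, (∀ j, j < i → S j = S' j) → 𝔖.am S i = 𝔖.am S' i
  | 0, _ => rfl
  | i + 1, h => by
    show 𝔖.amp i (𝔖.res (S i) (𝔖.fld S i)) = 𝔖.amp i (𝔖.res (S' i) (𝔖.fld S' i))
    rw [h i (Nat.lt_succ_self i), tcg_fld_congr S S' i fun j hj => h j (Nat.lt_succ_of_lt hj)]

theorem tcg_fld_upd (S : ∀ i, Finset (𝔖.C i)) {i j : ℕ} (h : j ≤ i) (P : Finset (𝔖.C i)) : 𝔖.fld (𝔖.upd S i P) j = 𝔖.fld S j :=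
  tcg_fld_congr _ _ j fun m hm => tcg_upd_ne S (by omega) P

theorem tcg_am_upd (S : ∀ i, Finset (𝔖.C i)) {i j : ℕ} (h : j ≤ i) (P : Finset (𝔖.C i)) : 𝔖.am (𝔖.upd S i P) j = 𝔖.am S j :=
  tcg_am_congr _ _ j fun m hm => tcg_upd_ne S (by omega) P

theorem tcg_asm_zero (h : 𝔖.Ok p) (i : ℕ) : 𝔖.asm i 0 = 0 := by
  have := h.asm_add i 0 0
  rw [add_zero] at this
  simpa using this

theorem tcg_asm_sum (h : 𝔖.Ok p) (i : ℕ) {ι : Type*} (s : Finset ι) (g : ι → 𝔖.C i → 𝔖.F) :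
    𝔖.asm i (∑ x ∈ s, g x) = ∑ x ∈ s, 𝔖.asm i (g x) := by
  induction s using Finset.induction_on with
  | empty => simpa using tcg_asm_zero h i
  | insert x s hx ih => rw [Finset.sum_insert hx, Finset.sum_insert hx, h.asm_add, ih]

theorem tcg_amp_zero (h : 𝔖.Ok p) (i : ℕ) (hi : i < 𝔖.ℓ) (T : 𝔖.C (i + 1)) : 𝔖.amp i 0 T = 0 := by
  have h1 := h.cauchy i hi 0 0 (fun T' => h.pk_zero i T') T
  simp only [Pi.zero_apply, ne_eq, OfNat.ofNat_ne_zero, not_false_eq_true, zero_pow, zero_mul, Finset.sum_const_zero, mul_zero] at h1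
  exact pow_eq_zero_iff (two_ne_zero) |>.1 (le_antisymm h1 (sq_nonneg _))

theorem tcg_amp_sum_le (h : 𝔖.Ok p) (i : ℕ) (hi : i < 𝔖.ℓ) {ι : Type*} (s : Finset ι) (g : ι → 𝔖.C i → 𝔖.F) (T : 𝔖.C (i + 1)) :
    𝔖.amp i (∑ x ∈ s, g x) T ≤ ∑ x ∈ s, 𝔖.amp i (g x) T := by
  induction s using Finset.induction_on with
  | empty => simpa using (tcg_amp_zero h i hi T).le
  | insert x s hx ih =>
    rw [Finset.sum_insert hx, Finset.sum_insert hx]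
    exact (h.amp_add i _ _ T).trans (by linarith)

theorem tcg_res_sum {i : ℕ} (M : Finset (𝔖.C i)) {ι : Type*} (s : Finset ι) (g : ι → 𝔖.C i → 𝔖.F) :
    𝔖.res M (∑ x ∈ s, g x) = ∑ x ∈ s, 𝔖.res M (g x) := by
  funext T
  unfold TSys.res
  rw [Finset.sum_apply, Finset.sum_apply]
  by_cases hT : T ∈ M
  · simp [hT]
  · simp [hT]

theorem tcg_res_biUnion {i : ℕ} {ι : Type*} (s : Finset ι) (P : ι → Finset (𝔖.C i)) (hd : (s : Set ι).PairwiseDisjoint P) (g : 𝔖.C i → 𝔖.F) :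
    𝔖.res (s.biUnion P) g = ∑ x ∈ s, 𝔖.res (P x) g := by
  funext T
  unfold TSys.res
  rw [Finset.sum_apply]
  by_cases hT : T ∈ s.biUnion P
  · rw [if_pos hT]
    obtain ⟨x, hx, hTx⟩ := Finset.mem_biUnion.1 hT
    rw [Finset.sum_eq_single_of_mem x hx, if_pos hTx]
    intro y hy hyx
    rw [if_neg]
    intro hTy
    exact Finset.disjoint_left.1 (hd hy hx hyx) hTy hTx
  · rw [if_neg hT]
    symm
    refine Finset.sum_eq_zero fun x hx => ?_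
    rw [if_neg]
    intro hTx
    exact hT (Finset.mem_biUnion.2 ⟨x, hx, hTx⟩)

/-- **the field is additive in the mask of one height** -/
theorem tcg_fld_split (h : 𝔖.Ok p) (S : ∀ i, Finset (𝔖.C i)) (mu : ℕ) {ι : Type*} (s : Finset ι) (P : ι → Finset (𝔖.C mu))
    (hd : (s : Set ι).PairwiseDisjoint P) : ∀ j, mu < j → 𝔖.fld (𝔖.upd S mu (s.biUnion P)) j = ∑ x ∈ s, 𝔖.fld (𝔖.upd S mu (P x)) j := by
  intro j hj
  induction j, hj using Nat.le_induction with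
  | base =>
    show 𝔖.asm mu (𝔖.res (𝔖.upd S mu (s.biUnion P) mu) (𝔖.fld (𝔖.upd S mu (s.biUnion P)) mu)) =
      ∑ x ∈ s, 𝔖.asm mu (𝔖.res (𝔖.upd S mu (P x) mu) (𝔖.fld (𝔖.upd S mu (P x)) mu))
    rw [tcg_upd_self, tcg_fld_upd S le_rfl, tcg_res_biUnion s P hd, tcg_asm_sum h]
    refine Finset.sum_congr rfl fun x _ => ?_
    rw [tcg_upd_self, tcg_fld_upd S le_rfl]
  | succ j hj ih =>
    have hne : j ≠ mu := by
      have : mu + 1 ≤ j := hj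
      omega
    show 𝔖.asm j (𝔖.res (𝔖.upd S mu (s.biUnion P) j) (𝔖.fld (𝔖.upd S mu (s.biUnion P)) j)) =
      ∑ x ∈ s, 𝔖.asm j (𝔖.res (𝔖.upd S mu (P x) j) (𝔖.fld (𝔖.upd S mu (P x)) j))
    rw [ih, tcg_upd_ne S hne, tcg_res_sum, tcg_asm_sum h]
    refine Finset.sum_congr rfl fun x _ => ?_
    rw [tcg_upd_ne S hne]

/-- **the amplitude is subadditive in the mask of one height** -/
theorem tcg_am_split_le (h : 𝔖.Ok p) (S : ∀ i, Finset (𝔖.C i)) (mu : ℕ) {ι : Type*} (s : Finset ι) (P : ι → Finset (𝔖.C mu))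
    (hd : (s : Set ι).PairwiseDisjoint P) (j : ℕ) (hj : mu < j) (hjl : j ≤ 𝔖.ℓ) (T : 𝔖.C j) :
    𝔖.am (𝔖.upd S mu (s.biUnion P)) j T ≤ ∑ x ∈ s, 𝔖.am (𝔖.upd S mu (P x)) j T := by
  obtain ⟨j, rfl⟩ : ∃ j', j = j' + 1 := ⟨j - 1, by omega⟩
  show 𝔖.amp j (𝔖.res (𝔖.upd S mu (s.biUnion P) j) (𝔖.fld (𝔖.upd S mu (s.biUnion P)) j)) T ≤
    ∑ x ∈ s, 𝔖.amp j (𝔖.res (𝔖.upd S mu (P x) j) (𝔖.fld (𝔖.upd S mu (P x)) j)) T
  rcases Nat.lt_or_ge mu j with hlt | hge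
  · have hne : j ≠ mu := by omega
    rw [tcg_fld_split h S mu s P hd j hlt, tcg_upd_ne S hne, tcg_res_sum]
    refine (tcg_amp_sum_le h j hjl s _ T).trans (le_of_eq ?_)
    refine Finset.sum_congr rfl fun x _ => ?_
    rw [tcg_upd_ne S hne]
  · obtain rfl : j = mu := by omega
    rw [tcg_upd_self, tcg_fld_upd S le_rfl, tcg_res_biUnion s P hd]
    refine (tcg_amp_sum_le h j hjl s _ T).trans (le_of_eq ?_)
    refine Finset.sum_congr rfl fun x _ => ?_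
    rw [tcg_upd_self, tcg_fld_upd S le_rfl]

/-- two parts -/
theorem tcg_am_split2 (h : 𝔖.Ok p) (S : ∀ i, Finset (𝔖.C i)) (mu : ℕ) (P₁ P₂ : Finset (𝔖.C mu)) (hd : Disjoint P₁ P₂)
    (j : ℕ) (hj : mu < j) (hjl : j ≤ 𝔖.ℓ) (T : 𝔖.C j) :
    𝔖.am (𝔖.upd S mu (P₁ ∪ P₂)) j T ≤ 𝔖.am (𝔖.upd S mu P₁) j T + 𝔖.am (𝔖.upd S mu P₂) j T := by
  have h1 := tcg_am_split_le h S mu (Finset.univ : Finset Bool) (fun x => if x then P₁ else P₂) (by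
    intro x _ y _ hxy
    cases x <;> cases y <;> simp_all [Function.onFun, disjoint_comm]) j hj hjl T
  have e : (Finset.univ : Finset Bool).biUnion (fun x => if x then P₁ else P₂) = P₁ ∪ P₂ := by
    ext T'
    simp
  rw [e] at h1
  simpa [add_comm] using h1

theorem tcg_fld_split2 (h : 𝔖.Ok p) (S : ∀ i, Finset (𝔖.C i)) (mu : ℕ) (P₁ P₂ : Finset (𝔖.C mu)) (hd : Disjoint P₁ P₂)
    (j : ℕ) (hj : mu < j) :
    𝔖.fld (𝔖.upd S mu (P₁ ∪ P₂)) j = 𝔖.fld (𝔖.upd S mu P₁) j + 𝔖.fld (𝔖.upd S mu P₂) j := by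
  have h1 := tcg_fld_split h S mu (Finset.univ : Finset Bool) (fun x => if x then P₁ else P₂) (by
    intro x _ y _ hxy
    cases x <;> cases y <;> simp_all [Function.onFun, disjoint_comm]) j hj
  have e : (Finset.univ : Finset Bool).biUnion (fun x => if x then P₁ else P₂) = P₁ ∪ P₂ := by
    ext T'
    simp
  rw [e] at h1
  simpa [add_comm] using h1

/-- **bridge to `prop`** (`ts_discard`) -/
theorem tcg_prop_fld (S : ∀ i, Finset (𝔖.C i)) (i : ℕ) (N : Finset (𝔖.C i)) :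
    ∀ d, 𝔖.prop S i (𝔖.res N (𝔖.fld S i)) (d + 1) = 𝔖.fld (𝔖.upd S i N) (i + (d + 1))
  | 0 => by
    show 𝔖.asm i (𝔖.res N (𝔖.fld S i)) = 𝔖.asm i (𝔖.res (𝔖.upd S i N i) (𝔖.fld (𝔖.upd S i N) i))
    rw [tcg_upd_self, tcg_fld_upd S le_rfl]
  | d + 1 => by
    show 𝔖.asm (i + (d + 1)) (if d + 1 = 0 then _ else 𝔖.res (S (i + (d + 1))) (𝔖.prop S i (𝔖.res N (𝔖.fld S i)) (d + 1))) =
      𝔖.asm (i + (d + 1)) (𝔖.res (𝔖.upd S i N (i + (d + 1))) (𝔖.fld (𝔖.upd S i N) (i + (d + 1))))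
    rw [if_neg (Nat.succ_ne_zero d), tcg_prop_fld S i N d, tcg_upd_ne S (by omega)]

/-! ## 2. support and positivity -/

/-- a nonzero amplitude has a nonzero active child -/
theorem tcg_edge (h : 𝔖.Ok p) (S : ∀ i, Finset (𝔖.C i)) (j : ℕ) (hj : j < 𝔖.ℓ) (T : 𝔖.C (j + 1)) (hT : 𝔖.am S (j + 1) T ≠ 0) :
    ∃ T' ∈ S j, 𝔖.am S j T' ≠ 0 ∧ 𝔖.eh j T' T ≠ 0 := by
  by_contra hcon
  push Not at hcon
  have h1 := h.cauchy j hj _ _ (tpf_adm_sel h S j hj.le) T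
  have h2 : ∑ T', 𝔖.resA (S j) (𝔖.am S j) T' ^ 2 * 𝔖.eh j T' T = 0 := by
    refine Finset.sum_eq_zero fun T' _ => ?_
    unfold TSys.resA
    by_cases hT' : T' ∈ S j
    · rw [if_pos hT']
      by_cases ha : 𝔖.am S j T' = 0
      · rw [ha]; ring
      · rw [hcon T' hT' ha, mul_zero]
    · rw [if_neg hT']; ring
  rw [h2, mul_zero] at h1
  exact hT (pow_eq_zero_iff two_ne_zero |>.1 (le_antisymm h1 (sq_nonneg _)))

/-- the reference weight is positive where the amplitude does not vanish -/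
theorem tcg_b_pos (h : 𝔖.Ok p) (S : ∀ i, Finset (𝔖.C i)) : ∀ j, j ≤ 𝔖.ℓ → ∀ T, 𝔖.am S j T ≠ 0 → 0 < 𝔖.b j T
  | 0, _, T, hT => lt_of_le_of_ne (h.b_nonneg 0 T) (Ne.symm hT)
  | j + 1, hj, T, hT => by
    obtain ⟨T', _, ha, he⟩ := tcg_edge h S j hj T hT
    have hb := tcg_b_pos h S j (by omega) T' ha
    have he' : 0 < 𝔖.eh j T' T := lt_of_le_of_ne (h.eh_nonneg j T' T) (Ne.symm he)
    have h1 : 𝔖.b j T' ^ 2 * 𝔖.e j T' T ≤ ∑ T', 𝔖.b j T' ^ 2 * 𝔖.e j T' T :=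
      Finset.single_le_sum (f := fun T' => 𝔖.b j T' ^ 2 * 𝔖.e j T' T)
        (fun x _ => mul_nonneg (sq_nonneg _) ((h.eh_nonneg j x T).trans (h.eh_le j x T))) (Finset.mem_univ T')
    have h2 : 0 < 𝔖.b j T' ^ 2 * 𝔖.e j T' T := mul_pos (by positivity) (lt_of_lt_of_le he' (h.eh_le j T' T))
    have h3 : 0 < 𝔖.b (j + 1) T ^ 2 := lt_of_lt_of_le h2 (h1.trans (h.dom j hj T))
    exact lt_of_le_of_ne (h.b_nonneg _ T) fun h0 => by rw [← h0] at h3; simp at h3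

/-- **propagation of the support**: `U` closed upwards along the edges, mask of height `mu` in `U` -/
theorem tcg_supp (h : 𝔖.Ok p) (M : ∀ i, Finset (𝔖.C i)) (mu lam : ℕ) (hl : lam ≤ 𝔖.ℓ) (U : ∀ i, 𝔖.C i → Prop)
    (hU : ∀ i, mu ≤ i → i < lam → ∀ T' T, U i T' → 𝔖.eh i T' T ≠ 0 → U (i + 1) T) (h0 : ∀ T ∈ M mu, U mu T) :
    ∀ j, mu < j → j ≤ lam → ∀ T, 𝔖.am M j T ≠ 0 → U j T := by
  intro j hj
  induction j, hj using Nat.le_induction with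
  | base =>
    intro hjl T hT
    obtain ⟨T', hT', _, he⟩ := tcg_edge h M mu (by omega) T hT
    exact hU mu le_rfl (by omega) T' T (h0 T' hT') he
  | succ j hj ih =>
    intro hjl T hT
    have hj' : mu + 1 ≤ j := hj
    obtain ⟨T', _, ha, he⟩ := tcg_edge h M j (by omega) T hT
    exact hU j (by omega) (by omega) T' T (ih (by omega) T' ha) he

/-! ## 3. the chain -/

theorem tcg_bud_res_le (h : 𝔖.Ok p) {pp : ℝ} (hpp : 2 < pp) (i : ℕ) (M : Finset (𝔖.C i)) (a b : 𝔖.C i → ℝ) (ha : ∀ T, 0 ≤ a T) (hb : ∀ T, 0 ≤ b T) :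
    𝔖.bud pp i (𝔖.resA M a) b ≤ 𝔖.bud pp i a b := by
  rw [tpf_bud_res hpp]
  unfold TSys.bud
  exact Finset.sum_le_sum_of_subset_of_nonneg (Finset.subset_univ _) fun T _ _ =>
    mul_nonneg (mul_nonneg (h.vol_pos i).le (Real.rpow_nonneg (ha T) _)) (Real.rpow_nonneg (hb T) _)

/-- **the chain**: a one step hierarchy for the families supported in `U`, iterated through ARBITRARY masks `M`, with ARBITRARY dominated weights `bw` -/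
theorem tcg_chain (h : 𝔖.Ok p) (M : ∀ i, Finset (𝔖.C i)) (mu lam : ℕ) (hl : lam ≤ 𝔖.ℓ) (pp L : ℝ) (hpp : 2 < pp) (hL : 0 ≤ L)
    (κ : ∀ i, 𝔖.C i → 𝔖.C (i + 1) → ℝ) (U : ∀ i, 𝔖.C i → Prop) (bw : ∀ i, 𝔖.C i → ℝ)
    (hH : ∀ i, mu ≤ i → i < lam → 𝔖.Hier1 pp L i (κ i) (U i))
    (hU : ∀ i, mu ≤ i → i < lam → ∀ T' T, U i T' → 𝔖.eh i T' T ≠ 0 → U (i + 1) T) (h0 : ∀ T ∈ M mu, U mu T)
    (hw0 : ∀ i T, 0 ≤ bw i T) (hwp : ∀ i T, 0 < 𝔖.b i T → 0 < bw i T)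
    (hwd : ∀ i, mu ≤ i → i < lam → ∀ T, ∑ T', bw i T' ^ 2 * κ i T' T ≤ bw (i + 1) T ^ 2) :
    ∀ j, mu ≤ j → j ≤ lam → 𝔖.bud pp j (𝔖.resA (M j) (𝔖.am M j)) (bw j) ≤ L ^ (j - mu) * 𝔖.bud pp mu (𝔖.resA (M mu) (𝔖.am M mu)) (bw mu) := by
  intro j hj
  induction j, hj using Nat.le_induction with
  | base => intro _; simp
  | succ j hj ih =>
    intro hjl
    have ih' := ih (by omega)
    have hne : ∀ T', 𝔖.resA (M j) (𝔖.am M j) T' ≠ 0 → T' ∈ M j ∧ 𝔖.am M j T' ≠ 0 := by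
      intro T' hT'
      unfold TSys.resA at hT'
      by_cases hm : T' ∈ M j
      · rw [if_pos hm] at hT'; exact ⟨hm, hT'⟩
      · rw [if_neg hm] at hT'; exact absurd rfl hT'
    have h1 := hH j hj (by omega) _ _ (tpf_adm_sel h M j (by omega)) (fun T' hT' => by
      obtain ⟨hm, ha⟩ := hne T' hT'
      rcases Nat.eq_or_lt_of_le hj with rfl | hlt
      · exact h0 T' hm
      · exact tcg_supp h M mu lam hl U hU h0 j hlt (by omega) T' ha) (bw j) (bw (j + 1)) (hw0 j)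
      (fun T' hT' => hwp j T' (tcg_b_pos h M j (by omega) T' (hne T' hT').2)) (hw0 (j + 1)) (hwd j hj (by omega))
    have h2 : 𝔖.bud pp (j + 1) (𝔖.resA (M (j + 1)) (𝔖.am M (j + 1))) (bw (j + 1)) ≤ 𝔖.bud pp (j + 1) (𝔖.am M (j + 1)) (bw (j + 1)) :=
      tcg_bud_res_le h hpp _ _ _ _ (tpf_am_nonneg h M (j + 1)) (hw0 (j + 1))
    have e : j + 1 - mu = (j - mu) + 1 := by omega
    rw [e, pow_succ]
    calc _ ≤ 𝔖.bud pp (j + 1) (𝔖.am M (j + 1)) (bw (j + 1)) := h2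
      _ ≤ L * 𝔖.bud pp j (𝔖.resA (M j) (𝔖.am M j)) (bw j) := h1
      _ ≤ L * (L ^ (j - mu) * 𝔖.bud pp mu (𝔖.resA (M mu) (𝔖.am M mu)) (bw mu)) := mul_le_mul_of_nonneg_left ih' hL
      _ = _ := by ring

/-! ## 4. Hoelder and the fine budget -/

/-- Hoelder in the form `∑ x^t y^{1-t} ≤ (∑ x)^t (∑ y)^{1-t}` -/
theorem tcg_holder0 {ι : Type*} (s : Finset ι) (x y : ι → ℝ) (hx : ∀ i ∈ s, 0 ≤ x i) (hy : ∀ i ∈ s, 0 ≤ y i) {t : ℝ} (h0 : 0 < t) (h1 : t < 1) :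
    ∑ i ∈ s, x i ^ t * y i ^ (1 - t) ≤ (∑ i ∈ s, x i) ^ t * (∑ i ∈ s, y i) ^ (1 - t) := by
  have hpq : (1 / t).HolderConjugate (1 / (1 - t)) := by
    rw [Real.holderConjugate_iff]
    refine ⟨by rw [lt_div_iff₀ h0]; linarith, ?_⟩
    simp
  have h := Real.inner_le_Lp_mul_Lq_of_nonneg s hpq (f := fun i => x i ^ t) (g := fun i => y i ^ (1 - t))
    (fun i hi => Real.rpow_nonneg (hx i hi) _) (fun i hi => Real.rpow_nonneg (hy i hi) _)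
  have e1 : ∑ i ∈ s, (x i ^ t) ^ (1 / t) = ∑ i ∈ s, x i := by
    refine Finset.sum_congr rfl fun i hi => ?_
    rw [← Real.rpow_mul (hx i hi), mul_one_div_cancel h0.ne', Real.rpow_one]
  have e2 : ∑ i ∈ s, (y i ^ (1 - t)) ^ (1 / (1 - t)) = ∑ i ∈ s, y i := by
    refine Finset.sum_congr rfl fun i hi => ?_
    rw [← Real.rpow_mul (hy i hi), mul_one_div_cancel (by linarith : (1 - t) ≠ 0), Real.rpow_one]
  rw [e1, e2] at h
  simpa using h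

/-- **Hoelder** with the measure `|T| b_T²`: from the exponent `q'` down to `q` -/
theorem tcg_holder (i : ℕ) (N : Finset (𝔖.C i)) (a b : 𝔖.C i → ℝ) {q q' : ℝ} (hq : 0 < q) (hqq : q < q') (hv : 0 < 𝔖.vol i)
    (ha : ∀ T ∈ N, 0 ≤ a T) (hb : ∀ T ∈ N, 0 < b T) :
    ∑ T ∈ N, 𝔖.vol i * a T ^ q * b T ^ (2 - q) ≤
      (∑ T ∈ N, 𝔖.vol i * a T ^ q' * b T ^ (2 - q')) ^ (q / q') * (∑ T ∈ N, 𝔖.vol i * b T ^ 2) ^ (1 - q / q') := by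
  have hq' : 0 < q' := hq.trans hqq
  have ht0 : 0 < q / q' := div_pos hq hq'
  have ht1 : q / q' < 1 := (div_lt_one hq').2 hqq
  refine le_trans (le_of_eq ?_) (tcg_holder0 N (fun T => 𝔖.vol i * a T ^ q' * b T ^ (2 - q')) (fun T => 𝔖.vol i * b T ^ 2)
    (fun T hT => mul_nonneg (mul_nonneg hv.le (Real.rpow_nonneg (ha T hT) _)) (Real.rpow_nonneg (hb T hT).le _))
    (fun T hT => mul_nonneg hv.le (sq_nonneg _)) ht0 ht1)
  refine Finset.sum_congr rfl fun T hT => ?_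
  have hbT := hb T hT
  have haT := ha T hT
  rw [Real.mul_rpow (mul_nonneg hv.le (Real.rpow_nonneg haT _)) (Real.rpow_nonneg hbT.le _),
    Real.mul_rpow hv.le (Real.rpow_nonneg haT _), Real.mul_rpow hv.le (sq_nonneg _),
    ← Real.rpow_mul haT, ← Real.rpow_mul hbT.le, ← Real.rpow_natCast (b T) 2, ← Real.rpow_mul hbT.le]
  have e1 : q' * (q / q') = q := by field_simp
  rw [e1]
  have e2 : 𝔖.vol i = 𝔖.vol i ^ (q / q') * 𝔖.vol i ^ (1 - q / q') := by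
    rw [← Real.rpow_add hv]; simp
  have e3 : b T ^ (2 - q) = b T ^ ((2 - q') * (q / q')) * b T ^ (((2 : ℕ) : ℝ) * (1 - q / q')) := by
    rw [← Real.rpow_add hbT]
    congr 1
    push_cast
    field_simp
    ring
  rw [e3]
  nth_rewrite 1 [e2]
  ring

/-- **the fine budget** at the exponent `q' ≥ q` with a bounded weight: `∑_{T ∈ S_i} |T| a^{q'} b^{2-q'} ψ ≤ c (2 r_i)^{q'-q} K D` -/
theorem tcg_fine {A K G : ℝ} {S : ∀ i, Finset (𝔖.C i)} {r : ℕ → ℝ} {Yf : Finset 𝔖.Y} (h : 𝔖.Ok p) (hF : 𝔖.Frozen p.q A K G S r Yf)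
    (i : ℕ) (hi : i ≤ 𝔖.ℓ) {q' : ℝ} (hqq : p.q ≤ q') (ψ : 𝔖.C i → ℝ) {c : ℝ} (hc : 0 ≤ c) (hψ : ∀ T, ψ T ≤ c) :
    𝔖.budW q' i (S i) (𝔖.am S i) (𝔖.b i) ψ ≤ c * (2 * r i) ^ (q' - p.q) * (K * 𝔖.D) := by
  have hr := hF.r_pos i
  have h1 : 𝔖.budW q' i (S i) (𝔖.am S i) (𝔖.b i) ψ ≤
      ∑ T ∈ S i, (c * (2 * r i) ^ (q' - p.q)) * (𝔖.vol i * 𝔖.am S i T ^ p.q * 𝔖.b i T ^ (2 - p.q)) := by
    unfold TSys.budW
    refine Finset.sum_le_sum fun T hT => ?_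
    obtain ⟨hb, h1, h2⟩ := hF.ratio i hi T hT
    have ha : 0 < 𝔖.am S i T := lt_of_lt_of_le (mul_pos hr hb) h1
    have e1 : 𝔖.am S i T ^ q' = 𝔖.am S i T ^ p.q * 𝔖.am S i T ^ (q' - p.q) := by
      rw [← Real.rpow_add ha]; congr 1; ring
    have e2 : 𝔖.b i T ^ (2 - q') = 𝔖.b i T ^ (2 - p.q) * (𝔖.b i T ^ (q' - p.q))⁻¹ := by
      rw [← Real.rpow_neg hb.le, ← Real.rpow_add hb]; congr 1; ring
    have e3 : 𝔖.am S i T ^ (q' - p.q) * (𝔖.b i T ^ (q' - p.q))⁻¹ ≤ (2 * r i) ^ (q' - p.q) := by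
      rw [← div_eq_mul_inv, ← Real.div_rpow ha.le hb.le]
      refine Real.rpow_le_rpow (div_nonneg ha.le hb.le) ?_ (by linarith)
      rw [div_le_iff₀ hb]
      exact h2
    have hX : 0 ≤ 𝔖.vol i * 𝔖.am S i T ^ p.q * 𝔖.b i T ^ (2 - p.q) :=
      mul_nonneg (mul_nonneg (h.vol_pos i).le (Real.rpow_nonneg ha.le _)) (Real.rpow_nonneg hb.le _)
    have hZ : 0 ≤ 𝔖.am S i T ^ (q' - p.q) * (𝔖.b i T ^ (q' - p.q))⁻¹ :=
      mul_nonneg (Real.rpow_nonneg ha.le _) (inv_nonneg.2 (Real.rpow_nonneg hb.le _))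
    rw [e1, e2]
    calc 𝔖.vol i * (𝔖.am S i T ^ p.q * 𝔖.am S i T ^ (q' - p.q)) * (𝔖.b i T ^ (2 - p.q) * (𝔖.b i T ^ (q' - p.q))⁻¹) * ψ T
        = (ψ T * (𝔖.am S i T ^ (q' - p.q) * (𝔖.b i T ^ (q' - p.q))⁻¹)) * (𝔖.vol i * 𝔖.am S i T ^ p.q * 𝔖.b i T ^ (2 - p.q)) := by ring
      _ ≤ (c * (2 * r i) ^ (q' - p.q)) * (𝔖.vol i * 𝔖.am S i T ^ p.q * 𝔖.b i T ^ (2 - p.q)) := by
          refine mul_le_mul_of_nonneg_right ?_ hX
          exact mul_le_mul (hψ T) e3 hZ hc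
  refine h1.trans ?_
  rw [← Finset.mul_sum, ← tpf_bud_res h.q_gt]
  exact mul_le_mul_of_nonneg_left (hF.bud_le i hi) (mul_nonneg hc (Real.rpow_nonneg (by positivity) _))

/-- (f:Bcharge) with the volume, on a part of the mask -/
theorem tcg_coarse {A K G : ℝ} {S : ∀ i, Finset (𝔖.C i)} {r : ℕ → ℝ} {Yf : Finset 𝔖.Y} (h : 𝔖.Ok p) (hF : 𝔖.Frozen p.q A K G S r Yf)
    (i : ℕ) (hi : i ≤ 𝔖.ℓ) (N : Finset (𝔖.C i)) (hN : N ⊆ S i) :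
    ∑ T ∈ N, 𝔖.vol i * 𝔖.b i T ^ 2 ≤ K * 𝔖.D / r i ^ p.q := by
  have h1 := ts_bcharge h hF i hi
  have hv := h.vol_pos i
  have hr : 0 < r i ^ p.q := Real.rpow_pos_of_pos (hF.r_pos i) _
  calc ∑ T ∈ N, 𝔖.vol i * 𝔖.b i T ^ 2 ≤ ∑ T ∈ S i, 𝔖.vol i * 𝔖.b i T ^ 2 :=
        Finset.sum_le_sum_of_subset_of_nonneg hN fun T _ _ => mul_nonneg hv.le (sq_nonneg _)
    _ = 𝔖.vol i * ∑ T ∈ S i, 𝔖.b i T ^ 2 := by rw [Finset.mul_sum]
    _ ≤ 𝔖.vol i * (K * 𝔖.D / (𝔖.vol i * r i ^ p.q)) := mul_le_mul_of_nonneg_left h1 hv.le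
    _ = _ := by field_simp

end TSys

/-! ## 3'. conjugation by the macro weights, plate chain -/

namespace TAng

variable {𝔖 : TSys} {𝔊 : TGeo 𝔖} {p : TPar} {a : TAPar} (𝔄 : TAng 𝔖 𝔊)

/-- the conjugated reference weights `b Ψ^{-1/(pp-2)}` -/
def bw (pp : ℝ) (B : 𝔄.BB) (i : ℕ) (T : 𝔖.C i) : ℝ := 𝔖.b i T * 𝔄.Psi B i T ^ (-(1 / (pp - 2)))

variable {𝔄}

theorem tcg_bw_sq (hA : 𝔄.Ok p a) (pp : ℝ) (B : 𝔄.BB) (i : ℕ) (T : 𝔖.C i) :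
    𝔄.bw pp B i T ^ 2 = 𝔖.b i T ^ 2 * (𝔄.Psi B i T ^ (2 / (pp - 2)))⁻¹ := by
  unfold TAng.bw
  have hP := hA.Psi_pos B i T
  rw [mul_pow, ← Real.rpow_natCast (𝔄.Psi B i T ^ (-(1 / (pp - 2)))) 2, ← Real.rpow_mul hP.le, ← Real.rpow_neg hP.le]
  congr 2
  push_cast
  ring

theorem tcg_bw_nonneg (h : 𝔖.Ok p) (hA : 𝔄.Ok p a) (pp : ℝ) (B : 𝔄.BB) (i : ℕ) (T : 𝔖.C i) : 0 ≤ 𝔄.bw pp B i T :=
  mul_nonneg (h.b_nonneg i T) (Real.rpow_nonneg (hA.Psi_pos B i T).le _)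

theorem tcg_bw_pos (hA : 𝔄.Ok p a) (pp : ℝ) (B : 𝔄.BB) (i : ℕ) (T : 𝔖.C i) (hb : 0 < 𝔖.b i T) : 0 < 𝔄.bw pp B i T :=
  mul_pos hb (Real.rpow_pos_of_pos (hA.Psi_pos B i T) _)

/-- the conjugated weights are dominated along the edges -/
theorem tcg_bw_dom (h : 𝔖.Ok p) (hA : 𝔄.Ok p a) (pp : ℝ) (hpp : pp = p.q ∨ pp = a.q') (B : 𝔄.BB) (i : ℕ)
    (h1 : 𝔄.bot ≤ i) (h2 : i < 𝔄.lam) (T : 𝔖.C (i + 1)) :
    ∑ T', 𝔄.bw pp B i T' ^ 2 * 𝔄.ehh i T' T ≤ 𝔄.bw pp B (i + 1) T ^ 2 := by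
  have hil : i < 𝔖.ℓ := lt_of_lt_of_le h2 hA.lam_le
  rw [tcg_bw_sq hA]
  set X := 𝔄.Psi B (i + 1) T ^ (2 / (pp - 2)) with hX
  have hXpos : 0 < X := Real.rpow_pos_of_pos (hA.Psi_pos B (i + 1) T) _
  calc ∑ T', 𝔄.bw pp B i T' ^ 2 * 𝔄.ehh i T' T ≤ ∑ T', (𝔖.b i T' ^ 2 * 𝔖.e i T' T) * X⁻¹ := by
        refine Finset.sum_le_sum fun T' _ => ?_
        rw [tcg_bw_sq hA]
        set X' := 𝔄.Psi B i T' ^ (2 / (pp - 2)) with hX'
        have hX'pos : 0 < X' := Real.rpow_pos_of_pos (hA.Psi_pos B i T') _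
        have he := hA.Psi_edge pp hpp B i h1 h2 T' T
        have h3 : X'⁻¹ * 𝔄.ehh i T' T ≤ X⁻¹ * 𝔖.e i T' T := by
          calc X'⁻¹ * 𝔄.ehh i T' T = (X'⁻¹ * X⁻¹) * (X * 𝔄.ehh i T' T) := by field_simp
            _ ≤ (X'⁻¹ * X⁻¹) * (X' * 𝔖.eh i T' T) := mul_le_mul_of_nonneg_left he (by positivity)
            _ = X⁻¹ * 𝔖.eh i T' T := by field_simp
            _ ≤ X⁻¹ * 𝔖.e i T' T := mul_le_mul_of_nonneg_left (h.eh_le i T' T) (by positivity)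
        calc 𝔖.b i T' ^ 2 * X'⁻¹ * 𝔄.ehh i T' T = 𝔖.b i T' ^ 2 * (X'⁻¹ * 𝔄.ehh i T' T) := by ring
          _ ≤ 𝔖.b i T' ^ 2 * (X⁻¹ * 𝔖.e i T' T) := mul_le_mul_of_nonneg_left h3 (sq_nonneg _)
          _ = _ := by ring
    _ = (∑ T', 𝔖.b i T' ^ 2 * 𝔖.e i T' T) * X⁻¹ := by rw [Finset.sum_mul]
    _ ≤ 𝔖.b (i + 1) T ^ 2 * X⁻¹ := mul_le_mul_of_nonneg_right (h.dom i hil T) (by positivity)

/-- the budget with the conjugated weights = the budget with the factor `Ψ` -/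
theorem tcg_bud_bw (h : 𝔖.Ok p) (hA : 𝔄.Ok p a) {pp : ℝ} (hpp : 2 < pp) (B : 𝔄.BB) (i : ℕ) (M : Finset (𝔖.C i)) (α : 𝔖.C i → ℝ) :
    𝔖.bud pp i (𝔖.resA M α) (𝔄.bw pp B i) = 𝔖.budW pp i M α (𝔖.b i) (𝔄.Psi B i) := by
  rw [TSys.tpf_bud_res hpp]
  unfold TSys.budW TAng.bw
  refine Finset.sum_congr rfl fun T _ => ?_
  have hP := hA.Psi_pos B i T
  rw [Real.mul_rpow (h.b_nonneg i T) (Real.rpow_nonneg hP.le _), ← Real.rpow_mul hP.le]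
  have e : -(1 / (pp - 2)) * (2 - pp) = 1 := by
    have : pp - 2 ≠ 0 := by linarith
    field_simp
    ring
  rw [e, Real.rpow_one]
  ring

/-- **(HP) + (PSI) through all the intervening masks**: masks `M` ARBITRARY, the mask of height `mu = lev σ` under the strip `σ` -/
theorem tcg_plate (h : 𝔖.Ok p) (hA : 𝔄.Ok p a) (M : ∀ i, Finset (𝔖.C i)) (σ : 𝔄.Str) (mu : ℕ) (hσ : 𝔄.lev σ = mu) (B : 𝔄.BB)
    (h0 : ∀ T ∈ M mu, 𝔄.under mu σ T) :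
    𝔖.budW a.q' 𝔄.lam (M 𝔄.lam) (𝔖.am M 𝔄.lam) (𝔖.b 𝔄.lam) (𝔄.Psi B 𝔄.lam) ≤
      a.L' ^ (𝔄.lam - mu) * 𝔖.budW a.q' mu (M mu) (𝔖.am M mu) (𝔖.b mu) (𝔄.Psi B mu) := by
  subst hσ
  have hq' : 2 < a.q' := h.q_gt.trans hA.q_lt
  have := TSys.tcg_chain h M (𝔄.lev σ) 𝔄.lam hA.lam_le a.q' a.L' hq' (zero_le_one.trans hA.one_le_L') 𝔄.ehh (fun i => 𝔄.under i σ) (𝔄.bw a.q' B)
    (hA.hp σ) (hA.under_up σ) h0 (tcg_bw_nonneg h hA a.q' B) (tcg_bw_pos hA a.q' B)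
    (fun i h1 h2 => tcg_bw_dom h hA a.q' (Or.inr rfl) B i ((hA.bot_le_lev σ).trans h1) h2) 𝔄.lam (hA.lev_le σ) le_rfl
  rwa [tcg_bud_bw h hA hq', tcg_bud_bw h hA hq'] at this

/-- **(HQ) + (PSI) through all the intervening masks** at the exponent `q` (no strip) -/
theorem tcg_full (h : 𝔖.Ok p) (hA : 𝔄.Ok p a) (M : ∀ i, Finset (𝔖.C i)) (mu : ℕ) (h1 : 𝔄.bot ≤ mu) (h2 : mu ≤ 𝔄.lam) (B : 𝔄.BB) :
    𝔖.budW p.q 𝔄.lam (M 𝔄.lam) (𝔖.am M 𝔄.lam) (𝔖.b 𝔄.lam) (𝔄.Psi B 𝔄.lam) ≤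
      a.Lq ^ (𝔄.lam - mu) * 𝔖.budW p.q mu (M mu) (𝔖.am M mu) (𝔖.b mu) (𝔄.Psi B mu) := by
  have := TSys.tcg_chain h M mu 𝔄.lam hA.lam_le p.q a.Lq h.q_gt (zero_le_one.trans hA.one_le_Lq) 𝔄.ehh (fun _ _ => True) (𝔄.bw p.q B)
    (fun i h3 hi => hA.hq i (h1.trans h3) hi) (fun _ _ _ _ _ _ _ => trivial) (fun _ _ => trivial)
    (tcg_bw_nonneg h hA p.q B) (tcg_bw_pos hA p.q B)
    (fun i h3 h4 => tcg_bw_dom h hA p.q (Or.inl rfl) B i (h1.trans h3) h4) 𝔄.lam h2 le_rfl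
  rwa [tcg_bud_bw h hA h.q_gt, tcg_bud_bw h hA h.q_gt] at this

end TAng

end

end Claimed.Agent.R257.FR2
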