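import Claimed.Agent.R257.FR2.Sys

/-!
# ROW 257, package FR2, file 4 (unit MULTI): RESTRICTION OF A SYSTEM TO A SUBSET OF THE WITNESSES      (helper41)

Paper-free.   The `m = k + 1` fields of `f:frame` are systems over ONE set of witnesses; the selection is made field after field: `ts_select` for field `1`, then for field `2` restricted to the retained witnesses of field `1`, ...
`𝔖.restr Y₀` has the SAME cells, fields, `asm`, `amp`, weights (definitionally: `fld`, `am`, `bud`, `en`, `D` do not see the witnesses); only `Y`, `ev`, `w`, `wh`, `inc` are restricted.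
-/

set_option autoImplicit false

namespace Claimed.Agent.R257.FR2

open scoped BigOperators Classical

noncomputable section

namespace TSys

variable (𝔖 : TSys)

/-- restriction to the witnesses of `Y₀` -/
def restr (Y₀ : Finset 𝔖.Y) : TSys where
  ℓ := 𝔖.ℓ
  C := 𝔖.C
  fC := 𝔖.fC
  Y := {z : 𝔖.Y // z ∈ Y₀}
  fY := inferInstance
  F := 𝔖.F
  aF := 𝔖.aF
  vol := 𝔖.vol
  Pk := 𝔖.Pk
  asm := 𝔖.asm
  amp := 𝔖.amp
  ev := fun i T f z => 𝔖.ev i T f z.1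
  w := fun i T z => 𝔖.w i T z.1
  wh := fun T z => 𝔖.wh T z.1
  e := 𝔖.e
  eh := 𝔖.eh
  b := 𝔖.b
  inc := fun i z T => 𝔖.inc i z.1 T
  g0 := 𝔖.g0

theorem restr_Ev (Y₀ : Finset 𝔖.Y) (i : ℕ) (g : 𝔖.C i → 𝔖.F) (z : {z : 𝔖.Y // z ∈ Y₀}) :
    (𝔖.restr Y₀).Ev i g z = 𝔖.Ev i g z.1 := rfl

theorem restr_sq (Y₀ : Finset 𝔖.Y) (i : ℕ) (a : 𝔖.C i → ℝ) (z : {z : 𝔖.Y // z ∈ Y₀}) :
    (𝔖.restr Y₀).sq i a z = 𝔖.sq i a z.1 := rfl

theorem restr_fld (Y₀ : Finset 𝔖.Y) (S : ∀ i, Finset (𝔖.C i)) (i : ℕ) : (𝔖.restr Y₀).fld S i = 𝔖.fld S i := by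
  induction i with
  | zero => rfl
  | succ i ih =>
    show 𝔖.asm i ((𝔖.restr Y₀).res (S i) ((𝔖.restr Y₀).fld S i)) = 𝔖.asm i (𝔖.res (S i) (𝔖.fld S i))
    rw [ih]
    rfl

theorem restr_am (Y₀ : Finset 𝔖.Y) (S : ∀ i, Finset (𝔖.C i)) (i : ℕ) : (𝔖.restr Y₀).am S i = 𝔖.am S i := by
  cases i with
  | zero => rfl
  | succ i =>
    show 𝔖.amp i ((𝔖.restr Y₀).res (S i) ((𝔖.restr Y₀).fld S i)) = 𝔖.amp i (𝔖.res (S i) (𝔖.fld S i))
    rw [restr_fld]
    rfl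

theorem restr_D (Y₀ : Finset 𝔖.Y) : (𝔖.restr Y₀).D = 𝔖.D := rfl

theorem restr_card (Y₀ : Finset 𝔖.Y) : Fintype.card (𝔖.restr Y₀).Y = Y₀.card := Fintype.card_coe Y₀

/-- the occupancy of the restricted system is smaller -/
theorem restr_occ_le (Y₀ : Finset 𝔖.Y) (i : ℕ) (T : 𝔖.C i) : (𝔖.restr Y₀).occ i T ≤ 𝔖.occ i T := by
  unfold occ
  refine Finset.card_le_card_of_injOn (fun z : {z : 𝔖.Y // z ∈ Y₀} => z.1) ?_ ?_
  · intro z hz
    have h1 : 𝔖.inc i z.1 T := (Finset.mem_filter.1 (Finset.mem_coe.1 hz)).2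
    exact Finset.mem_coe.2 (Finset.mem_filter.2 ⟨Finset.mem_univ _, h1⟩)
  · intro z _ z' _ h
    exact Subtype.ext h

/-- **the one-step facts are inherited** -/
theorem restr_ok {p : TPar} (h : 𝔖.Ok p) (Y₀ : Finset 𝔖.Y) : (𝔖.restr Y₀).Ok p where
  q_gt := h.q_gt
  vol_pos := h.vol_pos
  w_nonneg := fun i T z => h.w_nonneg i T z.1
  wh_nonneg := fun T z => h.wh_nonneg T z.1
  wh_le := fun T z => h.wh_le T z.1
  eh_nonneg := h.eh_nonneg
  eh_le := h.eh_le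
  b_nonneg := h.b_nonneg
  one_le_L := h.one_le_L
  one_le_L0 := h.one_le_L0
  one_le_Γ := h.one_le_Γ
  one_le_Γr := h.one_le_Γr
  one_le_Γ2 := h.one_le_Γ2
  η_nonneg := h.η_nonneg
  one_le_ϖ0 := h.one_le_ϖ0
  one_le_ϖ1 := h.one_le_ϖ1
  pk_nonneg := h.pk_nonneg
  pk_zero := h.pk_zero
  pk_mono := h.pk_mono
  pk_add := h.pk_add
  pk_neg := h.pk_neg
  ev_add := fun i T f f' z => h.ev_add i T f f' z.1
  asm_add := h.asm_add
  amp_nonneg := h.amp_nonneg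
  amp_add := h.amp_add
  amp_neg := h.amp_neg
  leaf := h.leaf
  closure := h.closure
  hier := h.hier
  cauchy := h.cauchy
  l2 := h.l2
  cauchy_root := fun i hi g a hg z => h.cauchy_root i hi g a hg z.1
  junk := fun i hi g a hg z => h.junk i hi g a hg z.1
  root := fun g a hg b hb hb' Y' θ ϖ ρ hθ hϖ hρ hR hY => by
    have h1 := h.root g a hg b hb hb' (Y'.map ⟨fun z : {z : 𝔖.Y // z ∈ Y₀} => z.1, Subtype.val_injective⟩) θ ϖ ρ hθ hϖ hρ hR (by
      intro z hz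
      obtain ⟨z', hz', rfl⟩ := Finset.mem_map.1 hz
      exact hY z' hz')
    have h2 : (Finset.map ⟨fun z : {z : 𝔖.Y // z ∈ Y₀} => z.1, Subtype.val_injective⟩ Y').card = Y'.card := Finset.card_map _
    exact h2 ▸ h1
  dom := h.dom
  sq_le := fun i hi z => h.sq_le i hi z.1
  inc_le := fun i hi z => h.inc_le i hi z.1

end TSys

end

end Claimed.Agent.R257.FR2
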