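import Claimed.Agent.R257.FR2.SelTop
import Claimed.Agent.R257.FR2.Restr

/-!
# ROW 257, package FR2, unit MULTI: THE SELECTION FOR `m` FIELDS OVER ONE SET OF WITNESSES      (architect helper94; spec helper41, `FR2/Notes.lean`)

Paper-free.   The `m = k + 1` fields of `f:frame` are `m` systems `𝔖 j` whose witnesses are indexed by ONE finite set `Q` of unit cubes (`e j : Q ≃ (𝔖 j).Y`; separate witnesses).
`ts_select` is applied field after field, each time in the system restricted to the cubes retained so far (`FR2/Restr.lean`: `restr_ok`; the balance loses the factor of `card_le`).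
At the end all the frozen trees are restricted to the final set `Yf` of cubes (`tm_frozen_restr`).
LEAVES: `L-257-TM-RESTR` (`tm_frozen_restr`, `tm_selhyp_restr`), `L-257-TM-MAIN` (`tm_select`).   Prove IN PLACE, statements verbatim (defects: one line to helper94 and helper41), auxiliary lemmas with prefix `tm_` directly above.
-/

set_option autoImplicit false

namespace Claimed.Agent.R257.FR2

open scoped BigOperators Classical

noncomputable section

namespace TSys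

variable (𝔖 : TSys)

/-- L-257-TM-RESTR, **a frozen tree stays frozen in the system restricted to a nonempty part `Y₁` of its retained witnesses**; all the witnesses of the restricted system are retained.
PLAN: `restr_am`, `restr_fld`, `restr_D`, `restr_Ev`, `restr_occ_le`; `bud`, `resA`, `res`, `b`, `vol` do not see the witnesses (`rfl` after `restr_am`); `card_le`: `Finset.card_univ`, `1 ≤ K`. -/
theorem tm_frozen_restr {q A K G : ℝ} {S : ∀ i, Finset (𝔖.C i)} {r : ℕ → ℝ} {Yf : Finset 𝔖.Y} (hF : 𝔖.Frozen q A K G S r Yf) (hK : 1 ≤ K)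
    (Y₁ : Finset 𝔖.Y) (h1 : Y₁ ⊆ Yf) : (𝔖.restr Y₁).Frozen q A K G S r Finset.univ := by
  refine ⟨hF.r_pos, hF.r_zero, fun i hi T hT => ?_, fun i hi T hT => ?_, fun i hi => ?_, fun i hi => ?_, fun i hi z _ => ?_, ?_⟩
  · rw [restr_am]
    exact hF.ratio i hi T hT
  · refine le_trans ?_ (hF.occ_le i hi T hT)
    exact_mod_cast 𝔖.restr_occ_le Y₁ i T
  · rw [restr_am]
    exact hF.bud_le i hi
  · rw [restr_am]
    exact hF.le_bud i hi
  · rw [restr_fld]
    exact hF.high i hi z.1 (h1 z.2)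
  · rw [Finset.card_univ]
    exact le_mul_of_one_le_left (Nat.cast_nonneg _) hK

/-- L-257-TM-RESTR: the size hypotheses in a restricted system: only the balance changes (`#Y ≤ K₁ #Y₁`).   PLAN: fields one by one; `restr_card`, `restr_D`, `restr_Ev`; `K ≤ K * K₁`. -/
theorem tm_selhyp_restr {p : TPar} {A K X K₁ : ℝ} (h : 𝔖.SelHyp p A K X) (hK₁ : 1 ≤ K₁) (Y₁ : Finset 𝔖.Y) (hne : Y₁.Nonempty)
    (hc : (Fintype.card 𝔖.Y : ℝ) ≤ K₁ * Y₁.card) : (𝔖.restr Y₁).SelHyp p A (K * K₁) X := by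
  have hK2 := h.two_le_K
  have hK0 : 0 ≤ K := by linarith
  have hKK : K ≤ K * K₁ := le_mul_of_one_le_right hK0 hK₁
  have hA0 : 0 ≤ A ^ p.q := Real.rpow_nonneg (by linarith [h.one_le_A]) _
  refine ⟨hK2.trans hKK, h.three_le_X, h.one_le_A, h.L_le.trans hKK, h.L0_le.trans hKK, h.ϖ0_le.trans hKK, h.Γ_le, h.Γr_le,
    fun z => h.high z.1, ?_, ?_⟩
  · rw [restr_D, restr_card]
    calc 𝔖.D ≤ K * (Fintype.card 𝔖.Y * A ^ p.q) := h.balance
      _ ≤ K * ((K₁ * Y₁.card) * A ^ p.q) := mul_le_mul_of_nonneg_left (mul_le_mul_of_nonneg_right hc hA0) hK0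
      _ = K * K₁ * (Y₁.card * A ^ p.q) := by ring
  · obtain ⟨z, hz⟩ := hne
    exact ⟨⟨z, hz⟩⟩

end TSys

theorem TSys.tm_am_nonneg (𝔖 : TSys) {p : TPar} (h : 𝔖.Ok p) (S : ∀ i, Finset (𝔖.C i)) (i : ℕ) (T : 𝔖.C i) : 0 ≤ 𝔖.am S i T := by
  cases i with
  | zero => exact h.b_nonneg 0 T
  | succ i => exact h.amp_nonneg i _ T

theorem TSys.tm_D_nonneg (𝔖 : TSys) {p : TPar} (h : 𝔖.Ok p) : 0 ≤ 𝔖.D :=
  Finset.sum_nonneg fun T _ => mul_nonneg (h.vol_pos 0).le (sq_nonneg _)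

/-- a tree frozen in a restricted system stays frozen (with a larger loss) in the system restricted to a part of its retained witnesses -/
theorem TSys.tm_frozen_sub (𝔖 : TSys) {p : TPar} (h : 𝔖.Ok p) {q A K K' G : ℝ} {S : ∀ i, Finset (𝔖.C i)} {r : ℕ → ℝ} (Y₀ : Finset 𝔖.Y)
    {Yf : Finset {z : 𝔖.Y // z ∈ Y₀}} (hF : (𝔖.restr Y₀).Frozen q A K G S r Yf) (hKK : K ≤ K') (hK' : 1 ≤ K')
    (Y₁ : Finset 𝔖.Y) (h1 : ∀ z ∈ Y₁, ∃ hz : z ∈ Y₀, (⟨z, hz⟩ : {z : 𝔖.Y // z ∈ Y₀}) ∈ Yf) :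
    (𝔖.restr Y₁).Frozen q A K' G S r Finset.univ := by
  refine ⟨hF.r_pos, hF.r_zero, fun i hi T hT => ?_, fun i hi T hT => ?_, fun i hi => ?_, fun i hi => ?_, fun i hi z _ => ?_, ?_⟩
  · have h2 := hF.ratio i hi T hT
    rw [TSys.restr_am] at h2 ⊢
    exact h2
  · refine le_trans ?_ (hF.occ_le i hi T hT)
    have h3 : (𝔖.restr Y₁).occ i T ≤ (𝔖.restr Y₀).occ i T := by
      unfold TSys.occ
      refine Finset.card_le_card_of_injOn (fun z : {z : 𝔖.Y // z ∈ Y₁} => (⟨z.1, (h1 z.1 z.2).1⟩ : {z : 𝔖.Y // z ∈ Y₀})) ?_ ?_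
      · intro z hz
        have h4 : 𝔖.inc i z.1 T := (Finset.mem_filter.1 (Finset.mem_coe.1 hz)).2
        exact Finset.mem_coe.2 (Finset.mem_filter.2 ⟨Finset.mem_univ _, h4⟩)
      · intro z _ z' _ hzz
        exact Subtype.ext (congrArg (fun w : {z : 𝔖.Y // z ∈ Y₀} => w.1) hzz)
    exact_mod_cast h3
  · have h2 := hF.bud_le i hi
    rw [TSys.restr_am] at h2 ⊢
    exact h2.trans (mul_le_mul_of_nonneg_right hKK (𝔖.tm_D_nonneg h))
  · have h2 := hF.le_bud i hi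
    rw [TSys.restr_am] at h2 ⊢
    refine h2.trans (mul_le_mul_of_nonneg_right hKK ?_)
    refine TSys.tsl_bud_nonneg (𝔖 := 𝔖) h q i (fun T => ?_) (h.b_nonneg i)
    unfold TSys.resA
    split_ifs
    · exact 𝔖.tm_am_nonneg h S i T
    · exact le_rfl
  · obtain ⟨hz, hzf⟩ := h1 z.1 z.2
    have h2 := hF.high i hi ⟨z.1, hz⟩ hzf
    rw [TSys.restr_fld] at h2 ⊢
    exact h2.trans (mul_le_mul_of_nonneg_right hKK (norm_nonneg _))
  · rw [Finset.card_univ]
    exact le_mul_of_one_le_left (Nat.cast_nonneg _) hK'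

/-- L-257-TM-MAIN, **the selection for `m` fields**.   `c` depends only on `q`, on the depths `ℓ j` and on `m`.
PLAN: induction on the number `m' ≤ m` of fields already treated (statement for the first `m'` fields, with a set `Y_{m'}` of cubes, `#Q ≤ K_{m'} #Y_{m'}`, `K_{m'} = (K log X)^{c_{m'}}`, trees frozen in `(𝔖 j).restr (Y_{m'}.map (e j))` with `Yf = univ`).
Step: field `j = m'`: system `(𝔖 j).restr (Y_{m'}.map (e j))`: `restr_ok`, `tm_selhyp_restr` with `K₁ = K_{m'}`; `ts_select` with `K * K_{m'}` in the place of `K` (`K * K_{m'} ≤ X`, `G`: from the hypotheses with the large `c`;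
`(K K_{m'} log X)^{c₀} ≤ (K log X)^{(c_{m'} + 1) c₀}` since `1 ≤ log X`, `3 ≤ X`);  the retained witnesses give `Y_{m'+1} ⊆ Y_{m'}`;  the old trees: `tm_frozen_restr` (a restriction of a restriction is a restriction: transport along the obvious equivalence, or state the induction with
"frozen in `𝔖 j` itself relative to `Yf = Y.map (e j)` EXCEPT for `occ_le`, `card_le`";  choose the formulation which is easiest);  all losses are monotone in `K'` (`Frozen` is monotone in `K`: `bud_le`, `le_bud`, `high`, `card_le` with `0 ≤` the quantities). -/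
theorem tm_select (q : ℝ) (hq : 2 < q) (m : ℕ) (ℓ : Fin m → ℕ) : ∃ c : ℕ, ∀ (Q : Type) [Fintype Q] [Nonempty Q] (𝔖 : Fin m → TSys) (e : ∀ j, Q ≃ (𝔖 j).Y) (p : Fin m → TPar)
    (A G : Fin m → ℝ) (K X : ℝ), (∀ j, (𝔖 j).ℓ = ℓ j) → (∀ j, (p j).q = q) → (∀ j, (𝔖 j).Ok (p j)) → (∀ j, (𝔖 j).SelHyp (p j) (A j) K X) →
    (K * Real.log X) ^ c ≤ X → (∀ j, (p j).ϖ1 * (K * Real.log X) ^ c ≤ G j) → (∀ j, X ^ c ≤ (p j).Rm) → (∀ j, (p j).η * X ^ c ≤ 1) →
    ∃ (Yf : Finset Q) (S : ∀ j i, Finset ((𝔖 j).C i)) (r : Fin m → ℕ → ℝ), Yf.Nonempty ∧ (Fintype.card Q : ℝ) ≤ (K * Real.log X) ^ c * Yf.card ∧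
      ∀ j, ((𝔖 j).restr (Yf.map (e j).toEmbedding)).Frozen q (A j) ((K * Real.log X) ^ c) (G j) (S j) (r j) Finset.univ := by
  rcases Nat.eq_zero_or_pos m with rfl | hm
  · refine ⟨0, ?_⟩
    intro Q _ _ 𝔖 e p A G K X _ _ _ _ _ _ _ _
    refine ⟨Finset.univ, fun j => j.elim0, fun j => j.elim0, Finset.univ_nonempty, ?_, fun j => j.elim0⟩
    rw [pow_zero, one_mul, Finset.card_univ]
  have hsel := fun j => ts_select q hq (ℓ j)
  choose c₀ hc₀ using hsel
  obtain ⟨C0, hC0⟩ : ∃ C0 : ℕ, C0 = ∑ j, c₀ j := ⟨_, rfl⟩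
  have hc₀le : ∀ j, c₀ j ≤ C0 := fun j => by
    rw [hC0]
    exact Finset.single_le_sum (fun _ _ => Nat.zero_le _) (Finset.mem_univ j)
  obtain ⟨cs, hcs0, hcss⟩ : ∃ cs : ℕ → ℕ, cs 0 = 0 ∧ ∀ n, cs (n + 1) = cs n + (cs n + 1) * C0 :=
    ⟨fun n => Nat.rec 0 (fun _ c => c + (c + 1) * C0) n, rfl, fun n => rfl⟩
  have hmono : Monotone cs := monotone_nat_of_le_succ fun n => by
    rw [hcss]
    exact Nat.le_add_right _ _
  refine ⟨cs m + 1 + C0, ?_⟩
  intro Q _ _ 𝔖 e p A G K X hℓ hpq hOk hSel hBX hG hRm hη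
  obtain ⟨c, hc⟩ : ∃ c, c = cs m + 1 + C0 := ⟨_, rfl⟩
  rw [← hc] at hBX hG hRm hη ⊢
  have hK2 : 2 ≤ K := (hSel ⟨0, hm⟩).two_le_K
  have hX3 : 3 ≤ X := (hSel ⟨0, hm⟩).three_le_X
  have hlog : 1 ≤ Real.log X := tsl_d1_one_le_log hX3
  obtain ⟨B, hB⟩ : ∃ B, B = K * Real.log X := ⟨_, rfl⟩
  rw [← hB] at hBX hG ⊢
  have hKB : K ≤ B := by
    rw [hB]
    exact le_mul_of_one_le_right (by linarith) hlog
  have hB1 : 1 ≤ B := by linarith
  have hX1 : 1 ≤ X := by linarith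
  have hBc1 : 1 ≤ B ^ c := one_le_pow₀ hB1
  have main : ∀ n, n ≤ m → ∃ (Y : Finset Q) (S : ∀ j i, Finset ((𝔖 j).C i)) (r : Fin m → ℕ → ℝ), Y.Nonempty ∧
      (Fintype.card Q : ℝ) ≤ B ^ cs n * Y.card ∧
      ∀ j : Fin m, j.val < n → ((𝔖 j).restr (Y.map (e j).toEmbedding)).Frozen q (A j) (B ^ c) (G j) (S j) (r j) Finset.univ := by
    intro n
    induction n with
    | zero =>
      intro _
      refine ⟨Finset.univ, fun _ _ => ∅, fun _ _ => 1, Finset.univ_nonempty, ?_, fun j hj => absurd hj (Nat.not_lt_zero _)⟩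
      rw [hcs0, pow_zero, one_mul, Finset.card_univ]
    | succ n ih =>
      intro hn
      obtain ⟨Y, S, r, hYne, hYc, hFr⟩ := ih (by omega)
      obtain ⟨j₀, hj₀⟩ : ∃ j₀ : Fin m, j₀.val = n := ⟨⟨n, by omega⟩, rfl⟩
      obtain ⟨Y₀, hY₀⟩ : ∃ Y₀ : Finset (𝔖 j₀).Y, Y₀ = Y.map (e j₀).toEmbedding := ⟨_, rfl⟩
      have hY₀c : Y₀.card = Y.card := by rw [hY₀, Finset.card_map]
      have hY₀ne : Y₀.Nonempty := by
        rw [hY₀]
        exact hYne.map
      have hK₁ : 1 ≤ B ^ cs n := one_le_pow₀ hB1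
      have hcard : (Fintype.card (𝔖 j₀).Y : ℝ) ≤ B ^ cs n * Y₀.card := by
        rw [hY₀c, ← Fintype.card_congr (e j₀)]
        exact hYc
      have hS' := (𝔖 j₀).tm_selhyp_restr (hSel j₀) hK₁ Y₀ hY₀ne hcard
      have hOk' := (𝔖 j₀).restr_ok (hOk j₀) Y₀
      have e1 : K * B ^ cs n * Real.log X = B ^ (cs n + 1) := by
        rw [pow_succ, hB]
        ring
      have hle1 : cs n + 1 ≤ c := by
        have := hmono (show n ≤ m by omega)
        omega
      have hle2 : cs n + (cs n + 1) * c₀ j₀ ≤ cs (n + 1) := by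
        rw [hcss]
        have := Nat.mul_le_mul_left (cs n + 1) (hc₀le j₀)
        omega
      have hle3 : cs (n + 1) ≤ c := by
        have := hmono hn
        omega
      have hle4 : c₀ j₀ ≤ c := by
        have := hc₀le j₀
        omega
      have hle5 : (cs n + 1) * c₀ j₀ ≤ c := by omega
      have n1 : K * B ^ cs n ≤ X := by
        calc K * B ^ cs n ≤ B * B ^ cs n := mul_le_mul_of_nonneg_right hKB (by positivity)
          _ = B ^ (cs n + 1) := by ring
          _ ≤ B ^ c := pow_le_pow_right₀ hB1 hle1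
          _ ≤ X := hBX
      have e2 : (K * B ^ cs n * Real.log X) ^ c₀ j₀ = B ^ ((cs n + 1) * c₀ j₀) := by rw [e1, ← pow_mul]
      have n2 : (p j₀).ϖ1 * (K * B ^ cs n * Real.log X) ^ c₀ j₀ ≤ G j₀ := by
        rw [e2]
        refine le_trans (mul_le_mul_of_nonneg_left (pow_le_pow_right₀ hB1 hle5) ?_) (hG j₀)
        linarith [(hOk j₀).one_le_ϖ1]
      have n3 : X ^ c₀ j₀ ≤ (p j₀).Rm := (pow_le_pow_right₀ hX1 hle4).trans (hRm j₀)
      have n4 : (p j₀).η * X ^ c₀ j₀ ≤ 1 :=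
        (mul_le_mul_of_nonneg_left (pow_le_pow_right₀ hX1 hle4) (hOk j₀).η_nonneg).trans (hη j₀)
      obtain ⟨S₀, r₀, Yf₀, hF₀⟩ : ∃ (S₀ : ∀ i, Finset ((𝔖 j₀).C i)) (r₀ : ℕ → ℝ) (Yf₀ : Finset {z : (𝔖 j₀).Y // z ∈ Y₀}),
          ((𝔖 j₀).restr Y₀).Frozen q (A j₀) ((K * B ^ cs n * Real.log X) ^ c₀ j₀) (G j₀) S₀ r₀ Yf₀ :=
        hc₀ j₀ ((𝔖 j₀).restr Y₀) (p j₀) (A j₀) (K * B ^ cs n) X (G j₀) (hℓ j₀) (hpq j₀) hOk' hS' n1 n2 n3 n4
      rw [e2] at hF₀
      obtain ⟨Y', hY'⟩ : ∃ Y' : Finset Q, Y' = Yf₀.map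
          ⟨fun z : {z : (𝔖 j₀).Y // z ∈ Y₀} => (e j₀).symm z.1, fun z z' h => Subtype.ext ((e j₀).symm.injective h)⟩ := ⟨_, rfl⟩
      have hmem : ∀ x, x ∈ Y' ↔ ∃ z ∈ Yf₀, (e j₀).symm z.1 = x := by
        intro x
        rw [hY', Finset.mem_map]
        rfl
      have hY'c : Y'.card = Yf₀.card := by rw [hY', Finset.card_map]
      have hsub : Y' ⊆ Y := by
        intro x hx
        obtain ⟨z, -, rfl⟩ := (hmem x).1 hx
        have hz : z.1 ∈ Y.map (e j₀).toEmbedding := hY₀ ▸ z.2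
        obtain ⟨x', hx', hxz⟩ := Finset.mem_map.1 hz
        rw [← hxz]
        simpa using hx'
      have hc1 : (Y₀.card : ℝ) ≤ B ^ ((cs n + 1) * c₀ j₀) * Yf₀.card := by
        have := hF₀.card_le
        rw [TSys.restr_card] at this
        exact this
      have hY'ne : Y'.Nonempty := by
        rw [← Finset.card_pos, hY'c]
        by_contra hcon
        have h0 : Yf₀.card = 0 := by omega
        rw [h0, Nat.cast_zero, mul_zero] at hc1
        have h1 : 0 < Y₀.card := Finset.card_pos.2 hY₀ne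
        have h2 : (0 : ℝ) < Y₀.card := by exact_mod_cast h1
        linarith
      refine ⟨Y', Function.update S j₀ S₀, Function.update r j₀ r₀, hY'ne, ?_, fun j hj => ?_⟩
      · calc (Fintype.card Q : ℝ) ≤ B ^ cs n * Y.card := hYc
          _ = B ^ cs n * Y₀.card := by rw [hY₀c]
          _ ≤ B ^ cs n * (B ^ ((cs n + 1) * c₀ j₀) * Yf₀.card) := mul_le_mul_of_nonneg_left hc1 (by positivity)
          _ = B ^ (cs n + (cs n + 1) * c₀ j₀) * Y'.card := by
              rw [hY'c, pow_add]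
              ring
          _ ≤ B ^ cs (n + 1) * Y'.card := mul_le_mul_of_nonneg_right (pow_le_pow_right₀ hB1 hle2) (Nat.cast_nonneg _)
      · by_cases hjj : j = j₀
        · subst hjj
          rw [Function.update_self, Function.update_self]
          refine (𝔖 j).tm_frozen_sub (hOk j) Y₀ hF₀ (pow_le_pow_right₀ hB1 hle5) hBc1 _ fun z hz => ?_
          rw [Finset.mem_map] at hz
          obtain ⟨x, hx, rfl⟩ := hz
          obtain ⟨w, hw, rfl⟩ := (hmem x).1 hx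
          have e3 : (e j).toEmbedding ((e j).symm w.1) = w.1 := by simp
          rw [e3]
          exact ⟨w.2, hw⟩
        · rw [Function.update_of_ne hjj, Function.update_of_ne hjj]
          have hjn : j.val < n := by
            have h1 : j.val ≠ j₀.val := fun h => hjj (Fin.ext h)
            omega
          refine (𝔖 j).tm_frozen_sub (hOk j) _ (hFr j hjn) le_rfl hBc1 _ fun z hz => ?_
          exact ⟨Finset.map_subset_map.2 hsub hz, Finset.mem_univ _⟩
  obtain ⟨Y, S, r, hne, hcard, hF⟩ := main m le_rfl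
  exact ⟨Y, S, r, hne, hcard.trans (mul_le_mul_of_nonneg_right (pow_le_pow_right₀ hB1 (by omega)) (Nat.cast_nonneg _)),
    fun j => hF j j.isLt⟩

end

end Claimed.Agent.R257.FR2
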