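import Mathlib

/-!
# ROW 257, package FR2, unit PATH (H `frame.tex` l.756-970), file 1: THE FORWARD RECURSION ON A LAYERED GRAPH      (architect + prover helper125)

Paper-free, Mathlib only, NO sorry.   `C i` = finite set of vertices of height `i`, `v i T ≥ 0` vertex weights, `E i T' T ≥ 0` edge weights (`T'` of height `i`, `T` of height `i + 1`).
`fw v E n T` = total weight `∑ ∏ v · ∏ E` of all paths `(T_0, …, T_n = T)`, defined by the forward recursion: NO path type is needed anywhere in unit PATH.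
* `fw_up`    supersolutions `u` of the backward recursion:  `∑_T fw (j+d) T · u (j+d) T ≤ c^d ∑_T fw j T · u j T`      (positive convolution, `p:convolution`)
* `fw_le`    supersolutions `B` of the forward recursion:   `fw n T ≤ B n T`      (domination by the reference squares)
* `fw_supp`  propagation of a property along the paths of nonzero weight      (cap ancestry, masks, nearness)
* `fw_tag`   additivity in the leaf weights      (sum over the direction labels)
* `fw_far`   paths with a far vertex have small weight if every long edge gains `δ`      (l.866-878)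
-/

set_option autoImplicit false

namespace Claimed.Agent.R257.FR2

open scoped BigOperators Classical

noncomputable section

variable {C : ℕ → Type} [∀ i, Fintype (C i)]

/-- total weight of the paths ending at `T` -/
def fw (v : ∀ i, C i → ℝ) (E : ∀ i, C i → C (i + 1) → ℝ) : ∀ n, C n → ℝ
  | 0, T => v 0 T
  | n + 1, T => (∑ T', fw v E n T' * E n T' T) * v (n + 1) T

theorem fw_zero (v : ∀ i, C i → ℝ) (E : ∀ i, C i → C (i + 1) → ℝ) (T : C 0) : fw v E 0 T = v 0 T := rfl

theorem fw_succ (v : ∀ i, C i → ℝ) (E : ∀ i, C i → C (i + 1) → ℝ) (n : ℕ) (T : C (n + 1)) :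
    fw v E (n + 1) T = (∑ T', fw v E n T' * E n T' T) * v (n + 1) T := rfl

theorem fw_nonneg {v : ∀ i, C i → ℝ} {E : ∀ i, C i → C (i + 1) → ℝ} (hv : ∀ i T, 0 ≤ v i T)
    (hE : ∀ i T' T, 0 ≤ E i T' T) : ∀ n (T : C n), 0 ≤ fw v E n T
  | 0, T => hv 0 T
  | n + 1, T => mul_nonneg (Finset.sum_nonneg fun T' _ => mul_nonneg (fw_nonneg hv hE n T') (hE _ _ _)) (hv _ _)

theorem fw_mono {v v' : ∀ i, C i → ℝ} {E E' : ∀ i, C i → C (i + 1) → ℝ} (hv : ∀ i T, 0 ≤ v i T)
    (hE : ∀ i T' T, 0 ≤ E i T' T) (hvv : ∀ i T, v i T ≤ v' i T) (hEE : ∀ i T' T, E i T' T ≤ E' i T' T) :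
    ∀ n (T : C n), fw v E n T ≤ fw v' E' n T
  | 0, T => hvv 0 T
  | n + 1, T => by
      rw [fw_succ, fw_succ]
      have hv' : ∀ i T, 0 ≤ v' i T := fun i T => (hv i T).trans (hvv i T)
      have hE' : ∀ i T' T, 0 ≤ E' i T' T := fun i T' T => (hE i T' T).trans (hEE i T' T)
      refine mul_le_mul ?_ (hvv _ _) (hv _ _)
        (Finset.sum_nonneg fun T' _ => mul_nonneg (fw_nonneg hv' hE' n T') (hE' _ _ _))
      exact Finset.sum_le_sum fun T' _ =>
        mul_le_mul (fw_mono hv hE hvv hEE n T') (hEE _ _ _) (hE _ _ _) (fw_nonneg hv' hE' n T')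

/-- **supersolutions of the backward recursion** -/
theorem fw_up {v : ∀ i, C i → ℝ} {E : ∀ i, C i → C (i + 1) → ℝ} (hv : ∀ i T, 0 ≤ v i T)
    (hE : ∀ i T' T, 0 ≤ E i T' T) (u : ∀ i, C i → ℝ) {c : ℝ} (hc : 0 ≤ c) (j d : ℕ)
    (hu : ∀ i, j ≤ i → i < j + d → ∀ T', ∑ T, E i T' T * v (i + 1) T * u (i + 1) T ≤ c * u i T') :
    ∑ T, fw v E (j + d) T * u (j + d) T ≤ c ^ d * ∑ T, fw v E j T * u j T := by
  induction d with
  | zero => simp
  | succ d ih =>
    have ih' := ih fun i h1 h2 => hu i h1 (by omega)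
    calc ∑ T : C (j + d + 1), fw v E (j + d + 1) T * u (j + d + 1) T
        = ∑ T' : C (j + d), fw v E (j + d) T' * ∑ T, E (j + d) T' T * v (j + d + 1) T * u (j + d + 1) T := by
          simp only [fw_succ, Finset.sum_mul, Finset.mul_sum]
          rw [Finset.sum_comm]
          refine Finset.sum_congr rfl fun T' _ => Finset.sum_congr rfl fun T _ => ?_
          ring
      _ ≤ ∑ T' : C (j + d), fw v E (j + d) T' * (c * u (j + d) T') :=
          Finset.sum_le_sum fun T' _ =>
            mul_le_mul_of_nonneg_left (hu (j + d) (by omega) (by omega) T') (fw_nonneg hv hE _ _)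
      _ = c * ∑ T' : C (j + d), fw v E (j + d) T' * u (j + d) T' := by
          rw [Finset.mul_sum]
          refine Finset.sum_congr rfl fun T' _ => ?_
          ring
      _ ≤ c * (c ^ d * ∑ T, fw v E j T * u j T) := mul_le_mul_of_nonneg_left ih' hc
      _ = _ := by ring

/-- **supersolutions of the forward recursion** (up to height `N`) -/
theorem fw_le {v : ∀ i, C i → ℝ} {E : ∀ i, C i → C (i + 1) → ℝ} (hv : ∀ i T, 0 ≤ v i T)
    (hE : ∀ i T' T, 0 ≤ E i T' T) (B : ∀ i, C i → ℝ) (N : ℕ) (h0 : ∀ T, v 0 T ≤ B 0 T)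
    (hB : ∀ i, i < N → ∀ T, (∑ T', B i T' * E i T' T) * v (i + 1) T ≤ B (i + 1) T) :
    ∀ n, n ≤ N → ∀ T : C n, fw v E n T ≤ B n T
  | 0, _, T => h0 T
  | n + 1, hn, T => by
      rw [fw_succ]
      refine le_trans (mul_le_mul_of_nonneg_right ?_ (hv _ _)) (hB n (by omega) T)
      exact Finset.sum_le_sum fun T' _ =>
        mul_le_mul_of_nonneg_right (fw_le hv hE B N h0 hB n (by omega) T') (hE _ _ _)

/-- **propagation of a property along the paths of nonzero weight** -/
theorem fw_supp {v : ∀ i, C i → ℝ} {E : ∀ i, C i → C (i + 1) → ℝ} (Q : ∀ i, C i → Prop) (N : ℕ)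
    (h0 : ∀ T, v 0 T ≠ 0 → Q 0 T)
    (hQ : ∀ i, i < N → ∀ T' T, Q i T' → E i T' T ≠ 0 → v (i + 1) T ≠ 0 → Q (i + 1) T) :
    ∀ n, n ≤ N → ∀ T : C n, fw v E n T ≠ 0 → Q n T
  | 0, _, T => h0 T
  | n + 1, hn, T => by
      intro h
      rw [fw_succ] at h
      have h1 : ∑ T', fw v E n T' * E n T' T ≠ 0 := left_ne_zero_of_mul h
      have h2 : v (n + 1) T ≠ 0 := right_ne_zero_of_mul h
      obtain ⟨T', -, hT'⟩ := Finset.exists_ne_zero_of_sum_ne_zero h1
      exact hQ n (by omega) T' T (fw_supp Q N h0 hQ n (by omega) T' (left_ne_zero_of_mul hT'))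
        (right_ne_zero_of_mul hT') h2

/-- the vertex weight is a factor -/
theorem fw_vertex {v : ∀ i, C i → ℝ} {E : ∀ i, C i → C (i + 1) → ℝ} :
    ∀ n (T : C n), fw v E n T ≠ 0 → v n T ≠ 0
  | 0, _ => id
  | _ + 1, _ => fun h => right_ne_zero_of_mul h

/-- **additivity in the leaf weights**: `v ω` = vertex weights which depend on the tag `ω` only at height `0` -/
theorem fw_tag {ι : Type} (s : Finset ι) (v : ι → ∀ i, C i → ℝ) (v₀ : ∀ i, C i → ℝ)
    (E : ∀ i, C i → C (i + 1) → ℝ) (h0 : ∀ T, v₀ 0 T = ∑ ω ∈ s, v ω 0 T)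
    (hs : ∀ ω ∈ s, ∀ i T, v ω (i + 1) T = v₀ (i + 1) T) :
    ∀ n (T : C n), ∑ ω ∈ s, fw (v ω) E n T = fw v₀ E n T
  | 0, T => (h0 T).symm
  | n + 1, T => by
      have ih := fw_tag s v v₀ E h0 hs n
      have h1 : ∀ ω ∈ s, fw (v ω) E (n + 1) T = (∑ T', fw (v ω) E n T' * E n T' T) * v₀ (n + 1) T :=
        fun ω hω => by rw [fw_succ, hs ω hω]
      rw [Finset.sum_congr rfl h1, ← Finset.sum_mul, fw_succ, Finset.sum_comm]
      congr 1
      refine Finset.sum_congr rfl fun T' _ => ?_
      rw [← Finset.sum_mul, ih T']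

/-- **far paths, vertex form.**  `Nr i T` = "`T` is near";  `E ≤ Eb`, and an edge from a far vertex to a near vertex gains `δ`: `E ≤ δ Eb`;  `B` = forward supersolution for `(v, Eb)`.
At a near vertex the paths with some far vertex weigh at most `n δ B n T`. -/
theorem fw_far {v : ∀ i, C i → ℝ} {E Eb : ∀ i, C i → C (i + 1) → ℝ} (hv : ∀ i T, 0 ≤ v i T)
    (hE : ∀ i T' T, 0 ≤ E i T' T) (hEE : ∀ i T' T, E i T' T ≤ Eb i T' T) (Nr : ∀ i, C i → Prop)
    (B : ∀ i, C i → ℝ) (hB0 : ∀ i T, 0 ≤ B i T) (N : ℕ) (h0 : ∀ T, v 0 T ≤ B 0 T)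
    (hB : ∀ i, i < N → ∀ T, (∑ T', B i T' * Eb i T' T) * v (i + 1) T ≤ B (i + 1) T) {δ : ℝ} (hδ : 0 ≤ δ)
    (hlong : ∀ i, i < N → ∀ T' T, Nr (i + 1) T → ¬ Nr i T' → E i T' T ≤ δ * Eb i T' T) :
    ∀ n, n ≤ N → ∀ T : C n, Nr n T →
      fw v E n T ≤ fw (fun i T => if Nr i T then v i T else 0) E n T + n * δ * B n T
  | 0, _, T => fun hT => by simp [fw_zero, hT]
  | n + 1, hn, T => fun hT => by
      have ih := fw_far hv hE hEE Nr B hB0 N h0 hB hδ hlong n (by omega)
      have hEb : ∀ i T' T, 0 ≤ Eb i T' T := fun i T' T => (hE i T' T).trans (hEE i T' T)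
      have hle : ∀ T' : C n, fw v E n T' ≤ B n T' := fun T' =>
        fw_le hv hE B N h0 (fun i hi T => le_trans (mul_le_mul_of_nonneg_right
          (Finset.sum_le_sum fun T' _ => mul_le_mul_of_nonneg_left (hEE _ _ _) (hB0 _ _)) (hv _ _)) (hB i hi T))
          n (by omega) T'
      rw [fw_succ, fw_succ, if_pos hT]
      have key : ∑ T', fw v E n T' * E n T' T ≤
          ∑ T', fw (fun i T => if Nr i T then v i T else 0) E n T' * E n T' T
            + ((n : ℝ) + 1) * δ * ∑ T', B n T' * Eb n T' T := by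
        rw [Finset.mul_sum, ← Finset.sum_add_distrib]
        refine Finset.sum_le_sum fun T' _ => ?_
        have hb := mul_nonneg (hB0 n T') (hEb n T' T)
        by_cases hT' : Nr n T'
        · have h1 := ih T' hT'
          calc fw v E n T' * E n T' T
              ≤ (fw (fun i T => if Nr i T then v i T else 0) E n T' + n * δ * B n T') * E n T' T :=
                mul_le_mul_of_nonneg_right h1 (hE _ _ _)
            _ = fw (fun i T => if Nr i T then v i T else 0) E n T' * E n T' T + n * δ * (B n T' * E n T' T) := by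
                ring
            _ ≤ fw (fun i T => if Nr i T then v i T else 0) E n T' * E n T' T
                  + n * δ * (B n T' * Eb n T' T) := by
                have := mul_le_mul_of_nonneg_left (hEE n T' T) (hB0 n T')
                have hnd : 0 ≤ (n : ℝ) * δ := by positivity
                have := mul_le_mul_of_nonneg_left this hnd
                linarith
            _ ≤ _ := by nlinarith
        · have h1 : fw (fun i T => if Nr i T then v i T else 0) E n T' = 0 := by
            by_contra hne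
            have := fw_vertex n T' hne
            simp [hT'] at this
          rw [h1, zero_mul, zero_add]
          calc fw v E n T' * E n T' T ≤ B n T' * (δ * Eb n T' T) :=
                mul_le_mul (hle T') (hlong n (by omega) T' T hT hT') (hE _ _ _) (hB0 _ _)
            _ = δ * (B n T' * Eb n T' T) := by ring
            _ ≤ _ := by
                have : 0 ≤ (n : ℝ) * δ * (B n T' * Eb n T' T) := by positivity
                nlinarith
      calc (∑ T', fw v E n T' * E n T' T) * v (n + 1) T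
          ≤ (∑ T', fw (fun i T => if Nr i T then v i T else 0) E n T' * E n T' T
            + ((n : ℝ) + 1) * δ * ∑ T', B n T' * Eb n T' T) * v (n + 1) T :=
            mul_le_mul_of_nonneg_right key (hv _ _)
        _ = (∑ T', fw (fun i T => if Nr i T then v i T else 0) E n T' * E n T' T) * v (n + 1) T
            + ((n : ℝ) + 1) * δ * ((∑ T', B n T' * Eb n T' T) * v (n + 1) T) := by ring
        _ ≤ _ := by
            have h2 := hB n (by omega) T
            have hnd : 0 ≤ ((n : ℝ) + 1) * δ := by positivity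
            have := mul_le_mul_of_nonneg_left h2 hnd
            push_cast
            linarith

/-- **far paths, summed against a terminal kernel** `u ≥ 0` with `u ≤ δ ub` at the far vertices. -/
theorem fw_far_sum {v : ∀ i, C i → ℝ} {E Eb : ∀ i, C i → C (i + 1) → ℝ} (hv : ∀ i T, 0 ≤ v i T)
    (hE : ∀ i T' T, 0 ≤ E i T' T) (hEE : ∀ i T' T, E i T' T ≤ Eb i T' T) (Nr : ∀ i, C i → Prop)
    (B : ∀ i, C i → ℝ) (hB0 : ∀ i T, 0 ≤ B i T) (N : ℕ) (h0 : ∀ T, v 0 T ≤ B 0 T)
    (hB : ∀ i, i < N → ∀ T, (∑ T', B i T' * Eb i T' T) * v (i + 1) T ≤ B (i + 1) T) {δ : ℝ} (hδ : 0 ≤ δ)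
    (hlong : ∀ i, i < N → ∀ T' T, Nr (i + 1) T → ¬ Nr i T' → E i T' T ≤ δ * Eb i T' T)
    (u ub : C N → ℝ) (hu : ∀ T, 0 ≤ u T) (hub : ∀ T, ¬ Nr N T → u T ≤ δ * ub T) (hub0 : ∀ T, 0 ≤ ub T) :
    ∑ T, fw v E N T * u T ≤ ∑ T, fw (fun i T => if Nr i T then v i T else 0) E N T * u T
      + N * δ * ∑ T, B N T * u T + δ * ∑ T, B N T * ub T := by
  rw [Finset.mul_sum, Finset.mul_sum, ← Finset.sum_add_distrib, ← Finset.sum_add_distrib]
  refine Finset.sum_le_sum fun T _ => ?_
  have hle : fw v E N T ≤ B N T :=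
    fw_le hv hE B N h0 (fun i hi T => le_trans (mul_le_mul_of_nonneg_right
      (Finset.sum_le_sum fun T' _ => mul_le_mul_of_nonneg_left (hEE _ _ _) (hB0 _ _)) (hv _ _)) (hB i hi T))
      N le_rfl T
  have hvN : ∀ i (T : C i), 0 ≤ (if Nr i T then v i T else 0) := fun i T => by
    split_ifs
    exacts [hv i T, le_rfl]
  have p1 := mul_nonneg (fw_nonneg hvN hE N T) (hu T)
  have p2 : 0 ≤ (N : ℝ) * δ * (B N T * u T) := by
    have := hB0 N T
    have := hu T
    positivity
  have p3 : 0 ≤ δ * (B N T * ub T) := by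
    have := hB0 N T
    have := hub0 T
    positivity
  by_cases hT : Nr N T
  · have h1 := fw_far hv hE hEE Nr B hB0 N h0 hB hδ hlong N le_rfl T hT
    have := mul_le_mul_of_nonneg_right h1 (hu T)
    nlinarith
  · have h1 := mul_le_mul hle (hub T hT) (hu T) (hB0 N T)
    nlinarith

end

end Claimed.Agent.R257.FR2
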