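import Claimed.Agent.R255.Ent.Basic

/-!
# Row 257, package FR2, unit U7: ABSTRACT FINITE PROBABILITY behind `f:paths`, `f:conditioning` (H frame.tex l.833-1006)      (architect + prover helper125)

PAPER-FREE.  Language = `R255/Base/Law.lean` (`FLaw Ω`, observations = arbitrary functions, `P.fib X ω` = mass of the fibre of `X` through `ω`, `pair X Y`), API = `R255/Ent/Basic.lean` (import only, frozen).
"Typical" = off an event of explicit small probability; all losses are explicit real numbers (`K` = accumulated comparability constant = `Λ^{o(1)}`, `t = Λ^ε`).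

* `fp_exc`      **P1, exceptional mass (master lemma).**  `ρ b a ≥ 0`, `∑_a ρ b a ≤ K`:  `P( P(X | Y) < ε ρ(Y, X) ) ≤ ε K`.      (lower half of `f:cap-law`, l.893-899)
* `fp_exc0`     the same without conditioning.
* `fp_more`     `E [p / p'] ≤ 1`: further conditioning does not lower a sampled conditional probability by more than `t` off probability `1/t`      (l.997-1003)
* `fp_nbr`      **P4, neighbour cells**: the total probability of cells `ε`-smaller than one of their neighbours is `≤ ε m`      (l.964-968)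
* `fp_cap`      `f:cap-law`, both halves, from path domination      (l.885-899)
* `fp_occ`      **P2, fibre / occupancy lemma** = `f:occupancy-law` from the dominations (D1), (D2), (D3)      (l.901-963)
* `fp_cond`     **P3, conditioning lemma** = `f:conditioning`      (l.972-1006)
-/

set_option autoImplicit false

namespace Claimed.Agent.R257

open scoped BigOperators
open Classical
open Claimed.Agent.R255 Claimed.Agent.R255.FLaw

variable {Ω : Type} [Fintype Ω] {α β γ δ : Type}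

/-- `E [ g(X) / P(X) ] ≤ ∑ g` -/
theorem fp_ev_div_fib (P : FLaw Ω) (X : Ω → α) (g : α → ℝ) (hg : ∀ a, 0 ≤ g a) {K : ℝ}
    (hK : ∀ S : Finset α, ∑ a ∈ S, g a ≤ K) : P.ev (fun ω => g (X ω) / P.fib X ω) ≤ K := by
  have h := ent_ev_comp P X (Finset.univ.image X) (fun ω _ => Finset.mem_image_of_mem X (Finset.mem_univ ω))
    (fun x => g x / P.pr (fun ω' => X ω' = x))
  have h' : P.ev (fun ω => g (X ω) / P.fib X ω) =
      ∑ x ∈ Finset.univ.image X, P.pr (fun ω => X ω = x) * (g x / P.pr (fun ω' => X ω' = x)) := h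
  rw [h']
  refine le_trans (Finset.sum_le_sum fun x _ => ?_) (hK (Finset.univ.image X))
  by_cases h0 : P.pr (fun ω => X ω = x) = 0
  · rw [h0, zero_mul]; exact hg x
  · rw [mul_div_cancel₀ _ h0]

/-- **P1 without conditioning.** -/
theorem fp_exc0 (P : FLaw Ω) (X : Ω → α) (ρ : α → ℝ) (hρ : ∀ a, 0 ≤ ρ a) {K : ℝ}
    (hK : ∀ S : Finset α, ∑ a ∈ S, ρ a ≤ K) {ε : ℝ} (hε : 0 ≤ ε) :
    P.pr (fun ω => P.fib X ω < ε * ρ (X ω)) ≤ ε * K := by
  have h1 := fp_ev_div_fib P X (fun a => ε * ρ a) (fun a => mul_nonneg hε (hρ a)) (K := ε * K)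
    (fun S => by rw [← Finset.mul_sum]; exact mul_le_mul_of_nonneg_left (hK S) hε)
  have h2 := ent_markov P (f := fun ω => ε * ρ (X ω) / P.fib X ω)
    (fun ω _ => div_nonneg (mul_nonneg hε (hρ _)) (ent_fib_nonneg P _ _)) (t := 1) one_pos
  rw [div_one] at h2
  refine le_trans (ent_pr_mono P fun ω hω hb => ?_) (h2.trans h1)
  rw [le_div_iff₀ (ent_fib_pos P X hω), one_mul]
  exact hb.le

/-- **P1, exceptional mass.**  `P( P(X, Y) < ε ρ(Y, X) P(Y) ) ≤ ε K` if `∑_a ρ b a ≤ K` for all `b`. -/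
theorem fp_exc (P : FLaw Ω) (X : Ω → α) (Y : Ω → β) (ρ : β → α → ℝ) (hρ : ∀ b a, 0 ≤ ρ b a) {K : ℝ}
    (hK : ∀ b, ∀ S : Finset α, ∑ a ∈ S, ρ b a ≤ K) {ε : ℝ} (hε : 0 ≤ ε) :
    P.pr (fun ω => P.fib (pair X Y) ω < ε * ρ (Y ω) (X ω) * P.fib Y ω) ≤ ε * K := by
  by_cases hne : Nonempty β
  swap
  · refine le_trans (le_of_eq (ent_pr_eq_zero P fun ω _ => ?_)) ?_
    · exact fun _ => hne ⟨Y ω⟩
    · exact absurd ⟨Y (ent_exists_supp P).choose⟩ hne
  obtain ⟨b0⟩ := hne
  have hK0 : 0 ≤ K := by simpa using hK b0 ∅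
  have h := fp_exc0 P (pair X Y) (fun v => ρ v.2 v.1 * P.pr (fun ω => Y ω = v.2))
    (fun v => mul_nonneg (hρ _ _) (ent_pr_nonneg P _)) (K := K) ?_ hε
  · refine le_trans (ent_pr_mono P fun ω _ hb => ?_) h
    have : P.fib Y ω = P.pr (fun ω' => Y ω' = Y ω) := rfl
    simp only [pair]
    rw [← this, ← mul_assoc]
    exact hb
  · intro S
    calc ∑ v ∈ S, ρ v.2 v.1 * P.pr (fun ω => Y ω = v.2)
        ≤ ∑ v ∈ (S.image Prod.fst) ×ˢ (S.image Prod.snd), ρ v.2 v.1 * P.pr (fun ω => Y ω = v.2) := by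
          refine Finset.sum_le_sum_of_subset_of_nonneg ?_ fun v _ _ => mul_nonneg (hρ _ _) (ent_pr_nonneg P _)
          intro v hv
          exact Finset.mem_product.2 ⟨Finset.mem_image_of_mem _ hv, Finset.mem_image_of_mem _ hv⟩
      _ = ∑ b ∈ S.image Prod.snd, (∑ a ∈ S.image Prod.fst, ρ b a) * P.pr (fun ω => Y ω = b) := by
          rw [Finset.sum_product_right]
          refine Finset.sum_congr rfl fun b _ => ?_
          rw [Finset.sum_mul]
      _ ≤ ∑ b ∈ S.image Prod.snd, K * P.pr (fun ω => Y ω = b) :=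
          Finset.sum_le_sum fun b _ => mul_le_mul_of_nonneg_right (hK b _) (ent_pr_nonneg P _)
      _ = K * ∑ b ∈ S.image Prod.snd, P.pr (fun ω => Y ω = b) := by rw [Finset.mul_sum]
      _ ≤ K * 1 := mul_le_mul_of_nonneg_left (ent_aux_sum_pr_le P Y _) hK0
      _ = K := mul_one K

/-- disjoint parts of an event -/
theorem fp_sum_pr_and_le (P : FLaw Ω) (X : Ω → α) (E : Ω → Prop) (S : Finset α) :
    ∑ a ∈ S, P.pr (fun ω => X ω = a ∧ E ω) ≤ P.pr E := by
  unfold FLaw.pr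
  rw [Finset.sum_comm]
  refine Finset.sum_le_sum fun ω _ => ?_
  by_cases hE : E ω
  · simp only [hE, and_true, if_true]
    rw [Finset.sum_ite_eq]
    split_ifs
    exacts [le_rfl, P.nonneg ω]
  · simp [hE]

theorem fp_fib_pair_comm (P : FLaw Ω) (X : Ω → α) (Y : Ω → β) (ω : Ω) :
    P.fib (pair X Y) ω = P.fib (pair Y X) ω := by
  rw [ent_fib_pair, ent_fib_pair]
  exact ent_pr_congr P fun ω' _ => and_comm

theorem fp_fib_pair_assoc (P : FLaw Ω) (X : Ω → α) (Y : Ω → β) (Z : Ω → γ) (ω : Ω) :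
    P.fib (pair X (pair Y Z)) ω = P.fib (pair Z (pair X Y)) ω := by
  rw [ent_fib_pair, ent_fib_pair]
  refine ent_pr_congr P fun ω' _ => ?_
  simp only [FLaw.pair, Prod.mk.injEq]
  tauto

/-- **`E [p / p'] ≤ 1`.**  Off probability `1/t` the extra conditioning on `Θ` does not lower the sampled conditional probability of `A` given `C` by more than the factor `t`. -/
theorem fp_more (P : FLaw Ω) (A : Ω → α) (C : Ω → γ) (Θ : Ω → δ) {t : ℝ} (ht : 0 < t) :
    P.pr (fun ω => t * (P.fib (pair A (pair C Θ)) ω / P.fib (pair C Θ) ω) < P.fib (pair A C) ω / P.fib C ω)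
      ≤ 1 / t := by
  have h := fp_exc P A (pair C Θ)
    (fun v a => P.pr (fun ω => A ω = a ∧ C ω = v.1) / P.pr (fun ω => C ω = v.1))
    (fun v a => div_nonneg (ent_pr_nonneg P _) (ent_pr_nonneg P _)) (K := 1) ?_ (ε := 1 / t) (by positivity)
  · rw [mul_one] at h
    refine le_trans (ent_pr_mono P fun ω hω hb => ?_) h
    have h1 : P.fib (pair A C) ω = P.pr (fun ω' => A ω' = A ω ∧ C ω' = C ω) := ent_fib_pair P A C ω
    have h2 : P.fib C ω = P.pr (fun ω' => C ω' = C ω) := rfl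
    have hpos := ent_fib_pos P (pair C Θ) hω
    simp only [FLaw.pair] at *
    rw [← h1, ← h2]
    rw [← mul_div_assoc, div_lt_iff₀ hpos] at hb
    rw [div_mul_eq_mul_div, one_mul, div_mul_eq_mul_div, lt_div_iff₀ ht, mul_comm]
    exact hb
  · intro v S
    rw [← Finset.sum_div]
    refine div_le_one_of_le₀ (fp_sum_pr_and_le P A _ S) (ent_pr_nonneg P _)

/-- **P4, neighbour cells.**  `nb a` = finite set of neighbours of the cell `a`; every cell is a neighbour of at most `m` cells.  The total probability of cells which are `ε`-smaller than one of their neighbours is `≤ ε m`. -/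
theorem fp_nbr (P : FLaw Ω) (X : Ω → α) (nb : α → Finset α) {m : ℝ}
    (hm : ∀ a', ∀ S : Finset α, (∀ a ∈ S, a' ∈ nb a) → (S.card : ℝ) ≤ m) {ε : ℝ} (hε : 0 ≤ ε) :
    P.pr (fun ω => ∃ a' ∈ nb (X ω), P.fib X ω < ε * P.pr (fun ω' => X ω' = a')) ≤ ε * m := by
  have h := fp_exc0 P X (fun a => ∑ a' ∈ nb a, P.pr (fun ω' => X ω' = a'))
    (fun a => Finset.sum_nonneg fun _ _ => ent_pr_nonneg P _) (K := m) ?_ hε
  · refine le_trans (ent_pr_mono P fun ω _ hb => ?_) h
    obtain ⟨a', ha', hlt⟩ := hb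
    refine lt_of_lt_of_le hlt (mul_le_mul_of_nonneg_left ?_ hε)
    exact Finset.single_le_sum (f := fun a' => P.pr (fun ω' => X ω' = a')) (fun _ _ => ent_pr_nonneg P _) ha'
  · intro S
    have hm0 : 0 ≤ m := by
      by_cases hne : Nonempty α
      · obtain ⟨a0⟩ := hne
        simpa using hm a0 ∅ (by simp)
      · exact absurd ⟨X (ent_exists_supp P).choose⟩ hne
    calc ∑ a ∈ S, ∑ a' ∈ nb a, P.pr (fun ω' => X ω' = a')
        = ∑ a ∈ S, ∑ a' ∈ S.biUnion nb, if a' ∈ nb a then P.pr (fun ω' => X ω' = a') else 0 := by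
          refine Finset.sum_congr rfl fun a ha => ?_
          rw [← Finset.sum_filter]
          refine Finset.sum_congr ?_ fun _ _ => rfl
          ext a'
          simp only [Finset.mem_filter, Finset.mem_biUnion]
          exact ⟨fun h => ⟨⟨a, ha, h⟩, h⟩, fun h => h.2⟩
      _ = ∑ a' ∈ S.biUnion nb, ((S.filter fun a => a' ∈ nb a).card : ℝ) * P.pr (fun ω' => X ω' = a') := by
          rw [Finset.sum_comm]
          refine Finset.sum_congr rfl fun a' _ => ?_
          rw [← Finset.sum_filter, Finset.sum_const, nsmul_eq_mul]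
      _ ≤ ∑ a' ∈ S.biUnion nb, m * P.pr (fun ω' => X ω' = a') := by
          refine Finset.sum_le_sum fun a' _ => mul_le_mul_of_nonneg_right ?_ (ent_pr_nonneg P _)
          exact hm a' _ fun a ha => (Finset.mem_filter.1 ha).2
      _ = m * ∑ a' ∈ S.biUnion nb, P.pr (fun ω' => X ω' = a') := by rw [Finset.mul_sum]
      _ ≤ m * 1 := mul_le_mul_of_nonneg_left (ent_aux_sum_pr_le P X _) hm0
      _ = m := mul_one m

/-- **Hypotheses (D1), (D2), (D3) of the occupancy lemma.**  `Z` root point (uniform on `N` points), `Om` fine direction, `T` the cell of `Z` in the lattice tilted by `Om`;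
`a o z` = available leaf square weight, `aC o c` = reference charge of the fibre `(o, c)`, `M` = occupancy size, `K` = accumulated comparability loss. -/
structure FpOcc {ζ o : Type} (P : FLaw Ω) (Z : Ω → ζ) (Om : Ω → o) (T : Ω → γ) (N M K : ℝ) (a : o → ζ → ℝ)
    (aC : o → γ → ℝ) : Prop where
  Npos : 0 < N
  Mpos : 0 < M
  Kpos : 0 < K
  unif : ∀ ω, P.p ω ≠ 0 → P.fib Z ω = 1 / N
  a_nonneg : ∀ x z, 0 ≤ a x z
  aC_nonneg : ∀ x c, 0 ≤ aC x c
  /-- (D1) path domination by the leaf background -/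
  d1 : ∀ ω, P.p ω ≠ 0 → P.fib (pair Z Om) ω ≤ K * a (Om ω) (Z ω) * P.fib Z ω
  d1sum : ∀ z, ∀ S : Finset o, ∑ x ∈ S, a x z ≤ K
  /-- the leaf background varies by `K` within a tilted cell -/
  d1cmp : ∀ ω ω', P.p ω ≠ 0 → P.p ω' ≠ 0 → Om ω' = Om ω → T ω' = T ω → a (Om ω) (Z ω') ≤ K * a (Om ω) (Z ω)
  /-- (D2) domination by the reference charge -/
  d2 : ∀ ω, P.p ω ≠ 0 → P.fib (pair Z Om) ω ≤ K * aC (Om ω) (T ω) * P.fib Z ω
  d2sum : ∀ S : Finset (o × γ), ∑ v ∈ S, aC v.1 v.2 ≤ K * N / M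
  /-- (D3) occupancy deletion -/
  d3 : P.NVal (fun _ => True) Z (pair T Om) (K * M)

/-- **P2, the fibre / occupancy lemma** (`f:occupancy-law`): off probability `2K/t`,
`M / (K t) ≤ P(T | Om) / P(Z | Om) ≤ K³ t M`. -/
theorem fp_occ {ζ o : Type} (P : FLaw Ω) (Z : Ω → ζ) (Om : Ω → o) (T : Ω → γ) (N M K : ℝ) (a : o → ζ → ℝ)
    (aC : o → γ → ℝ) (h : FpOcc P Z Om T N M K a aC) {t : ℝ} (ht : 0 < t) :
    P.pr (fun ω => ¬ (M / (K * t) * P.fib (pair Z Om) ω ≤ P.fib (pair T Om) ω ∧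
      P.fib (pair T Om) ω ≤ K ^ 3 * t * M * P.fib (pair Z Om) ω)) ≤ 2 * K / t := by
  obtain ⟨hN, hM, hK⟩ := And.intro h.Npos (And.intro h.Mpos h.Kpos)
  have b1 := fp_exc P Om Z (fun z x => a x z) (fun z x => h.a_nonneg x z) h.d1sum (ε := 1 / t) (by positivity)
  have b2 := fp_exc0 P (pair Om T) (fun v => aC v.1 v.2) (fun v => h.aC_nonneg _ _) h.d2sum
    (ε := M / (N * t)) (by positivity)
  have hsum : 2 * K / t = 1 / t * K + M / (N * t) * (K * N / M) := by
    field_simp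
    ring
  rw [hsum]
  refine le_trans (ent_pr_mono P fun ω hω hb => ?_) ((ent_pr_or_le P _ _).trans (add_le_add b1 b2))
  by_contra hcon
  rw [not_or, not_lt, not_lt] at hcon
  obtain ⟨g1, g2⟩ := hcon
  apply hb
  have hZ := h.unif ω hω
  rw [fp_fib_pair_comm P Om Z] at g1
  rw [fp_fib_pair_comm P Om T] at g2
  simp only [FLaw.pair] at g2
  constructor
  · -- lower bound
    have h2 := h.d2 ω hω
    rw [hZ] at h2
    calc M / (K * t) * P.fib (pair Z Om) ω ≤ M / (K * t) * (K * aC (Om ω) (T ω) * (1 / N)) := by gcongr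
      _ = M / (N * t) * aC (Om ω) (T ω) := by field_simp
      _ ≤ _ := g2
  · -- upper bound
    obtain ⟨S, hS, hSmem⟩ := h.d3 ω
    have e1 : P.fib (pair T Om) ω = ∑ z ∈ S, P.pr (fun ω' => pair T Om ω' = pair T Om ω ∧ Z ω' = z) :=
      ent_pr_sum_values P _ Z S fun ω' hω' hE => hSmem ω' hω' trivial hE
    have hterm : ∀ z ∈ S, P.pr (fun ω' => pair T Om ω' = pair T Om ω ∧ Z ω' = z) ≤
        K ^ 2 * t * P.fib (pair Z Om) ω := by
      intro z _
      by_cases hex : ∃ ω', P.p ω' ≠ 0 ∧ pair T Om ω' = pair T Om ω ∧ Z ω' = z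
      · obtain ⟨ω', hω', hE, hz⟩ := hex
        have hT : T ω' = T ω := congrArg Prod.fst hE
        have hO : Om ω' = Om ω := congrArg Prod.snd hE
        have s1 : P.pr (fun ω'' => pair T Om ω'' = pair T Om ω ∧ Z ω'' = z) ≤ P.fib (pair Z Om) ω' := by
          rw [ent_fib_pair]
          refine ent_pr_mono P fun ω'' _ hh => ⟨hh.2.trans hz.symm, ?_⟩
          exact (congrArg Prod.snd hh.1).trans hO.symm
        have s2 := h.d1 ω' hω'
        rw [h.unif ω' hω', hO] at s2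
        have s3 := h.d1cmp ω ω' hω hω' hO hT
        rw [hZ] at g1
        calc _ ≤ K * a (Om ω) (Z ω') * (1 / N) := s1.trans s2
          _ ≤ K * (K * a (Om ω) (Z ω)) * (1 / N) := by gcongr
          _ = K ^ 2 * t * (1 / t * a (Om ω) (Z ω) * (1 / N)) := by field_simp
          _ ≤ _ := by gcongr
      · rw [ent_pr_eq_zero P fun ω' hω' hh => hex ⟨ω', hω', hh⟩]
        have := ent_fib_nonneg P (pair Z Om) ω
        positivity
    rw [e1]
    calc ∑ z ∈ S, P.pr (fun ω' => pair T Om ω' = pair T Om ω ∧ Z ω' = z)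
        ≤ ∑ _z ∈ S, K ^ 2 * t * P.fib (pair Z Om) ω := Finset.sum_le_sum hterm
      _ = (S.card : ℝ) * (K ^ 2 * t * P.fib (pair Z Om) ω) := by rw [Finset.sum_const, nsmul_eq_mul]
      _ ≤ K * M * (K ^ 2 * t * P.fib (pair Z Om) ω) := by
          have := ent_fib_nonneg P (pair Z Om) ω
          gcongr
      _ = _ := by ring

/-- **P3, the conditioning lemma** (`f:conditioning`).  `A` = position label inside the cell `C` (put the cap `τ_l` and every other conditioning into `C`), `Θ` = the added direction, `ν c ·` = reference direction law of the cell.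
If off `Bad` the conditional density of `Θ` given `(A, C)` with respect to `ν` is `≤ K`, then off probability `P(Bad) + (K₁ + 1)/t`:   `t⁻¹ P(A | C) ≤ P(A | C, Θ) ≤ K t P(A | C)`. -/
theorem fp_cond (P : FLaw Ω) (A : Ω → α) (C : Ω → γ) (Θ : Ω → δ) (ν : γ → δ → ℝ) (hν : ∀ c θ, 0 ≤ ν c θ)
    {K₁ K t : ℝ} (hK₁ : ∀ c, ∀ S : Finset δ, ∑ θ ∈ S, ν c θ ≤ K₁) (hK : 0 ≤ K) (Bad : Ω → Prop)
    (hdom : ∀ ω, P.p ω ≠ 0 → ¬ Bad ω →
      P.fib (pair Θ (pair A C)) ω ≤ K * ν (C ω) (Θ ω) * P.fib (pair A C) ω) (ht : 0 < t) :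
    P.pr (fun ω => ¬ (P.fib (pair A C) ω / P.fib C ω ≤ t * (P.fib (pair A (pair C Θ)) ω / P.fib (pair C Θ) ω) ∧
      P.fib (pair A (pair C Θ)) ω / P.fib (pair C Θ) ω ≤ K * t * (P.fib (pair A C) ω / P.fib C ω)))
      ≤ P.pr Bad + (K₁ + 1) / t := by
  have b1 := fp_exc P Θ C ν hν hK₁ (ε := 1 / t) (by positivity)
  have b2 := fp_more P A C Θ ht
  have hsum : P.pr Bad + (K₁ + 1) / t = P.pr Bad + (1 / t * K₁ + 1 / t) := by ring
  rw [hsum]
  refine le_trans (ent_pr_mono P fun ω hω hb => ?_)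
    ((ent_pr_or_le P _ _).trans (add_le_add le_rfl ((ent_pr_or_le P _ _).trans (add_le_add b1 b2))))
  by_contra hcon
  rw [not_or, not_or, not_lt, not_lt] at hcon
  obtain ⟨g0, g1, g2⟩ := hcon
  apply hb
  refine ⟨g2, ?_⟩
  have hd := hdom ω hω g0
  have p1 := ent_fib_pos P (pair C Θ) hω
  have p2 := ent_fib_pos P C hω
  have p3 := ent_fib_nonneg P (pair A C) ω
  rw [fp_fib_pair_assoc P A C Θ, div_le_iff₀ p1]
  rw [fp_fib_pair_comm P Θ C] at g1
  have g1' : ν (C ω) (Θ ω) ≤ t * P.fib (pair C Θ) ω / P.fib C ω := by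
    rw [le_div_iff₀ p2]
    have := mul_le_mul_of_nonneg_left g1 ht.le
    calc ν (C ω) (Θ ω) * P.fib C ω = t * (1 / t * ν (C ω) (Θ ω) * P.fib C ω) := by field_simp
      _ ≤ _ := this
  calc P.fib (pair Θ (pair A C)) ω ≤ K * ν (C ω) (Θ ω) * P.fib (pair A C) ω := hd
    _ ≤ K * (t * P.fib (pair C Θ) ω / P.fib C ω) * P.fib (pair A C) ω := by gcongr
    _ = _ := by ring

/-- **`f:cap-law`.**  `cap x` = the ancestor cap of the fine direction `x`; `a x z` leaf weights, `b c z` reference cap square weights with `∑_{x ∈ c} a x z ≤ b c z`, `∑_c b c z ≤ K₁`.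
Off probability `K₁/t`:   `t⁻¹ b_τ(Z) ≤ P(τ | Z) ≤ K b_τ(Z)`  (the upper half holds at every point of the support). -/
theorem fp_cap {ζ o τ : Type} (P : FLaw Ω) (Z : Ω → ζ) (Om : Ω → o) (cap : o → τ) (a : o → ζ → ℝ) (b : τ → ζ → ℝ)
    {K K₁ t : ℝ} (hK : 0 ≤ K) (ha : ∀ x z, 0 ≤ a x z) (hb : ∀ c z, 0 ≤ b c z)
    (d1 : ∀ ω, P.p ω ≠ 0 → P.fib (pair Z Om) ω ≤ K * a (Om ω) (Z ω) * P.fib Z ω)
    (hab : ∀ c z, ∀ S : Finset o, (∀ x ∈ S, cap x = c) → ∑ x ∈ S, a x z ≤ b c z)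
    (hbs : ∀ z, ∀ S : Finset τ, ∑ c ∈ S, b c z ≤ K₁) (ht : 0 < t) :
    (∀ ω, P.p ω ≠ 0 →
      P.fib (pair (fun ω => cap (Om ω)) Z) ω ≤ K * b (cap (Om ω)) (Z ω) * P.fib Z ω) ∧
    P.pr (fun ω => P.fib (pair (fun ω => cap (Om ω)) Z) ω < 1 / t * b (cap (Om ω)) (Z ω) * P.fib Z ω) ≤ K₁ / t := by
  constructor
  · intro ω hω
    set S : Finset o := (Finset.univ.image Om).filter fun x => cap x = cap (Om ω) with hS
    have e1 : P.fib (pair (fun ω => cap (Om ω)) Z) ω =
        ∑ x ∈ S, P.pr (fun ω' => pair (fun ω => cap (Om ω)) Z ω' = pair (fun ω => cap (Om ω)) Z ω ∧ Om ω' = x) :=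
      ent_pr_sum_values P _ Om S fun ω' _ hE =>
        Finset.mem_filter.2 ⟨Finset.mem_image_of_mem Om (Finset.mem_univ ω'), congrArg Prod.fst hE⟩
    have hf := ent_fib_nonneg P Z ω
    have hterm : ∀ x ∈ S,
        P.pr (fun ω' => pair (fun ω => cap (Om ω)) Z ω' = pair (fun ω => cap (Om ω)) Z ω ∧ Om ω' = x) ≤
          K * P.fib Z ω * a x (Z ω) := by
      intro x _
      by_cases hex : ∃ ω', P.p ω' ≠ 0 ∧
          pair (fun ω => cap (Om ω)) Z ω' = pair (fun ω => cap (Om ω)) Z ω ∧ Om ω' = x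
      · obtain ⟨ω', hω', hE, hx⟩ := hex
        have hZ : Z ω' = Z ω := congrArg Prod.snd hE
        have s1 : P.pr (fun ω'' => pair (fun ω => cap (Om ω)) Z ω'' = pair (fun ω => cap (Om ω)) Z ω ∧ Om ω'' = x)
            ≤ P.fib (pair Z Om) ω' := by
          rw [ent_fib_pair]
          exact ent_pr_mono P fun ω'' _ hh => ⟨(congrArg Prod.snd hh.1).trans hZ.symm, hh.2.trans hx.symm⟩
        have s2 := d1 ω' hω'
        rw [hx, hZ, ent_fib_congr P Z hZ] at s2
        calc _ ≤ K * a x (Z ω) * P.fib Z ω := s1.trans s2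
          _ = _ := by ring
      · rw [ent_pr_eq_zero P fun ω' hω' hh => hex ⟨ω', hω', hh⟩]
        have := ha x (Z ω)
        positivity
    rw [e1]
    calc _ ≤ ∑ x ∈ S, K * P.fib Z ω * a x (Z ω) := Finset.sum_le_sum hterm
      _ = K * P.fib Z ω * ∑ x ∈ S, a x (Z ω) := by rw [Finset.mul_sum]
      _ ≤ K * P.fib Z ω * b (cap (Om ω)) (Z ω) := by
          have := hab (cap (Om ω)) (Z ω) S fun x hx => (Finset.mem_filter.1 hx).2
          gcongr
      _ = _ := by ring
  · have h := fp_exc P (fun ω => cap (Om ω)) Z (fun z c => b c z) (fun z c => hb c z) hbs (ε := 1 / t)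
      (by positivity)
    calc _ ≤ 1 / t * K₁ := h
      _ = K₁ / t := by ring

end Claimed.Agent.R257
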