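import Claimed.Agent.R257.FR2.SelTop
import Claimed.Agent.R257.FR2.PathFw
import Claimed.Agent.R257.FR2.PathProb

/-!
# ROW 257, package FR2, unit PATH (H `frame.tex` l.756-970), file 2: DIRECTIONS, CAPS, TILTED CELLS; PATH MASSES; THE DIRECTION LAW      (architect helper125)

Paper-free.  Definitions only (nothing sorried).   Extension of `TSys` (helper41) by the labels which `f:paths` needs, with the one-step facts `TGeo.Ok` (INSTANCE = unit INST, helper155 + helper272).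

DATA `TGeo 𝔖`.
* `Dir`, `dir γ`       the terminal direction label `ω(γ)` of a leaf cell `γ : 𝔖.C 0`
* `Cap i`, `cap i T`   the frequency cap of a cell of height `i`;   `anc i ω` = the ASSIGNED ancestor of height `i` of the fine direction `ω`
* `Cel i`, `cel i z ω` the label of the cell containing the witness `z` in the disjoint lattice of height `i` TILTED by `ω`   (`T_s(Z, Ω)` of the paper)
* `wb T z`             the root kernel of the coarsest layer with the SMALLER decay order `P` (so `𝔖.w 𝔖.ℓ` has the order `Q > P`: reserve on the root edge)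

PATHS.  A path is `(T_0, …, T_ℓ)`, weight `b_{T_0}² ∏ eh_i(T_i, T_{i+1}) · w_ℓ(T_ℓ, z)`.   NO path type: all masses are forward recursions `fw` (file `PathFw`).
A RESTRICTION is `R : ∀ i, Dir → Finset (C i)`: the path with terminal direction `ω` survives iff `T_i ∈ R i ω` for all `i`.   This covers
 (a) the selected tree: `R i ω = S i`;   (b) sub-masks;   (c) the macro-dependent angular omissions of `f:angular` (the caps of a path are determined by `ω`, so "the cap of height `j` of the path is omitted in the macro box of `T_i`" is a condition on `(ω, T_i)`).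
* `Ja R z ω` / `Wa R z`   mass of ALL surviving paths with direction `ω` / all directions
* `Jn R z ω` / `Wn R z`   the same for the NEAR paths (`𝔖.inc i z T_i` for all `i`)  = the `J_z(ω)`, `W(z)` of the final law (l.866-880)
* `IsLaw J Y' P Z Om`     `Z` uniform on `Y'`, `P(Om = ω | Z = z) = J z ω / ∑ J z ·`, `J` = ANY kernel `0 ≤ J ≤ Jn R` (monotone form; main case `J = Jn R`);  `P` is ANY finite law on ANY sample space (so several fields / redrawn directions can live on one space).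
REFERENCE QUANTITIES (all on the frozen tree, independent of `R`):  `leafw z ω = a_ω(z)`,  `capw i τ z = b_τ²(z)`,  `fdom S i ω T = J_T^dom(ω)`,  `chg S i ω c = a_{ω,C}`,  `bet S i T` = fresh propagated squares, `Wf S z`.
-/

set_option autoImplicit false

namespace Claimed.Agent.R257.FR2

open scoped BigOperators Classical
open Claimed.Agent.R255 Claimed.Agent.R255.FLaw

noncomputable section

/-- directions, caps, tilted cells -/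
structure TGeo (𝔖 : TSys) where
  Dir : Type
  fDir : Fintype Dir
  dir : 𝔖.C 0 → Dir
  Cap : ℕ → Type
  cap : ∀ i, 𝔖.C i → Cap i
  anc : ∀ i, Dir → Cap i
  Cel : ℕ → Type
  cel : ∀ i, 𝔖.Y → Dir → Cel i
  wb : 𝔖.C 𝔖.ℓ → 𝔖.Y → ℝ

attribute [instance] TGeo.fDir

/-- the explicit constants of the geometry -/
structure GPar where
  /-- constant of the positive convolution `p:convolution` -/
  Γc : ℝ
  /-- supremum of the kernels `w` -/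
  Γw : ℝ
  /-- gain of a long edge, `ρ^{-(Q-P)}` -/
  δ : ℝ
  /-- bound of the reference square function of the coarsest layer with the kernel `wb` -/
  ϖb : ℝ
  /-- multiplicity between enlarged native cells and tilted cells -/
  m : ℝ
  /-- variation of the leaf kernel on a tilted cell -/
  Kc : ℝ

namespace TGeo

variable {𝔖 : TSys} (𝔊 : TGeo 𝔖)

/-- **the one-step facts of the geometry** -/
structure Ok (g : GPar) : Prop where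
  one_le_Γc : 1 ≤ g.Γc
  one_le_Γw : 1 ≤ g.Γw
  δ_nonneg : 0 ≤ g.δ
  one_le_m : 1 ≤ g.m
  one_le_Kc : 1 ≤ g.Kc
  wb_nonneg : ∀ T z, 0 ≤ 𝔊.wb T z
  /-- cap ancestry -/
  anc_leaf : ∀ γ, 𝔊.cap 0 γ = 𝔊.anc 0 (𝔊.dir γ)
  nest : ∀ i, i < 𝔖.ℓ → ∀ T' T ω, 𝔖.e i T' T ≠ 0 → 𝔊.cap i T' = 𝔊.anc i ω → 𝔊.cap (i + 1) T = 𝔊.anc (i + 1) ω
  /-- `p:convolution` (order `Q` on both sides) -/
  conv : ∀ i, i < 𝔖.ℓ → ∀ T' z, ∑ T, 𝔖.eh i T' T * 𝔖.w (i + 1) T z ≤ g.Γc * 𝔖.w i T' z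
  w_le : ∀ i, i ≤ 𝔖.ℓ → ∀ T z, 𝔖.w i T z ≤ g.Γw
  /-- a child far from `z` under a parent near `z`: the edge is long -/
  far_edge : ∀ i, i < 𝔖.ℓ → ∀ T' T z, 𝔖.inc (i + 1) z T → ¬ 𝔖.inc i z T' → 𝔖.eh i T' T ≤ g.δ * 𝔖.e i T' T
  far_root : ∀ T z, ¬ 𝔖.inc 𝔖.ℓ z T → 𝔖.w 𝔖.ℓ T z ≤ g.δ * 𝔊.wb T z
  sqb_le : ∀ z, ∑ T, 𝔖.b 𝔖.ℓ T ^ 2 * 𝔊.wb T z ≤ g.ϖb
  /-- few enlarged native cells of the assigned cap meet one tilted cell … -/
  mult1 : ∀ i, i ≤ 𝔖.ℓ → ∀ ω c, ∀ U : Finset (𝔖.C i),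
    (∀ T ∈ U, 𝔊.cap i T = 𝔊.anc i ω ∧ ∃ z, 𝔊.cel i z ω = c ∧ 𝔖.inc i z T) → (U.card : ℝ) ≤ g.m
  /-- … and conversely -/
  mult2 : ∀ i, i ≤ 𝔖.ℓ → ∀ ω T, 𝔊.cap i T = 𝔊.anc i ω → ∀ U : Finset (𝔊.Cel i),
    (∀ c ∈ U, ∃ z, 𝔊.cel i z ω = c ∧ 𝔖.inc i z T) → (U.card : ℝ) ≤ g.m
  /-- the leaf kernel varies by `Kc` on a tilted cell, at the witnesses `z` attached to the cap ancestry of the leaf -/
  leafcmp : ∀ i, i ≤ 𝔖.ℓ → ∀ γ z z', 𝔊.cel i z (𝔊.dir γ) = 𝔊.cel i z' (𝔊.dir γ) →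
    (∀ j, j ≤ 𝔖.ℓ → ∃ T, 𝔊.cap j T = 𝔊.anc j (𝔊.dir γ) ∧ 𝔖.inc j z T) → 𝔖.w 0 γ z' ≤ g.Kc * 𝔖.w 0 γ z

/-- a restriction of the tree: the cells allowed for the paths with terminal direction `ω` -/
abbrev Restr := ∀ i, 𝔊.Dir → Finset (𝔖.C i)

/-- the restriction given by masks -/
def ofMask (S : ∀ i, Finset (𝔖.C i)) : 𝔊.Restr := fun i _ => S i

/-- vertex weights of the paths with terminal direction `ω`, restriction `R`, nearness predicate `nr` -/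
def vx (R : 𝔊.Restr) (nr : ∀ i, 𝔖.C i → Prop) (ω : 𝔊.Dir) : ∀ i, 𝔖.C i → ℝ
  | 0, T => if T ∈ R 0 ω ∧ 𝔊.dir T = ω ∧ nr 0 T then 𝔖.b 0 T ^ 2 else 0
  | i + 1, T => if T ∈ R (i + 1) ω ∧ nr (i + 1) T then 1 else 0

/-- forward mass of all surviving paths with direction `ω` up to the cell `T` -/
def fa (R : 𝔊.Restr) (ω : 𝔊.Dir) (i : ℕ) (T : 𝔖.C i) : ℝ := fw (𝔊.vx R (fun _ _ => True) ω) 𝔖.eh i T

/-- forward mass of the surviving paths near `z` -/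
def fn (R : 𝔊.Restr) (z : 𝔖.Y) (ω : 𝔊.Dir) (i : ℕ) (T : 𝔖.C i) : ℝ :=
  fw (𝔊.vx R (fun i T => 𝔖.inc i z T) ω) 𝔖.eh i T

/-- mass of all surviving paths from `z` with direction `ω` -/
def Ja (R : 𝔊.Restr) (z : 𝔖.Y) (ω : 𝔊.Dir) : ℝ := ∑ T, 𝔊.fa R ω 𝔖.ℓ T * 𝔖.w 𝔖.ℓ T z

/-- mass of the near surviving paths: `J_z(ω)` -/
def Jn (R : 𝔊.Restr) (z : 𝔖.Y) (ω : 𝔊.Dir) : ℝ := ∑ T, 𝔊.fn R z ω 𝔖.ℓ T * 𝔖.w 𝔖.ℓ T z

def Wa (R : 𝔊.Restr) (z : 𝔖.Y) : ℝ := ∑ ω, 𝔊.Ja R z ω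

/-- `W(z)` -/
def Wn (R : 𝔊.Restr) (z : 𝔖.Y) : ℝ := ∑ ω, 𝔊.Jn R z ω

/-- the available leaf square weight `a_ω(z)` -/
def leafw (z : 𝔖.Y) (ω : 𝔊.Dir) : ℝ := ∑ γ, if 𝔊.dir γ = ω then 𝔖.b 0 γ ^ 2 * 𝔖.w 0 γ z else 0

/-- the reference cap square weight `b_τ²(z)` -/
def capw (i : ℕ) (τ : 𝔊.Cap i) (z : 𝔖.Y) : ℝ := ∑ T, if 𝔊.cap i T = τ then 𝔖.b i T ^ 2 * 𝔖.w i T z else 0

/-- `J_T^dom(ω)`: descendant path mass of the frozen tree at the cell `T` -/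
def fdom (S : ∀ i, Finset (𝔖.C i)) (i : ℕ) (ω : 𝔊.Dir) (T : 𝔖.C i) : ℝ := 𝔊.fa (𝔊.ofMask S) ω i T

/-- `T ∈ 𝒩_s(ω, C)` -/
def Nb (i : ℕ) (ω : 𝔊.Dir) (c : 𝔊.Cel i) (T : 𝔖.C i) : Prop :=
  𝔊.cap i T = 𝔊.anc i ω ∧ ∃ z, 𝔊.cel i z ω = c ∧ 𝔖.inc i z T

/-- the reference charge `a_{ω,C}` -/
def chg (S : ∀ i, Finset (𝔖.C i)) (i : ℕ) (ω : 𝔊.Dir) (c : 𝔊.Cel i) : ℝ :=
  ∑ T ∈ S i, if 𝔊.Nb i ω c T then 𝔊.fdom S i ω T else 0

/-- **the direction law of a kernel `J`** (MONOTONE FORM: `J` = any kernel with `0 ≤ J z ω ≤ Jn R z ω`, e.g. `J = Jn R`): `Z` uniform on `Y'`, `P(Om = ω | Z = z) = J z ω / ∑_ω' J z ω'` -/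
structure IsLaw (J : 𝔖.Y → 𝔊.Dir → ℝ) (Y' : Finset 𝔖.Y) {Ω₀ : Type} [Fintype Ω₀] (P : FLaw Ω₀) (Z : Ω₀ → 𝔖.Y)
    (Om : Ω₀ → 𝔊.Dir) : Prop where
  joint : ∀ z ω, P.pr (fun x => Z x = z ∧ Om x = ω) =
    if z ∈ Y' then J z ω / (Y'.card * ∑ ω', J z ω') else 0

end TGeo

namespace TSys

variable (𝔖 : TSys)

/-- the fresh propagated squares of the tree with the masks `S` (not yet restricted to `S i`) -/
def bet (S : ∀ i, Finset (𝔖.C i)) : ∀ i, 𝔖.C i → ℝ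
  | 0 => fun T => 𝔖.b 0 T ^ 2
  | i + 1 => fun T => ∑ T' ∈ S i, bet S i T' * 𝔖.eh i T' T

/-- the fresh square function at the root `= W(z)` before the removal of the far paths -/
def Wf (S : ∀ i, Finset (𝔖.C i)) (z : 𝔖.Y) : ℝ := ∑ T ∈ S 𝔖.ℓ, 𝔖.bet S 𝔖.ℓ T * 𝔖.w 𝔖.ℓ T z

/-- the occupancy size `M_i = |T| (r_i / A)^q` -/
def Mocc (q A : ℝ) (r : ℕ → ℝ) (i : ℕ) : ℝ := 𝔖.vol i * (r i / A) ^ q

end TSys

end

end Claimed.Agent.R257.FR2
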