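import Claimed.Agent.R257.FR2.PathMass

/-!
# ROW 257, package FR2, unit PATH, file 4: THE DOMINATIONS (D1), (D2), (D3) AND THE CAP BOUND      (architect helper125)            CONTRACT

Paper-free (H `frame.tex` l.880-963).  Every `sorry` is a leaf `L-257-TP-*` (name in the docstring).  Statements are frozen (ask helper125); auxiliary lemmas directly above your theorem; edit only your block.
You may use every statement of `PathMass.lean` (also the sorried ones).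
-/

set_option autoImplicit false

namespace Claimed.Agent.R257.FR2

open scoped BigOperators Classical

noncomputable section

namespace TGeo

variable {𝔖 : TSys} {𝔊 : TGeo 𝔖} {p : TPar} {g : GPar}

theorem leafw_nonneg (h : 𝔖.Ok p) (z : 𝔖.Y) (ω : 𝔊.Dir) : 0 ≤ 𝔊.leafw z ω :=
  Finset.sum_nonneg fun γ _ => by
    split_ifs
    exacts [mul_nonneg (sq_nonneg _) (h.w_nonneg _ _ _), le_rfl]

theorem capw_nonneg (h : 𝔖.Ok p) (i : ℕ) (τ : 𝔊.Cap i) (z : 𝔖.Y) : 0 ≤ 𝔊.capw i τ z :=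
  Finset.sum_nonneg fun T _ => by
    split_ifs
    exacts [mul_nonneg (sq_nonneg _) (h.w_nonneg _ _ _), le_rfl]

theorem chg_nonneg (h : 𝔖.Ok p) (S : ∀ i, Finset (𝔖.C i)) (i : ℕ) (ω : 𝔊.Dir) (c : 𝔊.Cel i) : 0 ≤ 𝔊.chg S i ω c :=
  Finset.sum_nonneg fun T _ => by
    split_ifs
    exacts [fa_nonneg h _ _ _ _, le_rfl]

/-- **LEAF L-257-TP-D1 (a).**  Path domination by the leaf background (l.880-886).   `tp_Jn_up` with `i = 0`; `fn R z ω 0 γ = vx .. 0 γ ≤ if dir γ = ω then b² else 0`. -/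
theorem tp_Jn_le_leaf (h : 𝔖.Ok p) (hg : 𝔊.Ok g) (R : 𝔊.Restr) (z : 𝔖.Y) (ω : 𝔊.Dir) :
    𝔊.Jn R z ω ≤ g.Γc ^ 𝔖.ℓ * 𝔊.leafw z ω := by
  have h1 := tp_Jn_up h hg R z ω 0 (Nat.zero_le _)
  rw [Nat.sub_zero] at h1
  refine h1.trans (mul_le_mul_of_nonneg_left ?_ (pow_nonneg (zero_le_one.trans hg.one_le_Γc) _))
  unfold leafw
  refine Finset.sum_le_sum fun γ _ => ?_
  have e : 𝔊.fn R z ω 0 γ = if γ ∈ R 0 ω ∧ 𝔊.dir γ = ω ∧ 𝔖.inc 0 z γ then 𝔖.b 0 γ ^ 2 else 0 := rfl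
  rw [e]
  have hw := h.w_nonneg 0 γ z
  by_cases hd : 𝔊.dir γ = ω
  · rw [if_pos hd]
    split_ifs
    · exact le_rfl
    · rw [zero_mul]
      exact mul_nonneg (sq_nonneg _) hw
  · rw [if_neg hd, if_neg (fun hh => hd hh.2.1), zero_mul]

/-- **LEAF L-257-TP-D1 (b).**  `∑_ω leafw z ω = sq 0 (b 0) z ≤ ϖ0` (`Finset.sum_comm`, `Finset.sum_ite_eq`, `h.sq_le`); a partial sum of nonnegative terms is smaller. -/
theorem tp_sum_leafw (h : 𝔖.Ok p) (z : 𝔖.Y) (U : Finset 𝔊.Dir) : ∑ ω ∈ U, 𝔊.leafw z ω ≤ p.ϖ0 := by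
  calc ∑ ω ∈ U, 𝔊.leafw z ω ≤ ∑ ω, 𝔊.leafw z ω := Finset.sum_le_univ_sum_of_nonneg (fun ω => leafw_nonneg h z ω)
    _ = 𝔖.sq 0 (𝔖.b 0) z := by
        unfold leafw TSys.sq
        rw [Finset.sum_comm]
        refine Finset.sum_congr rfl fun γ _ => ?_
        rw [Finset.sum_ite_eq, if_pos (Finset.mem_univ _)]
    _ ≤ p.ϖ0 := h.sq_le 0 (Nat.zero_le _) z

/-- **LEAF L-257-TP-D1 (c).**  The leaf background varies by `Kc` within a tilted cell (l.908-909): termwise `hg.leafcmp`. -/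
theorem tp_leafw_cmp (h : 𝔖.Ok p) (hg : 𝔊.Ok g) (i : ℕ) (hi : i ≤ 𝔖.ℓ) (z z' : 𝔖.Y) (ω : 𝔊.Dir)
    (hc : 𝔊.cel i z ω = 𝔊.cel i z' ω) (hatt : ∀ j, j ≤ 𝔖.ℓ → ∃ T, 𝔊.cap j T = 𝔊.anc j ω ∧ 𝔖.inc j z T) :
    𝔊.leafw z' ω ≤ g.Kc * 𝔊.leafw z ω := by
  unfold leafw
  rw [Finset.mul_sum]
  refine Finset.sum_le_sum fun γ _ => ?_
  by_cases hd : 𝔊.dir γ = ω
  · rw [if_pos hd, if_pos hd]
    subst hd
    have h1 := hg.leafcmp i hi γ z z' hc hatt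
    have h2 := mul_le_mul_of_nonneg_left h1 (sq_nonneg (𝔖.b 0 γ))
    linarith
  · rw [if_neg hd, if_neg hd, mul_zero]

/-- **LEAF L-257-TP-ATT.**  A witness with positive near path mass is attached, at every height, to an allowed cell of the assigned cap ("every point under the cap conditioning is near an active cell").
PLAN.  If `fn R z ω j T = 0` for all `T` then `Jn ≤ 0` by `tp_Jn_up`, so `Jn = 0` (`Jn_nonneg`).  Otherwise `tp_fn_supp`. -/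
theorem tp_attached (h : 𝔖.Ok p) (hg : 𝔊.Ok g) (R : 𝔊.Restr) (z : 𝔖.Y) (ω : 𝔊.Dir) (hJ : 𝔊.Jn R z ω ≠ 0) (j : ℕ)
    (hj : j ≤ 𝔖.ℓ) : ∃ T ∈ R j ω, 𝔊.cap j T = 𝔊.anc j ω ∧ 𝔖.inc j z T := by
  by_contra hcon
  apply hJ
  have h1 := tp_Jn_up h hg R z ω j hj
  have h2 : ∑ T, 𝔊.fn R z ω j T * 𝔖.w j T z = 0 := by
    refine Finset.sum_eq_zero fun T _ => ?_
    by_cases hT : 𝔊.fn R z ω j T = 0
    · rw [hT, zero_mul]
    · obtain ⟨a1, a2, a3⟩ := tp_fn_supp h hg R z ω j hj T hT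
      exact absurd ⟨T, a1, a3, a2⟩ hcon
  rw [h2, mul_zero] at h1
  exact le_antisymm h1 (Jn_nonneg h R z ω)

/-- **LEAF L-257-TP-D2 (a).**  Domination by the reference charge (l.931-945).
PLAN.  `tp_Jn_up`;  `w i T z ≤ Γw`;  `fn R z ω i T ≤ if T ∈ S i ∧ Nb i ω (cel i z ω) T then fdom S i ω T else 0` (zero or `tp_fn_supp`, `fn_le_fa`, `fa_mono hR`);  `Finset.sum_filter`/`Finset.sum_ite_mem`. -/
theorem tp_Jn_le_chg (h : 𝔖.Ok p) (hg : 𝔊.Ok g) (S : ∀ i, Finset (𝔖.C i)) (R : 𝔊.Restr) (hR : ∀ i ω, R i ω ⊆ S i)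
    (z : 𝔖.Y) (ω : 𝔊.Dir) (i : ℕ) (hi : i ≤ 𝔖.ℓ) :
    𝔊.Jn R z ω ≤ g.Γc ^ (𝔖.ℓ - i) * g.Γw * 𝔊.chg S i ω (𝔊.cel i z ω) := by
  have h1 := tp_Jn_up h hg R z ω i hi
  have hΓ : 0 ≤ g.Γc ^ (𝔖.ℓ - i) := pow_nonneg (zero_le_one.trans hg.one_le_Γc) _
  have hΓw : 0 ≤ g.Γw := zero_le_one.trans hg.one_le_Γw
  rw [mul_assoc]
  refine h1.trans (mul_le_mul_of_nonneg_left ?_ hΓ)
  have e : 𝔊.chg S i ω (𝔊.cel i z ω) =
      ∑ T, if T ∈ S i then (if 𝔊.Nb i ω (𝔊.cel i z ω) T then 𝔊.fdom S i ω T else 0) else 0 := by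
    unfold chg
    rw [Finset.sum_ite_mem, Finset.univ_inter]
  rw [e, Finset.mul_sum]
  refine Finset.sum_le_sum fun T _ => ?_
  by_cases hT : 𝔊.fn R z ω i T = 0
  · rw [hT, zero_mul]
    refine mul_nonneg hΓw ?_
    split_ifs
    exacts [fa_nonneg h _ _ _ _, le_rfl, le_rfl]
  · obtain ⟨a1, a2, a3⟩ := tp_fn_supp h hg R z ω i hi T hT
    rw [if_pos (hR i ω a1), if_pos ⟨a3, z, rfl, a2⟩]
    have b1 : 𝔊.fn R z ω i T ≤ 𝔊.fdom S i ω T :=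
      (fn_le_fa h R z ω i T).trans (fa_mono h (R' := 𝔊.ofMask S) hR ω i T)
    have b2 := hg.w_le i hi T z
    calc 𝔊.fn R z ω i T * 𝔖.w i T z ≤ 𝔊.fdom S i ω T * g.Γw :=
          mul_le_mul b1 b2 (h.w_nonneg _ _ _) (fa_nonneg h _ _ _ _)
      _ = g.Γw * 𝔊.fdom S i ω T := mul_comm _ _

/-- **LEAF L-257-TP-D2 (b).**  Total reference charge (l.946-950).
PLAN.  `∑_{(ω,c) ∈ U} ∑_{T ∈ S i} 1[Nb] fdom ω T = ∑_{T ∈ S i} ∑_ω fdom ω T · #{c : (ω,c) ∈ U, Nb i ω c T}`  (write `U ⊆ univ ×ˢ U.image Prod.snd`, or sum over `U` fibred by `Prod.fst`: `Finset.sum_fiberwise`/`Finset.sum_comm'`);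
the cardinality is `≤ m` (`hg.mult2`, its hypothesis `cap = anc` is part of `Nb`; if `cap ≠ anc` the set is empty);   `∑_ω fdom S i ω T ≤ ∑_ω fe ω i T ≤ b²` (`fa_le_fe`, `tp_sum_fe_le`). -/
theorem tp_sum_chg (h : 𝔖.Ok p) (hg : 𝔊.Ok g) (S : ∀ i, Finset (𝔖.C i)) (i : ℕ) (hi : i ≤ 𝔖.ℓ)
    (U : Finset (𝔊.Dir × 𝔊.Cel i)) : ∑ v ∈ U, 𝔊.chg S i v.1 v.2 ≤ g.m * ∑ T ∈ S i, 𝔖.b i T ^ 2 := by
  have hm0 : 0 ≤ g.m := zero_le_one.trans hg.one_le_m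
  unfold chg
  rw [Finset.sum_comm, Finset.mul_sum]
  refine Finset.sum_le_sum fun T _ => ?_
  have key : ∀ ω : 𝔊.Dir, ∑ v ∈ U.filter (fun v => v.1 = ω), (if 𝔊.Nb i v.1 v.2 T then 𝔊.fdom S i v.1 T else 0)
      ≤ g.m * 𝔊.fe ω i T := by
    intro ω
    rw [← Finset.sum_filter]
    generalize hW : (U.filter (fun v => v.1 = ω)).filter (fun v => 𝔊.Nb i v.1 v.2 T) = W
    have hWm : ∀ v ∈ W, v.1 = ω ∧ 𝔊.Nb i ω v.2 T := by
      intro v hv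
      rw [← hW] at hv
      obtain ⟨h1, h2⟩ := Finset.mem_filter.1 hv
      have h3 := (Finset.mem_filter.1 h1).2
      exact ⟨h3, h3 ▸ h2⟩
    have hcard : (W.card : ℝ) ≤ g.m := by
      rcases W.eq_empty_or_nonempty with he | ⟨v0, hv0⟩
      · rw [he]
        simpa using hm0
      · have hinj : Set.InjOn Prod.snd (W : Set (𝔊.Dir × 𝔊.Cel i)) := by
          intro u hu v hv e
          exact Prod.ext ((hWm u hu).1.trans (hWm v hv).1.symm) e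
        rw [← Finset.card_image_of_injOn hinj]
        refine hg.mult2 i hi ω T (hWm v0 hv0).2.1 _ fun c hc => ?_
        obtain ⟨v, hv, rfl⟩ := Finset.mem_image.1 hc
        exact (hWm v hv).2.2
    have hfe : 0 ≤ 𝔊.fe ω i T := (fa_nonneg h (𝔊.ofMask S) ω i T).trans (fa_le_fe h _ ω i T)
    calc ∑ v ∈ W, 𝔊.fdom S i v.1 T ≤ ∑ _v ∈ W, 𝔊.fe ω i T := Finset.sum_le_sum fun v hv => by
          rw [(hWm v hv).1]
          exact fa_le_fe h _ ω i T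
      _ = W.card * 𝔊.fe ω i T := by rw [Finset.sum_const, nsmul_eq_mul]
      _ ≤ g.m * 𝔊.fe ω i T := mul_le_mul_of_nonneg_right hcard hfe
  calc ∑ v ∈ U, (if 𝔊.Nb i v.1 v.2 T then 𝔊.fdom S i v.1 T else 0)
      = ∑ ω, ∑ v ∈ U.filter (fun v => v.1 = ω), (if 𝔊.Nb i v.1 v.2 T then 𝔊.fdom S i v.1 T else 0) :=
        (Finset.sum_fiberwise U Prod.fst _).symm
    _ ≤ ∑ ω, g.m * 𝔊.fe ω i T := Finset.sum_le_sum fun ω _ => key ω
    _ = g.m * ∑ ω, 𝔊.fe ω i T := by rw [Finset.mul_sum]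
    _ ≤ g.m * 𝔖.b i T ^ 2 := mul_le_mul_of_nonneg_left (tp_sum_fe_le h i hi T) hm0

/-- **LEAF L-257-TP-D3.**  Occupancy of a fibre (l.904-907).   (`hne` added by helper108: without it the statement fails for `U = ∅`, `S i = ∅`, `Oc < 0`.)
PLAN.  For `z ∈ U` choose (`tp_attached`) `T_z ∈ R i ω ⊆ S i` with `cap = anc`, `inc i z T_z`; `V = U.image T_·`; `V.card ≤ m` (`hg.mult1`);   `U ⊆ V.biUnion fun T => univ.filter (inc i · T)`, `Finset.card_biUnion_le`, each `occ i T ≤ Oc`. -/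
theorem tp_count (h : 𝔖.Ok p) (hg : 𝔊.Ok g) (S : ∀ i, Finset (𝔖.C i)) (R : 𝔊.Restr) (hR : ∀ i ω, R i ω ⊆ S i) (i : ℕ)
    (hi : i ≤ 𝔖.ℓ) (Oc : ℝ) (hOc : ∀ T ∈ S i, (𝔖.occ i T : ℝ) ≤ Oc) (ω : 𝔊.Dir) (c : 𝔊.Cel i) (U : Finset 𝔖.Y)
    (hne : U.Nonempty) (hU : ∀ z ∈ U, 𝔊.cel i z ω = c ∧ 𝔊.Jn R z ω ≠ 0) : (U.card : ℝ) ≤ g.m * Oc := by
  have hex : ∀ z ∈ U, ∃ T ∈ R i ω, 𝔊.cap i T = 𝔊.anc i ω ∧ 𝔖.inc i z T := fun z hz =>
    tp_attached h hg R z ω (hU z hz).2 i hi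
  choose f hf1 hf2 hf3 using hex
  generalize hV : U.attach.image (fun z => f z.1 z.2) = V
  have hVm : ∀ T ∈ V, ∃ z, ∃ hz : z ∈ U, f z hz = T := by
    intro T hT
    rw [← hV] at hT
    obtain ⟨⟨z, hz⟩, -, e⟩ := Finset.mem_image.1 hT
    exact ⟨z, hz, e⟩
  have hVcard : (V.card : ℝ) ≤ g.m := hg.mult1 i hi ω c V fun T hT => by
    obtain ⟨z, hz, rfl⟩ := hVm T hT
    exact ⟨hf2 z hz, z, (hU z hz).1, hf3 z hz⟩
  have hsub : U ⊆ V.biUnion (fun T => Finset.univ.filter fun z => 𝔖.inc i z T) := by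
    intro z hz
    refine Finset.mem_biUnion.2 ⟨f z hz, ?_, Finset.mem_filter.2 ⟨Finset.mem_univ _, hf3 z hz⟩⟩
    rw [← hV]
    exact Finset.mem_image.2 ⟨⟨z, hz⟩, Finset.mem_attach _ _, rfl⟩
  have hOc0 : 0 ≤ Oc := by
    obtain ⟨z, hz⟩ := hne
    exact (Nat.cast_nonneg _).trans (hOc (f z hz) (hR i ω (hf1 z hz)))
  have h1 : (U.card : ℝ) ≤ ∑ T ∈ V, (𝔖.occ i T : ℝ) := by
    have := (Finset.card_le_card hsub).trans Finset.card_biUnion_le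
    simp only [TSys.occ]
    exact_mod_cast this
  calc (U.card : ℝ) ≤ ∑ T ∈ V, (𝔖.occ i T : ℝ) := h1
    _ ≤ ∑ _T ∈ V, Oc := Finset.sum_le_sum fun T hT => by
        obtain ⟨z, hz, rfl⟩ := hVm T hT
        exact hOc _ (hR i ω (hf1 z hz))
    _ = V.card * Oc := by rw [Finset.sum_const, nsmul_eq_mul]
    _ ≤ g.m * Oc := mul_le_mul_of_nonneg_right hVcard hOc0

/-- **LEAF L-257-TP-CAP (a).**  Upper half of `f:cap-law` before normalisation (l.888-892).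
PLAN.  `tp_Jn_up` for every `ω` in the filter;  `fn R z ω i T ≤ if cap i T = τ then fe ω i T else 0` (`tp_fn_supp`, `fn_le_fa`, `fa_le_fe`);  `Finset.sum_comm`;  `∑_{ω ∈ filter} fe ≤ ∑_ω fe ≤ b²` (`tp_sum_fe_le`, `fw_nonneg`). -/
theorem tp_cap_up (h : 𝔖.Ok p) (hg : 𝔊.Ok g) (R : 𝔊.Restr) (z : 𝔖.Y) (i : ℕ) (hi : i ≤ 𝔖.ℓ) (τ : 𝔊.Cap i) :
    ∑ ω ∈ Finset.univ.filter (fun ω => 𝔊.anc i ω = τ), 𝔊.Jn R z ω ≤ g.Γc ^ (𝔖.ℓ - i) * 𝔊.capw i τ z := by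
  have hΓ : 0 ≤ g.Γc ^ (𝔖.ℓ - i) := pow_nonneg (zero_le_one.trans hg.one_le_Γc) _
  have hfe0 : ∀ ω T, 0 ≤ 𝔊.fe ω i T := fun ω T => (fa_nonneg h R ω i T).trans (fa_le_fe h R ω i T)
  calc ∑ ω ∈ Finset.univ.filter (fun ω => 𝔊.anc i ω = τ), 𝔊.Jn R z ω
      ≤ ∑ ω ∈ Finset.univ.filter (fun ω => 𝔊.anc i ω = τ), g.Γc ^ (𝔖.ℓ - i) * ∑ T, 𝔊.fn R z ω i T * 𝔖.w i T z :=
        Finset.sum_le_sum fun ω _ => tp_Jn_up h hg R z ω i hi
    _ = g.Γc ^ (𝔖.ℓ - i) *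
          ∑ T, (∑ ω ∈ Finset.univ.filter (fun ω => 𝔊.anc i ω = τ), 𝔊.fn R z ω i T) * 𝔖.w i T z := by
        rw [← Finset.mul_sum, Finset.sum_comm]
        simp only [Finset.sum_mul]
    _ ≤ g.Γc ^ (𝔖.ℓ - i) * 𝔊.capw i τ z := by
        refine mul_le_mul_of_nonneg_left ?_ hΓ
        unfold capw
        refine Finset.sum_le_sum fun T _ => ?_
        have hw := h.w_nonneg i T z
        by_cases hc : 𝔊.cap i T = τ
        · rw [if_pos hc]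
          refine mul_le_mul_of_nonneg_right ?_ hw
          calc ∑ ω ∈ Finset.univ.filter (fun ω => 𝔊.anc i ω = τ), 𝔊.fn R z ω i T
              ≤ ∑ ω ∈ Finset.univ.filter (fun ω => 𝔊.anc i ω = τ), 𝔊.fe ω i T :=
                Finset.sum_le_sum fun ω _ => (fn_le_fa h R z ω i T).trans (fa_le_fe h R ω i T)
            _ ≤ ∑ ω, 𝔊.fe ω i T := Finset.sum_le_univ_sum_of_nonneg (fun ω => hfe0 ω T)
            _ ≤ 𝔖.b i T ^ 2 := tp_sum_fe_le h i hi T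
        · rw [if_neg hc]
          have h0 : ∑ ω ∈ Finset.univ.filter (fun ω => 𝔊.anc i ω = τ), 𝔊.fn R z ω i T = 0 := by
            refine Finset.sum_eq_zero fun ω hω => ?_
            by_contra hne
            have h3 := (tp_fn_supp h hg R z ω i hi T hne).2.2
            exact hc (h3.trans (Finset.mem_filter.1 hω).2)
          rw [h0, zero_mul]

/-- **LEAF L-257-TP-CAP (b).**  `∑_τ capw i τ z ≤ sq i (b i) z ≤ ϖ0`. -/
theorem tp_sum_capw (h : 𝔖.Ok p) (z : 𝔖.Y) (i : ℕ) (hi : i ≤ 𝔖.ℓ) (U : Finset (𝔊.Cap i)) :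
    ∑ τ ∈ U, 𝔊.capw i τ z ≤ p.ϖ0 := by
  have h1 := h.sq_le i hi z
  unfold TSys.sq at h1
  refine le_trans ?_ h1
  unfold capw
  rw [Finset.sum_comm]
  refine Finset.sum_le_sum fun T _ => ?_
  rw [Finset.sum_ite_eq]
  split_ifs
  · exact le_rfl
  · exact mul_nonneg (sq_nonneg _) (h.w_nonneg _ _ _)

end TGeo

end

end Claimed.Agent.R257.FR2
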