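import Claimed.Agent.R257.FR2.PathDef

/-!
# ROW 257, package FR2, unit PATH, file 3: BASIC API OF THE PATH MASSES; LOW MASS IS EXCEPTIONAL; FAR PATHS      (architect helper125)            CONTRACT

Paper-free (H `frame.tex` l.855-880).  Every `sorry` is a leaf `L-257-TP-*` (name in the docstring).  Statements are frozen (ask helper125); auxiliary lemmas directly above your theorem; edit only your block.
Tools: `PathFw.lean` (`fw_nonneg, fw_mono, fw_up, fw_le, fw_supp, fw_vertex, fw_tag, fw_far_sum`: all proved), `TSys.Ok`, `TGeo.Ok`.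
-/

set_option autoImplicit false

namespace Claimed.Agent.R257.FR2

open scoped BigOperators Classical

noncomputable section

namespace TGeo

variable {𝔖 : TSys} (𝔊 : TGeo 𝔖)

/-- the full background mass tagged by the direction: no masks, edges `e` -/
def fe (ω : 𝔊.Dir) (i : ℕ) (T : 𝔖.C i) : ℝ := fw (𝔊.vx (fun _ _ => Finset.univ) (fun _ _ => True) ω) 𝔖.e i T

variable {𝔊} {p : TPar} {g : GPar}

theorem vx_zero (R : 𝔊.Restr) (nr : ∀ i, 𝔖.C i → Prop) (ω : 𝔊.Dir) (T : 𝔖.C 0) :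
    𝔊.vx R nr ω 0 T = if T ∈ R 0 ω ∧ 𝔊.dir T = ω ∧ nr 0 T then 𝔖.b 0 T ^ 2 else 0 := rfl

theorem vx_succ (R : 𝔊.Restr) (nr : ∀ i, 𝔖.C i → Prop) (ω : 𝔊.Dir) (i : ℕ) (T : 𝔖.C (i + 1)) :
    𝔊.vx R nr ω (i + 1) T = if T ∈ R (i + 1) ω ∧ nr (i + 1) T then 1 else 0 := rfl

theorem vx_nonneg (R : 𝔊.Restr) (nr : ∀ i, 𝔖.C i → Prop) (ω : 𝔊.Dir) : ∀ i T, 0 ≤ 𝔊.vx R nr ω i T
  | 0, T => by rw [vx_zero]; split_ifs; exacts [sq_nonneg _, le_rfl]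
  | i + 1, T => by rw [vx_succ]; split_ifs; exacts [zero_le_one, le_rfl]

theorem vx_succ_le_one (R : 𝔊.Restr) (nr : ∀ i, 𝔖.C i → Prop) (ω : 𝔊.Dir) (i : ℕ) (T : 𝔖.C (i + 1)) :
    𝔊.vx R nr ω (i + 1) T ≤ 1 := by
  rw [vx_succ]; split_ifs; exacts [le_rfl, zero_le_one]

theorem vx_mono {R R' : 𝔊.Restr} {nr nr' : ∀ i, 𝔖.C i → Prop} (hR : ∀ i ω, R i ω ⊆ R' i ω)
    (hn : ∀ i T, nr i T → nr' i T) (ω : 𝔊.Dir) : ∀ i T, 𝔊.vx R nr ω i T ≤ 𝔊.vx R' nr' ω i T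
  | 0, T => by
      rw [vx_zero, vx_zero]
      by_cases h : T ∈ R 0 ω ∧ 𝔊.dir T = ω ∧ nr 0 T
      · rw [if_pos h, if_pos ⟨hR 0 ω h.1, h.2.1, hn 0 T h.2.2⟩]
      · rw [if_neg h]; split_ifs; exacts [sq_nonneg _, le_rfl]
  | i + 1, T => by
      rw [vx_succ, vx_succ]
      by_cases h : T ∈ R (i + 1) ω ∧ nr (i + 1) T
      · rw [if_pos h, if_pos ⟨hR _ ω h.1, hn _ T h.2⟩]
      · rw [if_neg h]; split_ifs; exacts [zero_le_one, le_rfl]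

theorem vx_ne_zero {R : 𝔊.Restr} {nr : ∀ i, 𝔖.C i → Prop} {ω : 𝔊.Dir} :
    ∀ i T, 𝔊.vx R nr ω i T ≠ 0 → T ∈ R i ω ∧ nr i T
  | 0, T => fun h => by
      rw [vx_zero] at h
      by_cases h' : T ∈ R 0 ω ∧ 𝔊.dir T = ω ∧ nr 0 T
      · exact ⟨h'.1, h'.2.2⟩
      · rw [if_neg h'] at h; exact absurd rfl h
  | i + 1, T => fun h => by
      rw [vx_succ] at h
      by_cases h' : T ∈ R (i + 1) ω ∧ nr (i + 1) T
      · exact h'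
      · rw [if_neg h'] at h; exact absurd rfl h

theorem fa_nonneg (h : 𝔖.Ok p) (R : 𝔊.Restr) (ω : 𝔊.Dir) (i : ℕ) (T : 𝔖.C i) : 0 ≤ 𝔊.fa R ω i T :=
  fw_nonneg (vx_nonneg _ _ _) h.eh_nonneg i T

theorem fn_nonneg (h : 𝔖.Ok p) (R : 𝔊.Restr) (z : 𝔖.Y) (ω : 𝔊.Dir) (i : ℕ) (T : 𝔖.C i) : 0 ≤ 𝔊.fn R z ω i T :=
  fw_nonneg (vx_nonneg _ _ _) h.eh_nonneg i T

theorem fn_le_fa (h : 𝔖.Ok p) (R : 𝔊.Restr) (z : 𝔖.Y) (ω : 𝔊.Dir) (i : ℕ) (T : 𝔖.C i) :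
    𝔊.fn R z ω i T ≤ 𝔊.fa R ω i T :=
  fw_mono (vx_nonneg _ _ _) h.eh_nonneg (vx_mono (fun _ _ => Finset.Subset.refl _) (fun _ _ _ => trivial) ω)
    (fun _ _ _ => le_rfl) i T

theorem fa_mono (h : 𝔖.Ok p) {R R' : 𝔊.Restr} (hR : ∀ i ω, R i ω ⊆ R' i ω) (ω : 𝔊.Dir) (i : ℕ) (T : 𝔖.C i) :
    𝔊.fa R ω i T ≤ 𝔊.fa R' ω i T :=
  fw_mono (vx_nonneg _ _ _) h.eh_nonneg (vx_mono hR (fun _ _ h => h) ω) (fun _ _ _ => le_rfl) i T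

theorem fa_le_fe (h : 𝔖.Ok p) (R : 𝔊.Restr) (ω : 𝔊.Dir) (i : ℕ) (T : 𝔖.C i) : 𝔊.fa R ω i T ≤ 𝔊.fe ω i T :=
  fw_mono (vx_nonneg _ _ _) h.eh_nonneg (vx_mono (fun _ _ => Finset.subset_univ _) (fun _ _ h => h) ω) h.eh_le i T

theorem Jn_nonneg (h : 𝔖.Ok p) (R : 𝔊.Restr) (z : 𝔖.Y) (ω : 𝔊.Dir) : 0 ≤ 𝔊.Jn R z ω :=
  Finset.sum_nonneg fun T _ => mul_nonneg (fn_nonneg h R z ω _ T) (h.w_nonneg _ _ _)

theorem Ja_nonneg (h : 𝔖.Ok p) (R : 𝔊.Restr) (z : 𝔖.Y) (ω : 𝔊.Dir) : 0 ≤ 𝔊.Ja R z ω :=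
  Finset.sum_nonneg fun T _ => mul_nonneg (fa_nonneg h R ω _ T) (h.w_nonneg _ _ _)

theorem Wn_nonneg (h : 𝔖.Ok p) (R : 𝔊.Restr) (z : 𝔖.Y) : 0 ≤ 𝔊.Wn R z :=
  Finset.sum_nonneg fun ω _ => Jn_nonneg h R z ω

theorem tp_e_nonneg (h : 𝔖.Ok p) (i : ℕ) (T' : 𝔖.C i) (T : 𝔖.C (i + 1)) : 0 ≤ 𝔖.e i T' T :=
  (h.eh_nonneg i T' T).trans (h.eh_le i T' T)

/-- **LEAF L-257-TP-FE.**  The tagged full background sums to at most the reference squares.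
PLAN.  `fw_tag` (`s = univ`, `v ω = vx univ True ω`, `v₀ 0 T = b 0 T ^ 2`, `v₀ (i+1) T = 1`; `∑_ω (if dir T = ω then b² else 0) = b²`: `Finset.sum_ite_eq`) turns the left side into `fw v₀ e i T`;
`fw_le` with `B i T = b i T ^ 2`, `N = ℓ`, `hB` = `h.dom`. -/
theorem tp_sum_fe_le (h : 𝔖.Ok p) (i : ℕ) (hi : i ≤ 𝔖.ℓ) (T : 𝔖.C i) : ∑ ω, 𝔊.fe ω i T ≤ 𝔖.b i T ^ 2 := by
  set v₀ : ∀ i, 𝔖.C i → ℝ := fun i => match i with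
    | 0 => fun T => 𝔖.b 0 T ^ 2
    | _ + 1 => fun _ => 1 with hv₀
  have htag := fw_tag (C := 𝔖.C) Finset.univ (fun ω => 𝔊.vx (fun _ _ => Finset.univ) (fun _ _ => True) ω) v₀ 𝔖.e
    (fun T => by
      simp only [vx_zero, Finset.mem_univ, true_and, and_true]
      rw [Finset.sum_ite_eq]
      simp [hv₀])
    (fun ω _ i T => by simp [vx_succ, hv₀]) i T
  have hv0 : ∀ i T, 0 ≤ v₀ i T := by
    intro i T
    cases i with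
    | zero => exact sq_nonneg _
    | succ i => exact zero_le_one
  unfold fe
  rw [htag]
  refine fw_le hv0 (tp_e_nonneg h) (fun i T => 𝔖.b i T ^ 2) 𝔖.ℓ (fun T => le_rfl) (fun i hi T => ?_) i hi T
  have : v₀ (i + 1) T = 1 := rfl
  rw [this, mul_one]
  exact h.dom i hi T

theorem tp_fw_supp (h : 𝔖.Ok p) (hg : 𝔊.Ok g) (R : 𝔊.Restr) (nr : ∀ i, 𝔖.C i → Prop) (ω : 𝔊.Dir) (i : ℕ)
    (hi : i ≤ 𝔖.ℓ) (T : 𝔖.C i) (hT : fw (𝔊.vx R nr ω) 𝔖.eh i T ≠ 0) :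
    T ∈ R i ω ∧ nr i T ∧ 𝔊.cap i T = 𝔊.anc i ω := by
  have h1 := vx_ne_zero i T (fw_vertex i T hT)
  refine ⟨h1.1, h1.2, ?_⟩
  refine fw_supp (fun i T => 𝔊.cap i T = 𝔊.anc i ω) 𝔖.ℓ (fun γ hγ => ?_) (fun k hk T' T hQ hE _ => ?_) i hi T hT
  · rw [vx_zero] at hγ
    by_cases h' : γ ∈ R 0 ω ∧ 𝔊.dir γ = ω ∧ nr 0 γ
    · rw [hg.anc_leaf, h'.2.1]
    · rw [if_neg h'] at hγ; exact absurd rfl hγ
  · refine hg.nest k hk T' T ω ?_ hQ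
    have := lt_of_le_of_ne (h.eh_nonneg k T' T) (Ne.symm hE)
    exact ne_of_gt (lt_of_lt_of_le this (h.eh_le k T' T))

/-- **LEAF L-257-TP-SUPP.**  The cells carrying near path mass are allowed, near and lie in the assigned cap.
PLAN.  `T ∈ R i ω ∧ inc i z T`: `fw_vertex` + `vx_ne_zero`.   Cap: `fw_supp` with `Q i T = (cap i T = anc i ω)`, `N = ℓ`; height `0`: `vx ≠ 0` gives `dir T = ω`, `hg.anc_leaf`; step: `eh ≠ 0 → e ≠ 0` (`0 ≤ eh ≤ e`), `hg.nest`. -/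
theorem tp_fn_supp (h : 𝔖.Ok p) (hg : 𝔊.Ok g) (R : 𝔊.Restr) (z : 𝔖.Y) (ω : 𝔊.Dir) (i : ℕ) (hi : i ≤ 𝔖.ℓ) (T : 𝔖.C i)
    (hT : 𝔊.fn R z ω i T ≠ 0) : T ∈ R i ω ∧ 𝔖.inc i z T ∧ 𝔊.cap i T = 𝔊.anc i ω := by
  exact tp_fw_supp h hg R _ ω i hi T hT

/-- the same for all surviving paths (**LEAF L-257-TP-SUPP**, second half) -/
theorem tp_fa_supp (h : 𝔖.Ok p) (hg : 𝔊.Ok g) (R : 𝔊.Restr) (ω : 𝔊.Dir) (i : ℕ) (hi : i ≤ 𝔖.ℓ) (T : 𝔖.C i)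
    (hT : 𝔊.fa R ω i T ≠ 0) : T ∈ R i ω ∧ 𝔊.cap i T = 𝔊.anc i ω := by
  have := tp_fw_supp h hg R _ ω i hi T hT
  exact ⟨this.1, this.2.2⟩

theorem tp_up_aux (h : 𝔖.Ok p) (hg : 𝔊.Ok g) (R : 𝔊.Restr) (z : 𝔖.Y) (ω : 𝔊.Dir) (i d : ℕ) (hid : i + d ≤ 𝔖.ℓ) :
    ∑ T, 𝔊.fn R z ω (i + d) T * 𝔖.w (i + d) T z ≤ g.Γc ^ d * ∑ T, 𝔊.fn R z ω i T * 𝔖.w i T z := by
  refine fw_up (vx_nonneg _ _ _) h.eh_nonneg (fun k T => 𝔖.w k T z) (zero_le_one.trans hg.one_le_Γc) i d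
    (fun k _ hk T' => ?_)
  refine le_trans (Finset.sum_le_sum fun T _ => ?_) (hg.conv k (by omega) T' z)
  have h1 := vx_succ_le_one R (fun i T => 𝔖.inc i z T) ω k T
  have h2 := vx_nonneg R (fun i T => 𝔖.inc i z T) ω (k + 1) T
  have h3 := h.eh_nonneg k T' T
  have h4 := h.w_nonneg (k + 1) T z
  calc 𝔖.eh k T' T * 𝔊.vx R (fun i T => 𝔖.inc i z T) ω (k + 1) T * 𝔖.w (k + 1) T z
      ≤ 𝔖.eh k T' T * 1 * 𝔖.w (k + 1) T z := by gcongr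
    _ = _ := by ring

/-- **LEAF L-257-TP-UP.**  Positive convolution from the height `i` to the root.
PLAN.  `fw_up` with `j = i`, `d = ℓ - i`, `u k T = w k T z`, `c = Γc`: `∑_T eh k T' T * vx (k+1) T * w (k+1) T z ≤ ∑_T eh k T' T * w (k+1) T z ≤ Γc w k T' z` (`vx_succ_le_one`, `hg.conv`).  Rewrite `i + (ℓ - i) = ℓ` with `obtain ⟨d, rfl⟩ := Nat.exists_eq_add_of_le hi`-style generalisation BEFORE unfolding (`𝔖.ℓ` is a field: state an auxiliary lemma for `∀ d, i + d = 𝔖.ℓ → …` and `subst`/`▸` carefully, or prove `∀ n, n ≤ ℓ → i ≤ n → ∑_T fn n T * w n T z ≤ Γc^(n-i) …` by `Nat.le_induction`). -/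
theorem tp_Jn_up (h : 𝔖.Ok p) (hg : 𝔊.Ok g) (R : 𝔊.Restr) (z : 𝔖.Y) (ω : 𝔊.Dir) (i : ℕ) (hi : i ≤ 𝔖.ℓ) :
    𝔊.Jn R z ω ≤ g.Γc ^ (𝔖.ℓ - i) * ∑ T, 𝔊.fn R z ω i T * 𝔖.w i T z := by
  have key : ∀ n, n = 𝔖.ℓ → ∑ T, 𝔊.fn R z ω n T * 𝔖.w n T z ≤
      g.Γc ^ (𝔖.ℓ - i) * ∑ T, 𝔊.fn R z ω i T * 𝔖.w i T z := by
    intro n hn
    obtain ⟨d, hd⟩ := Nat.exists_eq_add_of_le hi
    have hd' : 𝔖.ℓ - i = d := by omega
    rw [hd']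
    have hn' : n = i + d := by omega
    subst hn'
    exact tp_up_aux h hg R z ω i d (by omega)
  exact key 𝔖.ℓ rfl

/-- **LEAF L-257-TP-WLE.**  `W ≤ ϖ0` (full-background convolution, l.863-865).
PLAN.  `Wa = ∑_ω ∑_T fa ℓ T w ≤ ∑_T (∑_ω fe ω ℓ T) w ≤ ∑_T b² w = sq ℓ (b ℓ) z ≤ ϖ0` (`Finset.sum_comm`, `fa_le_fe`, `tp_sum_fe_le`, `h.sq_le`). -/
theorem tp_Wa_le (h : 𝔖.Ok p) (R : 𝔊.Restr) (z : 𝔖.Y) : 𝔊.Wa R z ≤ p.ϖ0 := by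
  unfold Wa Ja
  rw [Finset.sum_comm]
  refine le_trans (Finset.sum_le_sum fun T _ => ?_) (h.sq_le 𝔖.ℓ le_rfl z)
  rw [← Finset.sum_mul]
  refine mul_le_mul_of_nonneg_right ?_ (h.w_nonneg _ _ _)
  exact (Finset.sum_le_sum fun ω _ => fa_le_fe h R ω _ T).trans (tp_sum_fe_le h _ le_rfl T)

theorem tp_Wn_le_Wa (h : 𝔖.Ok p) (R : 𝔊.Restr) (z : 𝔖.Y) : 𝔊.Wn R z ≤ 𝔊.Wa R z :=
  Finset.sum_le_sum fun ω _ => Finset.sum_le_sum fun T _ =>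
    mul_le_mul_of_nonneg_right (fn_le_fa h R z ω _ T) (h.w_nonneg _ _ _)

theorem tp_fe_nonneg (h : 𝔖.Ok p) (ω : 𝔊.Dir) (i : ℕ) (T : 𝔖.C i) : 0 ≤ 𝔊.fe ω i T :=
  fw_nonneg (vx_nonneg _ _ _) (tp_e_nonneg h) i T

theorem tp_vx_near (R : 𝔊.Restr) (z : 𝔖.Y) (ω : 𝔊.Dir) :
    (fun i T => if 𝔖.inc i z T then 𝔊.vx R (fun _ _ => True) ω i T else 0) = 𝔊.vx R (fun i T => 𝔖.inc i z T) ω := by
  funext i T
  cases i with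
  | zero =>
      rw [vx_zero, vx_zero]
      by_cases h1 : 𝔖.inc 0 z T
      · simp only [h1, if_true, and_true]
      · simp only [h1, if_false, and_false]
  | succ i =>
      rw [vx_succ, vx_succ]
      by_cases h1 : 𝔖.inc (i + 1) z T
      · simp only [h1, if_true, and_true]
      · simp only [h1, if_false, and_false]

/-- **LEAF L-257-TP-FAR.**  The far paths have small mass (l.866-878).
PLAN.  For fixed `ω`: `fw_far_sum` with `v = vx R True ω`, `E = eh`, `Eb = e`, `Nr i T = inc i z T`, `B = fe ω`, `N = ℓ`, `u = w ℓ · z`, `ub = wb · z`;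
`(fun i T => if inc i z T then vx R True ω i T else 0) = vx R (inc · z ·) ω` (funext, cases on `i`, `simp [vx]`, `and_assoc`);  `hB`: `fe ω (i+1) T = (∑ fe ω i T' * e) * 1` and `vx ≤ 1`;  `hlong = hg.far_edge`, `hub = hg.far_root`.
Sum over `ω`, `Finset.sum_comm`, `tp_sum_fe_le`, `h.sq_le`, `hg.sqb_le`. -/
theorem tp_far (h : 𝔖.Ok p) (hg : 𝔊.Ok g) (R : 𝔊.Restr) (z : 𝔖.Y) :
    𝔊.Wa R z ≤ 𝔊.Wn R z + g.δ * (𝔖.ℓ * p.ϖ0 + g.ϖb) := by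
  have hω : ∀ ω, 𝔊.Ja R z ω ≤ 𝔊.Jn R z ω + 𝔖.ℓ * g.δ * ∑ T, 𝔊.fe ω 𝔖.ℓ T * 𝔖.w 𝔖.ℓ T z + g.δ * ∑ T, 𝔊.fe ω 𝔖.ℓ T * 𝔊.wb T z := by
    intro ω
    have h1 := fw_far_sum (v := 𝔊.vx R (fun _ _ => True) ω) (E := 𝔖.eh) (Eb := 𝔖.e) (vx_nonneg _ _ _) h.eh_nonneg h.eh_le
      (fun i T => 𝔖.inc i z T) (𝔊.fe ω) (tp_fe_nonneg h ω) 𝔖.ℓ
      (fun T => vx_mono (fun _ _ => Finset.subset_univ _) (fun _ _ h => h) ω 0 T)
      (fun i _ T => mul_le_mul_of_nonneg_left (vx_mono (fun _ _ => Finset.subset_univ _) (fun _ _ h => h) ω (i + 1) T)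
        (Finset.sum_nonneg fun T' _ => mul_nonneg (tp_fe_nonneg h ω i T') (tp_e_nonneg h i T' T)))
      hg.δ_nonneg (fun i hi T' T h1 h2 => hg.far_edge i hi T' T z h1 h2)
      (fun T => 𝔖.w 𝔖.ℓ T z) (fun T => 𝔊.wb T z) (fun T => h.w_nonneg _ _ _) (fun T hT => hg.far_root T z hT) (fun T => hg.wb_nonneg T z)
    rw [tp_vx_near] at h1
    exact h1
  have hs1 : ∑ ω, ∑ T, 𝔊.fe ω 𝔖.ℓ T * 𝔖.w 𝔖.ℓ T z ≤ p.ϖ0 := by
    calc ∑ ω, ∑ T, 𝔊.fe ω 𝔖.ℓ T * 𝔖.w 𝔖.ℓ T z = ∑ T, (∑ ω, 𝔊.fe ω 𝔖.ℓ T) * 𝔖.w 𝔖.ℓ T z := by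
          rw [Finset.sum_comm]
          exact Finset.sum_congr rfl fun T _ => (Finset.sum_mul _ _ _).symm
      _ ≤ ∑ T, 𝔖.b 𝔖.ℓ T ^ 2 * 𝔖.w 𝔖.ℓ T z :=
          Finset.sum_le_sum fun T _ => mul_le_mul_of_nonneg_right (tp_sum_fe_le h _ le_rfl T) (h.w_nonneg _ _ _)
      _ ≤ p.ϖ0 := h.sq_le 𝔖.ℓ le_rfl z
  have hs2 : ∑ ω, ∑ T, 𝔊.fe ω 𝔖.ℓ T * 𝔊.wb T z ≤ g.ϖb := by
    calc ∑ ω, ∑ T, 𝔊.fe ω 𝔖.ℓ T * 𝔊.wb T z = ∑ T, (∑ ω, 𝔊.fe ω 𝔖.ℓ T) * 𝔊.wb T z := by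
          rw [Finset.sum_comm]
          exact Finset.sum_congr rfl fun T _ => (Finset.sum_mul _ _ _).symm
      _ ≤ ∑ T, 𝔖.b 𝔖.ℓ T ^ 2 * 𝔊.wb T z :=
          Finset.sum_le_sum fun T _ => mul_le_mul_of_nonneg_right (tp_sum_fe_le h _ le_rfl T) (hg.wb_nonneg _ _)
      _ ≤ g.ϖb := hg.sqb_le z
  have hδ := hg.δ_nonneg
  have hℓ : (0 : ℝ) ≤ 𝔖.ℓ := Nat.cast_nonneg _
  calc 𝔊.Wa R z = ∑ ω, 𝔊.Ja R z ω := rfl
    _ ≤ ∑ ω, (𝔊.Jn R z ω + 𝔖.ℓ * g.δ * ∑ T, 𝔊.fe ω 𝔖.ℓ T * 𝔖.w 𝔖.ℓ T z + g.δ * ∑ T, 𝔊.fe ω 𝔖.ℓ T * 𝔊.wb T z) :=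
        Finset.sum_le_sum fun ω _ => hω ω
    _ = 𝔊.Wn R z + 𝔖.ℓ * g.δ * ∑ ω, ∑ T, 𝔊.fe ω 𝔖.ℓ T * 𝔖.w 𝔖.ℓ T z + g.δ * ∑ ω, ∑ T, 𝔊.fe ω 𝔖.ℓ T * 𝔊.wb T z := by
        rw [Finset.sum_add_distrib, Finset.sum_add_distrib, ← Finset.mul_sum, ← Finset.mul_sum]
        rfl
    _ ≤ 𝔊.Wn R z + 𝔖.ℓ * g.δ * p.ϖ0 + g.δ * g.ϖb := by gcongr
    _ = _ := by ring

/-- the untagged vertex weights of a mask tree -/
def tp_vS (S : ∀ i, Finset (𝔖.C i)) : ∀ i, 𝔖.C i → ℝ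
  | 0, T => if T ∈ S 0 then 𝔖.b 0 T ^ 2 else 0
  | i + 1, T => if T ∈ S (i + 1) then 1 else 0

theorem tp_fw_vS (S : ∀ i, Finset (𝔖.C i)) : ∀ (i : ℕ) (T : 𝔖.C i),
    fw (tp_vS S) 𝔖.eh i T = if T ∈ S i then 𝔖.bet S i T else 0
  | 0, _ => rfl
  | i + 1, T => by
      rw [fw_succ]
      have h1 : ∑ T', fw (tp_vS S) 𝔖.eh i T' * 𝔖.eh i T' T = 𝔖.bet S (i + 1) T := by
        have e : 𝔖.bet S (i + 1) T = ∑ T' ∈ S i, 𝔖.bet S i T' * 𝔖.eh i T' T := rfl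
        rw [e]
        simp only [tp_fw_vS S i, ite_mul, zero_mul, Finset.sum_ite_mem, Finset.univ_inter]
      have h2 : tp_vS S (i + 1) T = if T ∈ S (i + 1) then 1 else 0 := rfl
      rw [h1, h2]
      split_ifs
      · rw [mul_one]
      · rw [mul_zero]

/-- **LEAF L-257-TP-WF (1).**  Sum of the tagged masses of a mask tree = the fresh propagated squares.
PLAN.  Induction on `i` (or `fw_tag` + induction): `∑_ω fa (ofMask S) ω i T = fw v₀ eh i T`, `v₀ 0 T = if T ∈ S 0 then b² else 0`, `v₀ (i+1) T = if T ∈ S (i+1) then 1 else 0`;  `fw v₀ eh i T = if T ∈ S i then bet S i T else 0` (`Finset.sum_ite_mem`/`Finset.sum_filter`). -/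
theorem tp_sum_fa (S : ∀ i, Finset (𝔖.C i)) (i : ℕ) (T : 𝔖.C i) :
    ∑ ω, 𝔊.fa (𝔊.ofMask S) ω i T = if T ∈ S i then 𝔖.bet S i T else 0 := by
  rw [← tp_fw_vS S i T]
  refine fw_tag Finset.univ (fun ω => 𝔊.vx (𝔊.ofMask S) (fun _ _ => True) ω) (tp_vS S) 𝔖.eh ?_ ?_ i T
  · intro T
    have e : tp_vS S 0 T = if T ∈ S 0 then 𝔖.b 0 T ^ 2 else 0 := rfl
    rw [e]
    simp only [vx_zero, ofMask, and_true]
    by_cases hT : T ∈ S 0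
    · simp only [hT, true_and, Finset.sum_ite_eq, Finset.mem_univ, if_true]
    · simp only [hT, false_and, if_false, Finset.sum_const_zero]
  · intro ω _ i T
    simp only [vx_succ, ofMask, and_true]
    rfl

/-- **LEAF L-257-TP-WF (2).** -/
theorem tp_Wa_eq_Wf (S : ∀ i, Finset (𝔖.C i)) (z : 𝔖.Y) : 𝔊.Wa (𝔊.ofMask S) z = 𝔖.Wf S z := by
  calc 𝔊.Wa (𝔊.ofMask S) z = ∑ ω, ∑ T, 𝔊.fa (𝔊.ofMask S) ω 𝔖.ℓ T * 𝔖.w 𝔖.ℓ T z := rfl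
    _ = ∑ T, (∑ ω, 𝔊.fa (𝔊.ofMask S) ω 𝔖.ℓ T) * 𝔖.w 𝔖.ℓ T z := by
        rw [Finset.sum_comm]
        exact Finset.sum_congr rfl fun T _ => (Finset.sum_mul _ _ _).symm
    _ = ∑ T ∈ S 𝔖.ℓ, 𝔖.bet S 𝔖.ℓ T * 𝔖.w 𝔖.ℓ T z := by
        simp only [tp_sum_fa, ite_mul, zero_mul, Finset.sum_ite_mem, Finset.univ_inter]
    _ = 𝔖.Wf S z := rfl

end TGeo

namespace TSys

variable {𝔖 : TSys} {p : TPar}

theorem tp_adm_res (h : 𝔖.Ok p) {i : ℕ} (U : Finset (𝔖.C i)) (g : 𝔖.C i → 𝔖.F) (a : 𝔖.C i → ℝ) (hg : 𝔖.Adm i g a) :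
    𝔖.Adm i (𝔖.res U g) (𝔖.resA U a) := by
  intro T
  unfold res resA
  by_cases hT : T ∈ U
  · rw [if_pos hT, if_pos hT]; exact hg T
  · rw [if_neg hT, if_neg hT]; exact h.pk_zero i T

/-- **LEAF L-257-TP-FRESH (0).**  The tree families are admissible with their fresh amplitudes (`leaf`, `closure`, `pk_zero`). -/
theorem ts_adm (h : 𝔖.Ok p) (S : ∀ i, Finset (𝔖.C i)) (i : ℕ) (hi : i ≤ 𝔖.ℓ) :
    𝔖.Adm i (𝔖.fld S i) (𝔖.am S i) ∧ 𝔖.Adm i (𝔖.res (S i) (𝔖.fld S i)) (𝔖.resA (S i) (𝔖.am S i)) := by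
  have key : ∀ i, i ≤ 𝔖.ℓ → 𝔖.Adm i (𝔖.fld S i) (𝔖.am S i) := by
    intro i
    induction i with
    | zero => intro _; exact h.leaf
    | succ i ih =>
      intro hi
      exact h.closure i (by omega) _ _ (tp_adm_res h (S i) _ _ (ih (by omega)))
  exact ⟨key i hi, tp_adm_res h (S i) _ _ (key i hi)⟩

theorem tp_bet_nonneg (h : 𝔖.Ok p) (S : ∀ i, Finset (𝔖.C i)) : ∀ i (T : 𝔖.C i), 0 ≤ 𝔖.bet S i T
  | 0, T => sq_nonneg _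
  | i + 1, T => Finset.sum_nonneg fun T' _ => mul_nonneg (tp_bet_nonneg h S i T') (h.eh_nonneg _ _ _)

theorem tp_sum_resA_sq {i : ℕ} (U : Finset (𝔖.C i)) (a : 𝔖.C i → ℝ) (f : 𝔖.C i → ℝ) :
    ∑ T', 𝔖.resA U a T' ^ 2 * f T' = ∑ T' ∈ U, a T' ^ 2 * f T' := by
  rw [← Finset.sum_filter_add_sum_filter_not Finset.univ (fun T' => T' ∈ U)]
  have h1 : ∑ T' ∈ Finset.univ.filter (fun T' => ¬ T' ∈ U), 𝔖.resA U a T' ^ 2 * f T' = 0 := by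
    refine Finset.sum_eq_zero fun T' hT' => ?_
    have := (Finset.mem_filter.1 hT').2
    simp [resA, this]
  rw [h1, add_zero]
  have h2 : Finset.univ.filter (fun T' => T' ∈ U) = U := by ext; simp
  rw [h2]
  refine Finset.sum_congr rfl fun T' hT' => ?_
  simp [resA, hT']

theorem tp_prod_pos (h : 𝔖.Ok p) (i : ℕ) : 0 < ∏ m ∈ Finset.range i, p.Γ m :=
  Finset.prod_pos fun m _ => lt_of_lt_of_le one_pos (h.one_le_Γ m)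

/-- **LEAF L-257-TP-FRESH (1).**  Cauchy along the tree against the FRESH squares: `am_i(T)² ≤ (∏_{m<i} Γ_m) bet_i(T)`.
PLAN.  Induction on `i`.  `am S (i+1) T = amp i (res (S i) (fld S i)) T`;  `h.cauchy` for the family `res (S i) (fld S i)` with amplitudes `resA (S i) (am S i)` (admissible: `ts_adm`);  `∑_{T'} (resA ..)² eh = ∑_{T' ∈ S i} am² eh`. -/
theorem tp_am_sq_le (h : 𝔖.Ok p) (S : ∀ i, Finset (𝔖.C i)) (i : ℕ) (hi : i ≤ 𝔖.ℓ) (T : 𝔖.C i) :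
    𝔖.am S i T ^ 2 ≤ (∏ m ∈ Finset.range i, p.Γ m) * 𝔖.bet S i T := by
  induction i with
  | zero => simp [am, bet]
  | succ i ih =>
    have hc := h.cauchy i (by omega) _ _ (ts_adm h S i (by omega)).2 T
    rw [tp_sum_resA_sq] at hc
    have hΓ : 0 ≤ p.Γ i := zero_le_one.trans (h.one_le_Γ i)
    calc 𝔖.am S (i + 1) T ^ 2 ≤ p.Γ i * ∑ T' ∈ S i, 𝔖.am S i T' ^ 2 * 𝔖.eh i T' T := hc
      _ ≤ p.Γ i * ∑ T' ∈ S i, ((∏ m ∈ Finset.range i, p.Γ m) * 𝔖.bet S i T') * 𝔖.eh i T' T := by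
          refine mul_le_mul_of_nonneg_left (Finset.sum_le_sum fun T' _ => ?_) hΓ
          exact mul_le_mul_of_nonneg_right (ih (by omega) T') (h.eh_nonneg _ _ _)
      _ = (∏ m ∈ Finset.range (i + 1), p.Γ m) * 𝔖.bet S (i + 1) T := by
          rw [Finset.prod_range_succ]
          show _ = _ * ∑ T' ∈ S i, 𝔖.bet S i T' * 𝔖.eh i T' T
          rw [Finset.mul_sum, Finset.mul_sum]
          refine Finset.sum_congr rfl fun T' _ => ?_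
          ring

theorem tp_am_nonneg (h : 𝔖.Ok p) (S : ∀ i, Finset (𝔖.C i)) : ∀ i (T : 𝔖.C i), 0 ≤ 𝔖.am S i T
  | 0, T => h.b_nonneg 0 T
  | i + 1, T => h.amp_nonneg _ _ _

theorem tp_bud_res_le (h : 𝔖.Ok p) {i : ℕ} (U : Finset (𝔖.C i)) (a b : 𝔖.C i → ℝ) (ha : ∀ T, 0 ≤ a T)
    (hb : ∀ T, 0 ≤ b T) : 𝔖.bud p.q i (𝔖.resA U a) (𝔖.resA U b) ≤ 𝔖.bud p.q i a b := by
  unfold bud
  refine Finset.sum_le_sum fun T _ => ?_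
  by_cases hT : T ∈ U
  · simp [resA, hT]
  · have hq : p.q ≠ 0 := by have := h.q_gt; linarith
    simp only [resA, hT, if_false, Real.zero_rpow hq, mul_zero, zero_mul]
    exact mul_nonneg (mul_nonneg (h.vol_pos i).le (Real.rpow_nonneg (ha T) _)) (Real.rpow_nonneg (hb T) _)

/-- **LEAF L-257-TP-FRESH (2).**  The weighted norm estimate applied afresh (l.856-858): budget of the tree against the fresh weights `√bet`.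
PLAN.  Induction on `i` with `h.hier`: children weights `b' = resA (S i) (√bet_i)`, parent weights `b = √bet_{i+1}`: `∑_{T'} b'² eh = ∑_{T' ∈ S i} bet eh = bet_{i+1}` (`Real.sq_sqrt`, `bet ≥ 0`);  positivity `a ≠ 0 → 0 < b'` from `tp_am_sq_le`;
`bud` decreases when both `a` and `b` are restricted to `S (i+1)` (terms `≥ 0`; off the mask `0^q * _ = 0`, `Real.zero_rpow`).  `bud q 0 (resA (S 0) (b 0)) (resA (S 0) (√(b 0)²)) ≤ D` (`b^q b^{2-q} = b²`, `Real.rpow_add`, or `b = 0`). -/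
theorem tp_fresh_bud (h : 𝔖.Ok p) (S : ∀ i, Finset (𝔖.C i)) (i : ℕ) (hi : i ≤ 𝔖.ℓ) :
    𝔖.bud p.q i (𝔖.resA (S i) (𝔖.am S i)) (𝔖.resA (S i) fun T => Real.sqrt (𝔖.bet S i T)) ≤ p.L ^ i * 𝔖.D := by
  have hq : p.q ≠ 0 := by have := h.q_gt; linarith
  induction i with
  | zero =>
    rw [pow_zero, one_mul]
    refine (tp_bud_res_le h (S 0) _ _ (tp_am_nonneg h S 0) (fun T => Real.sqrt_nonneg _)).trans (le_of_eq ?_)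
    unfold bud D en
    refine Finset.sum_congr rfl fun T _ => ?_
    have hb := h.b_nonneg 0 T
    have e1 : 𝔖.am S 0 T = 𝔖.b 0 T := rfl
    have e2 : Real.sqrt (𝔖.bet S 0 T) = 𝔖.b 0 T := by
      show Real.sqrt (𝔖.b 0 T ^ 2) = _
      exact Real.sqrt_sq hb
    show 𝔖.vol 0 * 𝔖.am S 0 T ^ p.q * Real.sqrt (𝔖.bet S 0 T) ^ (2 - p.q) = _
    rw [e1, e2, mul_assoc]
    congr 1
    rcases hb.eq_or_lt with h0 | h0
    · rw [← h0, Real.zero_rpow hq]; simp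
    · rw [← Real.rpow_add h0]
      have : p.q + (2 - p.q) = (2 : ℕ) := by norm_num
      rw [this, Real.rpow_natCast]
  | succ i ih =>
    have ih' := ih (by omega)
    have hadm := (ts_adm h S i (by omega)).2
    have hh := h.hier i (by omega) _ _ hadm (𝔖.resA (S i) fun T => Real.sqrt (𝔖.bet S i T))
      (fun T => Real.sqrt (𝔖.bet S (i + 1) T)) ?_ ?_ (fun T => Real.sqrt_nonneg _) ?_
    · have hL : 0 ≤ p.L := zero_le_one.trans h.one_le_L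
      calc 𝔖.bud p.q (i + 1) (𝔖.resA (S (i + 1)) (𝔖.am S (i + 1)))
            (𝔖.resA (S (i + 1)) fun T => Real.sqrt (𝔖.bet S (i + 1) T))
          ≤ 𝔖.bud p.q (i + 1) (𝔖.am S (i + 1)) (fun T => Real.sqrt (𝔖.bet S (i + 1) T)) :=
            tp_bud_res_le h _ _ _ (tp_am_nonneg h S (i + 1)) (fun T => Real.sqrt_nonneg _)
        _ ≤ p.L * 𝔖.bud p.q i (𝔖.resA (S i) (𝔖.am S i)) (𝔖.resA (S i) fun T => Real.sqrt (𝔖.bet S i T)) := hh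
        _ ≤ p.L * (p.L ^ i * 𝔖.D) := mul_le_mul_of_nonneg_left ih' hL
        _ = _ := by ring
    · intro T'
      unfold resA
      split_ifs
      exacts [Real.sqrt_nonneg _, le_rfl]
    · intro T' hT'
      unfold resA at hT' ⊢
      by_cases hm : T' ∈ S i
      · rw [if_pos hm] at hT' ⊢
        have h1 := tp_am_sq_le h S i (by omega) T'
        have h2 : 0 < 𝔖.am S i T' ^ 2 := by positivity
        have h3 : 0 < 𝔖.bet S i T' := by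
          by_contra hcon
          have h4 : 𝔖.bet S i T' = 0 := le_antisymm (not_lt.1 hcon) (tp_bet_nonneg h S i T')
          rw [h4, mul_zero] at h1
          linarith
        exact Real.sqrt_pos.2 h3
      · rw [if_neg hm] at hT'; exact absurd rfl hT'
    · intro T
      rw [tp_sum_resA_sq, Real.sq_sqrt (tp_bet_nonneg h S (i + 1) T)]
      refine le_of_eq ?_
      show _ = ∑ T' ∈ S i, 𝔖.bet S i T' * 𝔖.eh i T' T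
      refine Finset.sum_congr rfl fun T' _ => ?_
      rw [Real.sq_sqrt (tp_bet_nonneg h S i T')]

/-- **LEAF L-257-TP-LOW.**  LOW PATH MASS IS EXCEPTIONAL (l.855-863), for ANY masks `S`: few witnesses where the root field of the tree is `≥ θ` have fresh square function `≤ ϖ`.
PLAN.  `h.root` with `g = res (S ℓ) (fld S ℓ)`, `a = resA (S ℓ) (am S ℓ)`, `b = resA (S ℓ) (√bet_ℓ)`, `ρ = √(∏ Γ)` (`tp_am_sq_le`), `Y'` = the filter;  `sq ℓ b z = Wf S z` (`Real.sq_sqrt`);  `tp_fresh_bud`. -/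
theorem tp_lowmass (h : 𝔖.Ok p) (S : ∀ i, Finset (𝔖.C i)) (θ ϖ : ℝ) (hθ : 0 < θ) (hϖ : 0 < ϖ)
    (hR : (∏ m ∈ Finset.range 𝔖.ℓ, p.Γ m) * p.Γr 𝔖.ℓ * ϖ ≤ (p.Rm * θ) ^ 2) :
    ((Finset.univ.filter fun z => θ ≤ ‖𝔖.Ev 𝔖.ℓ (𝔖.res (S 𝔖.ℓ) (𝔖.fld S 𝔖.ℓ)) z‖ ∧ 𝔖.Wf S z ≤ ϖ).card : ℝ)
      ≤ p.L0 * θ ^ (-p.q) * ϖ ^ (p.q / 2 - 1) * (p.L ^ 𝔖.ℓ * 𝔖.D) := by
  have hP := tp_prod_pos h 𝔖.ℓ
  have hsq : ∀ z, 𝔖.sq 𝔖.ℓ (𝔖.resA (S 𝔖.ℓ) fun T => Real.sqrt (𝔖.bet S 𝔖.ℓ T)) z = 𝔖.Wf S z := by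
    intro z
    unfold sq Wf
    rw [tp_sum_resA_sq]
    refine Finset.sum_congr rfl fun T _ => ?_
    rw [Real.sq_sqrt (tp_bet_nonneg h S _ T)]
  have hroot := h.root _ _ (ts_adm h S 𝔖.ℓ le_rfl).2 (𝔖.resA (S 𝔖.ℓ) fun T => Real.sqrt (𝔖.bet S 𝔖.ℓ T)) ?_ ?_
    (Finset.univ.filter fun z => θ ≤ ‖𝔖.Ev 𝔖.ℓ (𝔖.res (S 𝔖.ℓ) (𝔖.fld S 𝔖.ℓ)) z‖ ∧ 𝔖.Wf S z ≤ ϖ) θ ϖ
    (Real.sqrt (∏ m ∈ Finset.range 𝔖.ℓ, p.Γ m)) hθ hϖ ?_ ?_ ?_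
  · refine hroot.trans ?_
    have hpre : 0 ≤ p.L0 * θ ^ (-p.q) * ϖ ^ (p.q / 2 - 1) := by
      have := zero_le_one.trans h.one_le_L0
      have := Real.rpow_nonneg hθ.le (-p.q)
      have := Real.rpow_nonneg hϖ.le (p.q / 2 - 1)
      positivity
    exact mul_le_mul_of_nonneg_left (tp_fresh_bud h S 𝔖.ℓ le_rfl) hpre
  · intro T
    unfold resA
    split_ifs
    exacts [Real.sqrt_nonneg _, le_rfl]
  · intro T hT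
    unfold resA at hT ⊢
    by_cases hm : T ∈ S 𝔖.ℓ
    · rw [if_pos hm] at hT ⊢
      have h1 := tp_am_sq_le h S 𝔖.ℓ le_rfl T
      have h2 : 0 < 𝔖.am S 𝔖.ℓ T ^ 2 := by positivity
      have h3 : 0 < 𝔖.bet S 𝔖.ℓ T := by
        by_contra hcon
        have h4 : 𝔖.bet S 𝔖.ℓ T = 0 := le_antisymm (not_lt.1 hcon) (tp_bet_nonneg h S _ T)
        rw [h4, mul_zero] at h1
        linarith
      exact Real.sqrt_pos.2 h3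
    · rw [if_neg hm] at hT; exact absurd rfl hT
  · intro T
    unfold resA
    by_cases hm : T ∈ S 𝔖.ℓ
    · rw [if_pos hm, if_pos hm, ← Real.sqrt_mul hP.le]
      exact Real.le_sqrt_of_sq_le (tp_am_sq_le h S 𝔖.ℓ le_rfl T)
    · rw [if_neg hm, if_neg hm, mul_zero]
  · rw [Real.sq_sqrt hP.le]; exact hR
  · intro z hz
    have := (Finset.mem_filter.1 hz).2
    refine ⟨this.1, le_trans ?_ ((hsq z).le.trans this.2)⟩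
    exact Finset.sum_le_sum fun T _ => mul_le_mul_of_nonneg_left (h.wh_le T z) (sq_nonneg _)

end TSys

end

end Claimed.Agent.R257.FR2
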