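import Claimed.Agent.R257.FR2.PathDom

/-!
# ROW 257, package FR2, unit PATH, file 5: EXPORTS = `f:paths` WITH EXPLICIT LOSSES      (architect helper125)            CONTRACT

Paper-free (H `frame.tex` l.833-970).  INTERFACE to ANG (helper90), COND (helper37), FR3 (helper121).
MONOTONE FORM (20:30Z, asked by helper41).  Standing data: `h : 𝔖.Ok p`, `hg : 𝔊.Ok g`, a restriction `R`, ANY kernel `J` with `0 ≤ J z ω ≤ Jn R z ω` (main case `J = Jn R`), a root set `Y'` with `ϖl ≤ ∑_ω J z ω` on `Y'`,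
a law `hL : 𝔊.IsLaw J Y' P Z Om` on an ARBITRARY finite sample space.
* `tp_root_set`    the selected tree: a subset `Y' ⊆ Yf`, `|Yf| ≤ 2 |Y'|`, on which the near path mass is `≥ ϖl / 2`   (low mass exceptional + far paths)
* `tp_law_exists`  the law exists;   `tp_law_supp`, `tp_law_fibZ`, `tp_law_pair`  its elementary description
* `tp_law_att`     sampled `(Z, Ω)`: at every height `Z` is near an allowed cell of the assigned cap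
* `tp_leaf_law`    `t⁻¹ a_Ω(Z) ≤ P(Ω | Z) ≤ (Γc^ℓ/ϖl) a_Ω(Z)`, lower half off probability `ϖ0/t`
* `tp_cap_law`     (f:cap-law)
* `tp_occ`, `tp_occ_law`   (f:occupancy-law)
Every `sorry` is a leaf `L-257-TP-*`.  Statements are frozen (ask helper125).
-/

set_option autoImplicit false

namespace Claimed.Agent.R257.FR2

open scoped BigOperators Classical
open Claimed.Agent.R255 Claimed.Agent.R255.FLaw Claimed.Agent.R257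

noncomputable section

namespace TGeo

variable {𝔖 : TSys} {𝔊 : TGeo 𝔖} {p : TPar} {g : GPar}

/-- **LEAF L-257-TP-ROOT.**  The root set of the selected tree.
PLAN.  `Y' = Yf.filter (ϖl < Wf S z)`.   `Yf \ Y' ⊆ {θ ≤ ‖Ev ℓ ..‖ ∧ Wf ≤ ϖl}` with `θ = A / K` (`hF.high ℓ`), `tp_lowmass`, `hsmall`: `|Yf \ Y'| ≤ |Yf| / 2`.   On `Y'`: `ϖl < Wf = Wa ≤ Wn + δ (..) ≤ Wn + ϖl/2` (`tp_Wa_eq_Wf`, `tp_far`). -/
theorem tp_root_set (h : 𝔖.Ok p) (hg : 𝔊.Ok g) {A K G : ℝ} {S : ∀ i, Finset (𝔖.C i)} {r : ℕ → ℝ} {Yf : Finset 𝔖.Y}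
    (hF : 𝔖.Frozen p.q A K G S r Yf) (hA : 0 < A) (hK : 0 < K) (ϖl : ℝ) (hϖ : 0 < ϖl)
    (hR : (∏ m ∈ Finset.range 𝔖.ℓ, p.Γ m) * p.Γr 𝔖.ℓ * ϖl ≤ (p.Rm * (A / K)) ^ 2)
    (hsmall : p.L0 * (A / K) ^ (-p.q) * ϖl ^ (p.q / 2 - 1) * (p.L ^ 𝔖.ℓ * 𝔖.D) ≤ Yf.card / 2)
    (hδ : g.δ * (𝔖.ℓ * p.ϖ0 + g.ϖb) ≤ ϖl / 2) :
    ∃ Y' ⊆ Yf, (Yf.card : ℝ) ≤ 2 * Y'.card ∧ ∀ z ∈ Y', ϖl / 2 ≤ 𝔊.Wn (𝔊.ofMask S) z := by
  have hθ : 0 < A / K := div_pos hA hK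
  refine ⟨Yf.filter fun z => ϖl < 𝔖.Wf S z, Finset.filter_subset _ _, ?_, ?_⟩
  · have h1 : ((Yf.filter fun z => ¬ ϖl < 𝔖.Wf S z).card : ℝ) ≤ Yf.card / 2 := by
      refine le_trans ?_ ((TSys.tp_lowmass h S (A / K) ϖl hθ hϖ hR).trans hsmall)
      refine Nat.cast_le.2 (Finset.card_le_card ?_)
      intro z hz
      obtain ⟨hz1, hz2⟩ := Finset.mem_filter.1 hz
      refine Finset.mem_filter.2 ⟨Finset.mem_univ _, ?_, not_lt.1 hz2⟩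
      rw [div_le_iff₀' hK]
      exact hF.high 𝔖.ℓ le_rfl z hz1
    have h2 := Finset.card_filter_add_card_filter_not (s := Yf) (fun z => ϖl < 𝔖.Wf S z)
    have h3 : ((Yf.filter fun z => ϖl < 𝔖.Wf S z).card : ℝ) + ((Yf.filter fun z => ¬ ϖl < 𝔖.Wf S z).card : ℝ) = Yf.card := by
      exact_mod_cast h2
    linarith
  · intro z hz
    have h1 : ϖl < 𝔖.Wf S z := (Finset.mem_filter.1 hz).2
    have h2 := tp_far h hg (𝔊.ofMask S) z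
    rw [tp_Wa_eq_Wf] at h2
    linarith

/-- **LEAF L-257-TP-LAW (0).**  Existence: `p (z, ω) = if z ∈ Y' then J z ω / (|Y'| ∑ J z ·) else 0` on `𝔖.Y × 𝔊.Dir`; `pr (fst = z ∧ snd = ω) = p (z, ω)`. -/
theorem tp_law_exists (J : 𝔖.Y → 𝔊.Dir → ℝ) (hJ0 : ∀ z ω, 0 ≤ J z ω) (Y' : Finset 𝔖.Y) (hY : Y'.Nonempty)
    (hW : ∀ z ∈ Y', 0 < ∑ ω, J z ω) : ∃ P : FLaw (𝔖.Y × 𝔊.Dir), 𝔊.IsLaw J Y' P Prod.fst Prod.snd := by
  have hN : (0 : ℝ) < Y'.card := by exact_mod_cast hY.card_pos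
  refine ⟨⟨fun x => if x.1 ∈ Y' then J x.1 x.2 / (Y'.card * ∑ ω', J x.1 ω') else 0, ?_, ?_⟩, ⟨?_⟩⟩
  · intro x
    split_ifs
    · exact div_nonneg (hJ0 _ _) (mul_nonneg hN.le (Finset.sum_nonneg fun ω _ => hJ0 _ _))
    · exact le_rfl
  · rw [Fintype.sum_prod_type]
    have h1 : ∀ z : 𝔖.Y, ∑ ω, (if z ∈ Y' then J z ω / (Y'.card * ∑ ω', J z ω') else 0) = if z ∈ Y' then (Y'.card : ℝ)⁻¹ else 0 := by
      intro z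
      by_cases hz : z ∈ Y'
      · simp only [if_pos hz]
        rw [← Finset.sum_div]
        have := (hW z hz).ne'
        field_simp
      · simp only [if_neg hz, Finset.sum_const_zero]
    simp only [h1]
    rw [Finset.sum_ite_mem, Finset.univ_inter, Finset.sum_const, nsmul_eq_mul, mul_inv_cancel₀ hN.ne']
  · intro z ω
    unfold FLaw.pr
    have h1 : ∀ x : 𝔖.Y × 𝔊.Dir, (x.1 = z ∧ x.2 = ω) ↔ x = (z, ω) := fun x =>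
      ⟨fun h => Prod.ext h.1 h.2, fun h => by rw [h]; exact ⟨rfl, rfl⟩⟩
    simp only [h1]
    rw [Finset.sum_ite_eq' Finset.univ (z, ω), if_pos (Finset.mem_univ _)]

variable {R : 𝔊.Restr} {J : 𝔖.Y → 𝔊.Dir → ℝ} {Y' : Finset 𝔖.Y} {Ω₀ : Type} [Fintype Ω₀] {P : FLaw Ω₀} {Z : Ω₀ → 𝔖.Y} {Om : Ω₀ → 𝔊.Dir}

/-- **LEAF L-257-TP-LAW (1).**  `ent_fib_pair` + `hL.joint`. -/
theorem tp_law_pair (hL : 𝔊.IsLaw J Y' P Z Om) (x : Ω₀) :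
    P.fib (pair Z Om) x = if Z x ∈ Y' then J (Z x) (Om x) / (Y'.card * ∑ ω, J (Z x) ω) else 0 := by
  rw [ent_fib_pair]
  exact hL.joint (Z x) (Om x)

/-- **LEAF L-257-TP-LAW (2).**  `0 < P.p x ≤ fib (pair Z Om) x` (`ent_p_le_fib`). -/
theorem tp_law_supp (hL : 𝔊.IsLaw J Y' P Z Om) (x : Ω₀) (hx : P.p x ≠ 0) :
    Z x ∈ Y' ∧ J (Z x) (Om x) ≠ 0 := by
  have h1 : 0 < P.fib (pair Z Om) x := ent_fib_pos P _ hx
  rw [tp_law_pair hL] at h1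
  by_cases hz : Z x ∈ Y'
  · refine ⟨hz, fun h0 => ?_⟩
    rw [if_pos hz, h0, zero_div] at h1
    exact lt_irrefl _ h1
  · rw [if_neg hz] at h1
    exact absurd h1 (lt_irrefl _)

/-- **LEAF L-257-TP-LAW (3).**  `fib Z x = ∑_ω pr (Z = z ∧ Om = ω)` (`ent_pr_sum_values` with `S = univ`) `= ∑_ω J / (|Y'| ∑ J) = 1 / |Y'|`. -/
theorem tp_law_fibZ (hL : 𝔊.IsLaw J Y' P Z Om) (hW : ∀ z ∈ Y', 0 < ∑ ω, J z ω) (x : Ω₀) (hx : P.p x ≠ 0) :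
    P.fib Z x = 1 / Y'.card := by
  obtain ⟨hz, -⟩ := tp_law_supp hL x hx
  have hN : (0 : ℝ) < Y'.card := by exact_mod_cast Finset.card_pos.2 ⟨_, hz⟩
  have h1 : P.fib Z x = ∑ ω ∈ Finset.univ, P.pr (fun x' => Z x' = Z x ∧ Om x' = ω) :=
    ent_pr_sum_values P (fun x' => Z x' = Z x) Om Finset.univ fun _ _ _ => Finset.mem_univ _
  rw [h1]
  simp only [hL.joint, if_pos hz]
  rw [← Finset.sum_div]
  have := (hW _ hz).ne'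
  field_simp

theorem tp_law_att (h : 𝔖.Ok p) (hg : 𝔊.Ok g) (hJ0 : ∀ z ω, 0 ≤ J z ω) (hJR : ∀ z ω, J z ω ≤ 𝔊.Jn R z ω)
    (hL : 𝔊.IsLaw J Y' P Z Om) (x : Ω₀) (hx : P.p x ≠ 0) (j : ℕ)
    (hj : j ≤ 𝔖.ℓ) : ∃ T ∈ R j (Om x), 𝔊.cap j T = 𝔊.anc j (Om x) ∧ 𝔖.inc j (Z x) T :=
  tp_attached h hg R (Z x) (Om x)
    (ne_of_gt (lt_of_lt_of_le (lt_of_le_of_ne (hJ0 _ _) (Ne.symm (tp_law_supp hL x hx).2)) (hJR _ _))) j hj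

/-- **LEAF L-257-TP-LEAF.**  The leaf law.   Upper half: `tp_law_pair`, `tp_law_fibZ`, `tp_Jn_le_leaf`, `ϖl ≤ Wn`.   Lower half: `fp_exc P Om Z (fun z ω => leafw z ω)` with `tp_sum_leafw`, `ε = 1/t`. -/
theorem tp_leaf_law (h : 𝔖.Ok p) (hg : 𝔊.Ok g) (hJ0 : ∀ z ω, 0 ≤ J z ω) (hJR : ∀ z ω, J z ω ≤ 𝔊.Jn R z ω)
    (hL : 𝔊.IsLaw J Y' P Z Om) (ϖl : ℝ) (hϖ : 0 < ϖl)
    (hW : ∀ z ∈ Y', ϖl ≤ ∑ ω, J z ω) {t : ℝ} (ht : 0 < t) :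
    (∀ x, P.p x ≠ 0 → P.fib (pair Om Z) x ≤ g.Γc ^ 𝔖.ℓ / ϖl * 𝔊.leafw (Z x) (Om x) * P.fib Z x) ∧
      P.pr (fun x => P.fib (pair Om Z) x < 1 / t * 𝔊.leafw (Z x) (Om x) * P.fib Z x) ≤ p.ϖ0 / t := by
  have hW0 : ∀ z ∈ Y', 0 < ∑ ω, J z ω := fun z hz => hϖ.trans_le (hW z hz)
  constructor
  · intro x hx
    obtain ⟨hz, -⟩ := tp_law_supp hL x hx
    have hN : (0 : ℝ) < Y'.card := by exact_mod_cast Finset.card_pos.2 ⟨_, hz⟩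
    rw [fp_fib_pair_comm, tp_law_pair hL, if_pos hz, tp_law_fibZ hL hW0 x hx]
    have h1 : J (Z x) (Om x) ≤ g.Γc ^ 𝔖.ℓ * 𝔊.leafw (Z x) (Om x) := (hJR _ _).trans (tp_Jn_le_leaf h hg R _ _)
    have h2 : 0 ≤ g.Γc ^ 𝔖.ℓ * 𝔊.leafw (Z x) (Om x) := (hJ0 _ _).trans h1
    calc J (Z x) (Om x) / (Y'.card * ∑ ω, J (Z x) ω)
        ≤ g.Γc ^ 𝔖.ℓ * 𝔊.leafw (Z x) (Om x) / (Y'.card * ϖl) :=
          div_le_div₀ h2 h1 (mul_pos hN hϖ) (mul_le_mul_of_nonneg_left (hW _ hz) hN.le)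
      _ = _ := by
          field_simp
  · have h1 := fp_exc P Om Z (fun z ω => 𝔊.leafw z ω) (fun z ω => leafw_nonneg h z ω) (K := p.ϖ0)
      (fun z U => tp_sum_leafw h z U) (ε := 1 / t) (by positivity)
    calc _ ≤ 1 / t * p.ϖ0 := h1
      _ = _ := by ring

/-- a bound `J ≤ c a` for the path mass gives `P(Z, Ω) ≤ (c / ϖl) a P(Z)` -/
theorem tp_law_dom (hL : 𝔊.IsLaw J Y' P Z Om) (ϖl : ℝ) (hϖ : 0 < ϖl)
    (hW : ∀ z ∈ Y', ϖl ≤ ∑ ω, J z ω) (x : Ω₀) (hx : P.p x ≠ 0) {c a : ℝ} (hca : 0 ≤ c * a)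
    (hJ : J (Z x) (Om x) ≤ c * a) : P.fib (pair Z Om) x ≤ c / ϖl * a * P.fib Z x := by
  have hz := (tp_law_supp hL x hx).1
  have hN : (0 : ℝ) < Y'.card := by exact_mod_cast Finset.card_pos.2 ⟨_, hz⟩
  rw [tp_law_pair hL x, if_pos hz, tp_law_fibZ hL (fun z hz => hϖ.trans_le (hW z hz)) x hx]
  have hWz := hW _ hz
  calc J (Z x) (Om x) / (Y'.card * ∑ ω, J (Z x) ω) ≤ c * a / (Y'.card * ∑ ω, J (Z x) ω) := by
        have : 0 < ∑ ω, J (Z x) ω := hϖ.trans_le hWz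
        gcongr
    _ ≤ c * a / (Y'.card * ϖl) := by gcongr
    _ = c / ϖl * a * (1 / Y'.card) := by field_simp

/-- **LEAF L-257-TP-CAPLAW.**  (f:cap-law).
PLAN.  Upper half: `fib (pair (anc i ∘ Om) Z) x = ∑_{ω : anc i ω = τ} pr (Z = z ∧ Om = ω)` (`ent_fib_pair`, `ent_pr_sum_values` over `Om` with `S` = the filter), `hL.joint`, `tp_cap_up`, `ϖl ≤ Wn`, `tp_law_fibZ`.
Lower half: `fp_exc P (anc i ∘ Om) Z (fun z τ => capw i τ z)`, `tp_sum_capw`. -/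
theorem tp_cap_law (h : 𝔖.Ok p) (hg : 𝔊.Ok g) (hJ0 : ∀ z ω, 0 ≤ J z ω) (hJR : ∀ z ω, J z ω ≤ 𝔊.Jn R z ω)
    (hL : 𝔊.IsLaw J Y' P Z Om) (ϖl : ℝ) (hϖ : 0 < ϖl)
    (hW : ∀ z ∈ Y', ϖl ≤ ∑ ω, J z ω) (i : ℕ) (hi : i ≤ 𝔖.ℓ) {t : ℝ} (ht : 0 < t) :
    (∀ x, P.p x ≠ 0 → P.fib (pair (fun x => 𝔊.anc i (Om x)) Z) x ≤
        g.Γc ^ (𝔖.ℓ - i) / ϖl * 𝔊.capw i (𝔊.anc i (Om x)) (Z x) * P.fib Z x) ∧
      P.pr (fun x => P.fib (pair (fun x => 𝔊.anc i (Om x)) Z) x <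
        1 / t * 𝔊.capw i (𝔊.anc i (Om x)) (Z x) * P.fib Z x) ≤ p.ϖ0 / t := by
  constructor
  · intro x hx
    have hz := (tp_law_supp hL x hx).1
    have hN : (0 : ℝ) < Y'.card := by exact_mod_cast Finset.card_pos.2 ⟨_, hz⟩
    have hWz := hW _ hz
    have hWpos : 0 < ∑ ω, J (Z x) ω := hϖ.trans_le hWz
    have hΓ : 0 ≤ g.Γc ^ (𝔖.ℓ - i) := pow_nonneg (by linarith [hg.one_le_Γc]) _
    have hcap := capw_nonneg (𝔊 := 𝔊) h i (𝔊.anc i (Om x)) (Z x)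
    rw [ent_fib_pair, tp_law_fibZ hL (fun z hz => hϖ.trans_le (hW z hz)) x hx,
      ent_pr_sum_values P _ Om (Finset.univ.filter fun ω => 𝔊.anc i ω = 𝔊.anc i (Om x))
        (fun x' _ hE => Finset.mem_filter.2 ⟨Finset.mem_univ _, hE.1⟩)]
    calc ∑ ω ∈ Finset.univ.filter (fun ω => 𝔊.anc i ω = 𝔊.anc i (Om x)),
          P.pr (fun x' => (𝔊.anc i (Om x') = 𝔊.anc i (Om x) ∧ Z x' = Z x) ∧ Om x' = ω)
        ≤ ∑ ω ∈ Finset.univ.filter (fun ω => 𝔊.anc i ω = 𝔊.anc i (Om x)),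
          J (Z x) ω / (Y'.card * ∑ ω', J (Z x) ω') := by
          refine Finset.sum_le_sum fun ω _ => ?_
          have := hL.joint (Z x) ω
          rw [if_pos hz] at this
          rw [← this]
          exact ent_pr_mono P fun x' _ hE => ⟨hE.1.2, hE.2⟩
      _ = (∑ ω ∈ Finset.univ.filter (fun ω => 𝔊.anc i ω = 𝔊.anc i (Om x)), J (Z x) ω)
            / (Y'.card * ∑ ω', J (Z x) ω') := by rw [Finset.sum_div]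
      _ ≤ g.Γc ^ (𝔖.ℓ - i) * 𝔊.capw i (𝔊.anc i (Om x)) (Z x) / (Y'.card * ∑ ω', J (Z x) ω') := by
          have := (Finset.sum_le_sum fun ω _ => hJR (Z x) ω).trans (tp_cap_up h hg R (Z x) i hi (𝔊.anc i (Om x)))
          gcongr
      _ ≤ g.Γc ^ (𝔖.ℓ - i) * 𝔊.capw i (𝔊.anc i (Om x)) (Z x) / (Y'.card * ϖl) := by gcongr
      _ = _ := by field_simp
  · have := fp_exc P (fun x => 𝔊.anc i (Om x)) Z (fun z τ => 𝔊.capw i τ z) (fun z τ => capw_nonneg h i τ z)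
      (K := p.ϖ0) (fun z U => tp_sum_capw h z i hi U) (ε := 1 / t) (by positivity)
    rw [one_div_mul_eq_div] at this
    exact this

/-- **LEAF L-257-TP-OCC.**  The hypotheses (D1)-(D3) of the abstract occupancy lemma `fp_occ` hold for the direction law of any kernel `0 ≤ J ≤ Jn R`, `R ⊆ S`, `S` frozen  (everywhere first `J ≤ Jn R`, then the bound of `Jn R`).
PLAN.  Fields of `FpOcc` (file `PathProb.lean`), `N = |Y'|`, `M = Mocc`, `a ω z = leafw z ω`, `aC = chg S i`: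
`unif` = `tp_law_fibZ`;  `d1`: `tp_law_pair`, `tp_Jn_le_leaf`, `ϖl ≤ Wn`, `hK1`;  `d1sum` = `tp_sum_leafw`, `hK2`;  `d1cmp` = `tp_leafw_cmp` with `tp_law_att`, `hK3`;  `d2`: `tp_Jn_le_chg`, `hK4` (`Γc^(ℓ-i) ≤ Γc^ℓ`);
`d2sum`: `tp_sum_chg`, `ts_bcharge`, `hbal`, `hK5` (`Mocc = vol r^q / A^q`: `Real.div_rpow`);  `d3`: `S = univ.filter (cel i z ω₀ = c₀ ∧ Jn R z ω₀ ≠ 0)` (`J ≠ 0 → Jn R ≠ 0` as in `tp_law_att`), `tp_count` with `Oc = G * Mocc` (`hF.occ_le`), `tp_law_supp`, `hK6`. -/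
theorem tp_occ (h : 𝔖.Ok p) (hg : 𝔊.Ok g) {A K G : ℝ} {S : ∀ i, Finset (𝔖.C i)} {r : ℕ → ℝ} {Yf : Finset 𝔖.Y}
    (hF : 𝔖.Frozen p.q A K G S r Yf) (hA : 0 < A) (hR : ∀ i ω, R i ω ⊆ S i) (hJ0 : ∀ z ω, 0 ≤ J z ω)
    (hJR : ∀ z ω, J z ω ≤ 𝔊.Jn R z ω) (hL : 𝔊.IsLaw J Y' P Z Om)
    (hY : Y'.Nonempty) (ϖl : ℝ) (hϖ : 0 < ϖl) (hW : ∀ z ∈ Y', ϖl ≤ ∑ ω, J z ω) (Kb : ℝ)
    (hbal : 𝔖.D ≤ Kb * (Y'.card * A ^ p.q)) (i : ℕ) (hi : i ≤ 𝔖.ℓ) (Ko : ℝ)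
    (hK1 : g.Γc ^ 𝔖.ℓ / ϖl ≤ Ko) (hK2 : p.ϖ0 ≤ Ko) (hK3 : g.Kc ≤ Ko) (hK4 : g.Γc ^ 𝔖.ℓ * g.Γw / ϖl ≤ Ko)
    (hK5 : g.m * K * Kb ≤ Ko) (hK6 : g.m * G ≤ Ko) :
    FpOcc P Z Om (fun x => 𝔊.cel i (Z x) (Om x)) Y'.card (𝔖.Mocc p.q A r i) Ko (fun ω z => 𝔊.leafw z ω)
      (𝔊.chg S i) := by
  have hN : (0 : ℝ) < Y'.card := by exact_mod_cast Finset.card_pos.2 hY
  have hrA : 0 < (r i / A) ^ p.q := Real.rpow_pos_of_pos (div_pos (hF.r_pos i) hA) _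
  have hM : 0 < 𝔖.Mocc p.q A r i := mul_pos (h.vol_pos i) hrA
  have hΓc := hg.one_le_Γc
  have hΓc0 : 0 ≤ g.Γc := by linarith
  have hm := hg.one_le_m
  have hK0 : 0 < K := by
    obtain ⟨z, _⟩ := hY
    have h1 : (0 : ℝ) < Fintype.card 𝔖.Y := by exact_mod_cast Fintype.card_pos_iff.2 ⟨z⟩
    have h2 := hF.card_le
    by_contra hcon
    push Not at hcon
    have := mul_nonpos_of_nonpos_of_nonneg hcon (Nat.cast_nonneg (α := ℝ) Yf.card)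
    linarith
  refine ⟨hN, hM, by linarith [h.one_le_ϖ0], fun x hx => tp_law_fibZ hL (fun z hz => hϖ.trans_le (hW z hz)) x hx,
    fun ω z => leafw_nonneg h z ω, fun ω c => chg_nonneg h S i ω c, ?_, ?_, ?_, ?_, ?_, ?_⟩
  · -- d1
    intro x hx
    have hl := leafw_nonneg (𝔊 := 𝔊) h (Z x) (Om x)
    refine (tp_law_dom hL ϖl hϖ hW x hx (by positivity) ((hJR _ _).trans (tp_Jn_le_leaf h hg R (Z x) (Om x)))).trans ?_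
    have := ent_fib_nonneg P Z x
    gcongr
  · -- d1sum
    intro z U
    exact (tp_sum_leafw h z U).trans hK2
  · -- d1cmp
    intro x x' hx _ hO hT
    have hT' : 𝔊.cel i (Z x') (Om x') = 𝔊.cel i (Z x) (Om x) := hT
    rw [hO] at hT'
    refine (tp_leafw_cmp h hg i hi (Z x) (Z x') (Om x) hT'.symm fun j hj => ?_).trans ?_
    · obtain ⟨T, _, h1, h2⟩ := tp_law_att h hg hJ0 hJR hL x hx j hj
      exact ⟨T, h1, h2⟩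
    · exact mul_le_mul_of_nonneg_right hK3 (leafw_nonneg h _ _)
  · -- d2
    intro x hx
    have hc := chg_nonneg (𝔊 := 𝔊) h S i (Om x) (𝔊.cel i (Z x) (Om x))
    have hΓw : 0 ≤ g.Γw := by linarith [hg.one_le_Γw]
    have h1 : J (Z x) (Om x) ≤ g.Γc ^ 𝔖.ℓ * g.Γw * 𝔊.chg S i (Om x) (𝔊.cel i (Z x) (Om x)) := by
      refine ((hJR _ _).trans (tp_Jn_le_chg h hg S R hR (Z x) (Om x) i hi)).trans ?_
      have : g.Γc ^ (𝔖.ℓ - i) ≤ g.Γc ^ 𝔖.ℓ := pow_le_pow_right₀ hΓc (Nat.sub_le _ _)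
      gcongr
    refine (tp_law_dom hL ϖl hϖ hW x hx (by positivity) h1).trans ?_
    have := ent_fib_nonneg P Z x
    gcongr
  · -- d2sum
    intro U
    have hrq : 0 < r i ^ p.q := Real.rpow_pos_of_pos (hF.r_pos i) _
    have hAq : 0 < A ^ p.q := Real.rpow_pos_of_pos hA _
    have hv := h.vol_pos i
    have e1 : 𝔖.Mocc p.q A r i = 𝔖.vol i * r i ^ p.q / A ^ p.q := by
      unfold TSys.Mocc
      rw [Real.div_rpow (hF.r_pos i).le hA.le, mul_div_assoc]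
    calc ∑ v ∈ U, 𝔊.chg S i v.1 v.2 ≤ g.m * ∑ T ∈ S i, 𝔖.b i T ^ 2 := tp_sum_chg h hg S i hi U
      _ ≤ g.m * (K * 𝔖.D / (𝔖.vol i * r i ^ p.q)) := by
          have := TSys.ts_bcharge h hF i hi
          gcongr
      _ ≤ g.m * (K * (Kb * (Y'.card * A ^ p.q)) / (𝔖.vol i * r i ^ p.q)) := by gcongr
      _ = g.m * K * Kb * Y'.card / 𝔖.Mocc p.q A r i := by
          rw [e1]
          field_simp
      _ ≤ Ko * Y'.card / 𝔖.Mocc p.q A r i := by gcongr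
  · -- d3
    intro x₀
    refine ⟨Finset.univ.filter fun z => 𝔊.cel i z (Om x₀) = 𝔊.cel i (Z x₀) (Om x₀) ∧ 𝔊.Jn R z (Om x₀) ≠ 0, ?_, ?_⟩
    · rcases (Finset.univ.filter fun z => 𝔊.cel i z (Om x₀) = 𝔊.cel i (Z x₀) (Om x₀) ∧
          𝔊.Jn R z (Om x₀) ≠ 0).eq_empty_or_nonempty with he | hne
      · rw [he, Finset.card_empty, Nat.cast_zero]
        exact mul_nonneg ((zero_le_one.trans h.one_le_ϖ0).trans hK2)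
          (mul_nonneg (h.vol_pos i).le (Real.rpow_nonneg (div_nonneg (hF.r_pos i).le hA.le) _))
      · refine (tp_count h hg S R hR i hi (G * 𝔖.Mocc p.q A r i) (fun T hT => hF.occ_le i hi T hT) (Om x₀)
          (𝔊.cel i (Z x₀) (Om x₀)) _ hne fun z hz => (Finset.mem_filter.1 hz).2).trans ?_
        rw [← mul_assoc]
        gcongr
    · intro x hx _ hE
      have hT : 𝔊.cel i (Z x) (Om x) = 𝔊.cel i (Z x₀) (Om x₀) := congrArg Prod.fst hE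
      have hO : Om x = Om x₀ := congrArg Prod.snd hE
      have hJ : 𝔊.Jn R (Z x) (Om x) ≠ 0 :=
        ne_of_gt (lt_of_lt_of_le (lt_of_le_of_ne (hJ0 _ _) (Ne.symm (tp_law_supp hL x hx).2)) (hJR _ _))
      rw [hO] at hT hJ
      exact Finset.mem_filter.2 ⟨Finset.mem_univ _, hT, hJ⟩

/-- **(f:occupancy-law)**: off probability `2 Ko / t`,  `M_i / (Ko t) ≤ P(T_i(Z, Ω) | Ω) / P(Z | Ω) ≤ Ko³ t M_i`. -/
theorem tp_occ_law (h : 𝔖.Ok p) (hg : 𝔊.Ok g) {A K G : ℝ} {S : ∀ i, Finset (𝔖.C i)} {r : ℕ → ℝ} {Yf : Finset 𝔖.Y}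
    (hF : 𝔖.Frozen p.q A K G S r Yf) (hA : 0 < A) (hR : ∀ i ω, R i ω ⊆ S i) (hJ0 : ∀ z ω, 0 ≤ J z ω)
    (hJR : ∀ z ω, J z ω ≤ 𝔊.Jn R z ω) (hL : 𝔊.IsLaw J Y' P Z Om)
    (hY : Y'.Nonempty) (ϖl : ℝ) (hϖ : 0 < ϖl) (hW : ∀ z ∈ Y', ϖl ≤ ∑ ω, J z ω) (Kb : ℝ)
    (hbal : 𝔖.D ≤ Kb * (Y'.card * A ^ p.q)) (i : ℕ) (hi : i ≤ 𝔖.ℓ) (Ko : ℝ)
    (hK1 : g.Γc ^ 𝔖.ℓ / ϖl ≤ Ko) (hK2 : p.ϖ0 ≤ Ko) (hK3 : g.Kc ≤ Ko) (hK4 : g.Γc ^ 𝔖.ℓ * g.Γw / ϖl ≤ Ko)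
    (hK5 : g.m * K * Kb ≤ Ko) (hK6 : g.m * G ≤ Ko) {t : ℝ} (ht : 0 < t) :
    P.pr (fun x => ¬ (𝔖.Mocc p.q A r i / (Ko * t) * P.fib (pair Z Om) x ≤
        P.fib (pair (fun x => 𝔊.cel i (Z x) (Om x)) Om) x ∧
      P.fib (pair (fun x => 𝔊.cel i (Z x) (Om x)) Om) x ≤ Ko ^ 3 * t * 𝔖.Mocc p.q A r i * P.fib (pair Z Om) x))
      ≤ 2 * Ko / t :=
  fp_occ P Z Om _ _ _ Ko _ _ (tp_occ h hg hF hA hR hJ0 hJR hL hY ϖl hϖ hW Kb hbal i hi Ko hK1 hK2 hK3 hK4 hK5 hK6) ht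

end TGeo

end

end Claimed.Agent.R257.FR2
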