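import Claimed.Agent.R257.FR2.Sys

/-!
# ROW 257, package FR2, unit PROF (U4, the finite half of `f:profiles`, H `frame.tex` l.707-740)      (architect + prover helper94)

Paper-free; consequences of `TSys.Ok` and of a frozen tree `TSys.Frozen`.   NOTHING is sorried in this file.
EXPORTS (interface of `FR2/SelTop.lean`, statements of helper41 verbatim): `ts_en_le`, `ts_le_en` (f:Esat), `ts_bcharge` (f:Bcharge), `ts_prof_cauchy`, `ts_prof_mono`, `ts_prof_root`, `ts_prof_sample`.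
API: `tpf_adm` (the tree consists of packets with the fresh amplitudes), `tpf_adm_res`, `tpf_Ev_zero`, `tpf_K_pos`, `tpf_en_step`, `tpf_en_chain`.
-/

set_option autoImplicit false

namespace Claimed.Agent.R257.FR2

open scoped BigOperators Classical

noncomputable section

/-! ## 0. Three inequalities for reals -/

theorem tpf_pt_split {a b q : ℝ} (ha : 0 < a) (hb : 0 < b) : a ^ q * b ^ (2 - q) = a ^ 2 * (a / b) ^ (q - 2) := by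
  have h1 : a ^ q = a ^ (2 : ℕ) * a ^ (q - 2) := by
    rw [← Real.rpow_natCast a 2, ← Real.rpow_add ha]
    congr 1
    push_cast
    ring
  have h2 : b ^ (2 - q) = (b ^ (q - 2))⁻¹ := by
    rw [← Real.rpow_neg hb.le]
    congr 1
    ring
  rw [h1, h2, Real.div_rpow ha.le hb.le]
  ring

theorem tpf_pt_lower {a b r q : ℝ} (hq : 2 < q) (hb : 0 < b) (hr : 0 < r) (h1 : r * b ≤ a) : a ^ 2 * r ^ (q - 2) ≤ a ^ q * b ^ (2 - q) := by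
  have ha : 0 < a := lt_of_lt_of_le (mul_pos hr hb) h1
  rw [tpf_pt_split ha hb]
  refine mul_le_mul_of_nonneg_left ?_ (by positivity)
  refine Real.rpow_le_rpow hr.le ?_ (by linarith)
  rw [le_div_iff₀ hb]
  exact h1

theorem tpf_pt_upper {a b r q : ℝ} (hq : 2 < q) (hb : 0 < b) (hr : 0 < r) (h1 : r * b ≤ a) (h2 : a ≤ 2 * r * b) :
    a ^ q * b ^ (2 - q) ≤ a ^ 2 * (2 * r) ^ (q - 2) := by
  have ha : 0 < a := lt_of_lt_of_le (mul_pos hr hb) h1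
  rw [tpf_pt_split ha hb]
  refine mul_le_mul_of_nonneg_left ?_ (by positivity)
  refine Real.rpow_le_rpow (by positivity) ?_ (by linarith)
  rw [div_le_iff₀ hb]
  exact h2

theorem tpf_pt_b {a b r q : ℝ} (hq : 2 < q) (hb : 0 < b) (hr : 0 < r) (h1 : r * b ≤ a) : r ^ q * b ^ 2 ≤ a ^ q * b ^ (2 - q) := by
  have h3 : (r * b) ^ q ≤ a ^ q := Real.rpow_le_rpow (by positivity) h1 (by linarith)
  have h4 : r ^ q * b ^ 2 = (r * b) ^ q * b ^ (2 - q) := by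
    rw [Real.mul_rpow hr.le hb.le, mul_assoc, ← Real.rpow_add hb]
    congr 1
    rw [← Real.rpow_natCast b 2]
    congr 1
    push_cast
    ring
  rw [h4]
  exact mul_le_mul_of_nonneg_right h3 (by positivity)

namespace TSys

variable {𝔖 : TSys} {p : TPar} {A K G : ℝ} {S : ∀ i, Finset (𝔖.C i)} {r : ℕ → ℝ} {Yf : Finset 𝔖.Y}

/-! ## 1. API of the tree -/

theorem tpf_ev_zero (h : 𝔖.Ok p) (i : ℕ) (T : 𝔖.C i) (z : 𝔖.Y) : 𝔖.ev i T 0 z = 0 := by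
  have := h.ev_add i T 0 0 z
  rw [add_zero] at this
  simpa using this

theorem tpf_Ev_zero (h : 𝔖.Ok p) (i : ℕ) (z : 𝔖.Y) : 𝔖.Ev i (fun _ => 0) z = 0 := by
  unfold TSys.Ev
  exact Finset.sum_eq_zero fun T _ => tpf_ev_zero h i T z

theorem tpf_adm_res (h : 𝔖.Ok p) {i : ℕ} {g : 𝔖.C i → 𝔖.F} {a : 𝔖.C i → ℝ} (hg : 𝔖.Adm i g a) (M : Finset (𝔖.C i)) :
    𝔖.Adm i (𝔖.res M g) (𝔖.resA M a) := by
  intro T
  unfold TSys.res TSys.resA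
  by_cases hT : T ∈ M
  · simp only [hT, if_true]; exact hg T
  · simp only [hT, if_false]; exact h.pk_zero i T

/-- the families of the tree are packets with the fresh amplitudes -/
theorem tpf_adm (h : 𝔖.Ok p) (S : ∀ i, Finset (𝔖.C i)) : ∀ i, i ≤ 𝔖.ℓ → 𝔖.Adm i (𝔖.fld S i) (𝔖.am S i)
  | 0, _ => h.leaf
  | i + 1, hi => h.closure i hi _ _ (tpf_adm_res h (tpf_adm h S i (by omega)) (S i))

theorem tpf_adm_sel (h : 𝔖.Ok p) (S : ∀ i, Finset (𝔖.C i)) (i : ℕ) (hi : i ≤ 𝔖.ℓ) :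
    𝔖.Adm i (𝔖.res (S i) (𝔖.fld S i)) (𝔖.resA (S i) (𝔖.am S i)) := tpf_adm_res h (tpf_adm h S i hi) (S i)

theorem tpf_am_nonneg (h : 𝔖.Ok p) (S : ∀ i, Finset (𝔖.C i)) : ∀ i (T : 𝔖.C i), 0 ≤ 𝔖.am S i T
  | 0 => fun T => h.b_nonneg 0 T
  | i + 1 => fun T => h.amp_nonneg i _ T

theorem tpf_en_res (i : ℕ) (M : Finset (𝔖.C i)) (a : 𝔖.C i → ℝ) : 𝔖.en i (𝔖.resA M a) = ∑ T ∈ M, 𝔖.vol i * a T ^ 2 := by
  unfold TSys.en TSys.resA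
  rw [← Finset.sum_filter_add_sum_filter_not Finset.univ (fun T => T ∈ M)]
  have h1 : ∑ T ∈ Finset.univ.filter (fun T => ¬ T ∈ M), 𝔖.vol i * (if T ∈ M then a T else 0) ^ 2 = 0 := by
    refine Finset.sum_eq_zero fun T hT => ?_
    rw [if_neg (Finset.mem_filter.1 hT).2]
    ring
  rw [h1, add_zero, Finset.filter_mem_eq_inter, Finset.univ_inter]
  refine Finset.sum_congr rfl fun T hT => ?_
  rw [if_pos hT]

theorem tpf_bud_res {q : ℝ} (hq : 2 < q) (i : ℕ) (M : Finset (𝔖.C i)) (a b : 𝔖.C i → ℝ) :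
    𝔖.bud q i (𝔖.resA M a) b = ∑ T ∈ M, 𝔖.vol i * a T ^ q * b T ^ (2 - q) := by
  unfold TSys.bud TSys.resA
  rw [← Finset.sum_filter_add_sum_filter_not Finset.univ (fun T => T ∈ M)]
  have h1 : ∑ T ∈ Finset.univ.filter (fun T => ¬ T ∈ M), 𝔖.vol i * (if T ∈ M then a T else 0) ^ q * b T ^ (2 - q) = 0 := by
    refine Finset.sum_eq_zero fun T hT => ?_
    rw [if_neg (Finset.mem_filter.1 hT).2, Real.zero_rpow (by linarith)]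
    ring
  rw [h1, add_zero, Finset.filter_mem_eq_inter, Finset.univ_inter]
  refine Finset.sum_congr rfl fun T hT => ?_
  rw [if_pos hT]

theorem tpf_en_nonneg (h : 𝔖.Ok p) (i : ℕ) (a : 𝔖.C i → ℝ) : 0 ≤ 𝔖.en i a :=
  Finset.sum_nonneg fun _ _ => mul_nonneg (h.vol_pos i).le (sq_nonneg _)

theorem tpf_D_nonneg (h : 𝔖.Ok p) : 0 ≤ 𝔖.D := tpf_en_nonneg h 0 _

theorem tpf_en_res_le (h : 𝔖.Ok p) (i : ℕ) (M : Finset (𝔖.C i)) (a : 𝔖.C i → ℝ) : 𝔖.en i (𝔖.resA M a) ≤ 𝔖.en i a := by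
  rw [tpf_en_res]
  unfold TSys.en
  exact Finset.sum_le_sum_of_subset_of_nonneg (Finset.subset_univ _) fun T _ _ => mul_nonneg (h.vol_pos i).le (sq_nonneg _)

/-! ## 2. (f:Esat), (f:Bcharge) -/

/-- `r^{q-2} E ≤ Q` -/
theorem tpf_en_bud (h : 𝔖.Ok p) (hF : 𝔖.Frozen p.q A K G S r Yf) (i : ℕ) (hi : i ≤ 𝔖.ℓ) :
    𝔖.en i (𝔖.resA (S i) (𝔖.am S i)) * r i ^ (p.q - 2) ≤ 𝔖.bud p.q i (𝔖.resA (S i) (𝔖.am S i)) (𝔖.b i) := by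
  rw [tpf_en_res, tpf_bud_res h.q_gt, Finset.sum_mul]
  refine Finset.sum_le_sum fun T hT => ?_
  obtain ⟨hb, h1, _⟩ := hF.ratio i hi T hT
  have := tpf_pt_lower h.q_gt hb (hF.r_pos i) h1
  calc 𝔖.vol i * 𝔖.am S i T ^ 2 * r i ^ (p.q - 2) = 𝔖.vol i * (𝔖.am S i T ^ 2 * r i ^ (p.q - 2)) := by ring
    _ ≤ 𝔖.vol i * (𝔖.am S i T ^ p.q * 𝔖.b i T ^ (2 - p.q)) := mul_le_mul_of_nonneg_left this (h.vol_pos i).le
    _ = _ := by ring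

/-- `Q ≤ (2r)^{q-2} E` -/
theorem tpf_bud_en (h : 𝔖.Ok p) (hF : 𝔖.Frozen p.q A K G S r Yf) (i : ℕ) (hi : i ≤ 𝔖.ℓ) :
    𝔖.bud p.q i (𝔖.resA (S i) (𝔖.am S i)) (𝔖.b i) ≤ 𝔖.en i (𝔖.resA (S i) (𝔖.am S i)) * (2 * r i) ^ (p.q - 2) := by
  rw [tpf_en_res, tpf_bud_res h.q_gt, Finset.sum_mul]
  refine Finset.sum_le_sum fun T hT => ?_
  obtain ⟨hb, h1, h2⟩ := hF.ratio i hi T hT
  have := tpf_pt_upper h.q_gt hb (hF.r_pos i) h1 h2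
  calc 𝔖.vol i * 𝔖.am S i T ^ p.q * 𝔖.b i T ^ (2 - p.q) = 𝔖.vol i * (𝔖.am S i T ^ p.q * 𝔖.b i T ^ (2 - p.q)) := by ring
    _ ≤ 𝔖.vol i * (𝔖.am S i T ^ 2 * (2 * r i) ^ (p.q - 2)) := mul_le_mul_of_nonneg_left this (h.vol_pos i).le
    _ = _ := by ring

theorem tpf_rpow_inv {x q : ℝ} (hx : 0 < x) : x ^ (q - 2) * x ^ (2 - q) = 1 := by
  rw [← Real.rpow_add hx]
  simp

/-- (f:Esat), upper half:  `E_i ≤ K D r_i^{2-q}` -/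
theorem ts_en_le (h : 𝔖.Ok p) (hF : 𝔖.Frozen p.q A K G S r Yf) (i : ℕ) (hi : i ≤ 𝔖.ℓ) :
    𝔖.en i (𝔖.resA (S i) (𝔖.am S i)) ≤ K * 𝔖.D * r i ^ (2 - p.q) := by
  have h1 := (tpf_en_bud h hF i hi).trans (hF.bud_le i hi)
  have hr : 0 < r i ^ (2 - p.q) := Real.rpow_pos_of_pos (hF.r_pos i) _
  have h2 := mul_le_mul_of_nonneg_right h1 hr.le
  rwa [mul_assoc, tpf_rpow_inv (hF.r_pos i), mul_one] at h2

/-- (f:Esat), lower half -/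
theorem ts_le_en (h : 𝔖.Ok p) (hF : 𝔖.Frozen p.q A K G S r Yf) (i : ℕ) (hi : i ≤ 𝔖.ℓ) :
    𝔖.D * r i ^ (2 - p.q) ≤ 2 ^ (p.q - 2) * K * 𝔖.en i (𝔖.resA (S i) (𝔖.am S i)) := by
  have hr : 0 < r i ^ (2 - p.q) := Real.rpow_pos_of_pos (hF.r_pos i) _
  have hr' : 0 < r i ^ (p.q - 2) := Real.rpow_pos_of_pos (hF.r_pos i) _
  have hE := tpf_en_nonneg h i (𝔖.resA (S i) (𝔖.am S i))
  have h1 := hF.le_bud i hi
  have h2 := tpf_bud_en h hF i hi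
  have h3 := tpf_en_bud h hF i hi
  have hB : 0 ≤ 𝔖.bud p.q i (𝔖.resA (S i) (𝔖.am S i)) (𝔖.b i) := le_trans (by positivity) h3
  rw [Real.mul_rpow (by norm_num) (hF.r_pos i).le] at h2
  by_cases hK : 0 ≤ K
  · calc 𝔖.D * r i ^ (2 - p.q) ≤ K * (𝔖.en i (𝔖.resA (S i) (𝔖.am S i)) * (2 ^ (p.q - 2) * r i ^ (p.q - 2))) * r i ^ (2 - p.q) :=
          mul_le_mul_of_nonneg_right (h1.trans (mul_le_mul_of_nonneg_left h2 hK)) hr.le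
      _ = 2 ^ (p.q - 2) * K * 𝔖.en i (𝔖.resA (S i) (𝔖.am S i)) * (r i ^ (p.q - 2) * r i ^ (2 - p.q)) := by ring
      _ = _ := by rw [tpf_rpow_inv (hF.r_pos i), mul_one]
  · have hK' : K < 0 := not_le.1 hK
    have hD := tpf_D_nonneg h (𝔖 := 𝔖)
    have h4 : K * 𝔖.bud p.q i (𝔖.resA (S i) (𝔖.am S i)) (𝔖.b i) ≤ 0 := mul_nonpos_of_nonpos_of_nonneg hK'.le hB
    have hD0 : 𝔖.D = 0 := le_antisymm (h1.trans h4) hD
    have hB0 : 𝔖.bud p.q i (𝔖.resA (S i) (𝔖.am S i)) (𝔖.b i) = 0 := by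
      by_contra hne
      have : 0 < 𝔖.bud p.q i (𝔖.resA (S i) (𝔖.am S i)) (𝔖.b i) := lt_of_le_of_ne hB (Ne.symm hne)
      have := mul_neg_of_neg_of_pos hK' this
      linarith
    have hE0 : 𝔖.en i (𝔖.resA (S i) (𝔖.am S i)) = 0 := by
      rw [hB0] at h3
      have : 𝔖.en i (𝔖.resA (S i) (𝔖.am S i)) ≤ 0 := by
        by_contra hne
        have := mul_pos (not_le.1 hne) hr'
        linarith
      exact le_antisymm this hE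
    rw [hD0, hE0]
    simp

/-- (f:Bcharge):  `∑_{active} b_T² ≤ K D / (|T| r_i^q)` -/
theorem ts_bcharge (h : 𝔖.Ok p) (hF : 𝔖.Frozen p.q A K G S r Yf) (i : ℕ) (hi : i ≤ 𝔖.ℓ) :
    ∑ T ∈ S i, 𝔖.b i T ^ 2 ≤ K * 𝔖.D / (𝔖.vol i * r i ^ p.q) := by
  have hv : 0 < 𝔖.vol i * r i ^ p.q := mul_pos (h.vol_pos i) (Real.rpow_pos_of_pos (hF.r_pos i) _)
  rw [le_div_iff₀ hv]
  refine le_trans ?_ (hF.bud_le i hi)
  rw [tpf_bud_res h.q_gt, Finset.sum_mul]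
  refine Finset.sum_le_sum fun T hT => ?_
  obtain ⟨hb, h1, _⟩ := hF.ratio i hi T hT
  have := tpf_pt_b h.q_gt hb (hF.r_pos i) h1
  calc 𝔖.b i T ^ 2 * (𝔖.vol i * r i ^ p.q) = 𝔖.vol i * (r i ^ p.q * 𝔖.b i T ^ 2) := by ring
    _ ≤ 𝔖.vol i * (𝔖.am S i T ^ p.q * 𝔖.b i T ^ (2 - p.q)) := mul_le_mul_of_nonneg_left this (h.vol_pos i).le
    _ = _ := by ring

/-! ## 3. The layer inequalities -/

theorem tpf_K_pos (hF : 𝔖.Frozen p.q A K G S r Yf) (hY : Yf.Nonempty) : 0 < K := by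
  obtain ⟨z, hz⟩ := hY
  have h1 : (0 : ℝ) < Fintype.card 𝔖.Y := by
    have : 0 < Fintype.card 𝔖.Y := Fintype.card_pos_iff.2 ⟨z⟩
    exact_mod_cast this
  have h2 := hF.card_le
  by_contra hK
  have : K * (Yf.card : ℝ) ≤ 0 := mul_nonpos_of_nonpos_of_nonneg (not_lt.1 hK) (by positivity)
  linarith

theorem tpf_S_nonempty (h : 𝔖.Ok p) (hF : 𝔖.Frozen p.q A K G S r Yf) (hY : Yf.Nonempty) (hA : 0 < A) (i : ℕ) (hi : i ≤ 𝔖.ℓ) : (S i).Nonempty := by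
  by_contra hne
  rw [Finset.not_nonempty_iff_eq_empty] at hne
  obtain ⟨z, hz⟩ := hY
  have h1 := hF.high i hi z hz
  have h2 : 𝔖.res (S i) (𝔖.fld S i) = fun _ => 0 := by
    funext T
    unfold TSys.res
    rw [hne]
    simp
  rw [h2, tpf_Ev_zero h] at h1
  simp at h1
  linarith

theorem tpf_resA_le (h : 𝔖.Ok p) (hF : 𝔖.Frozen p.q A K G S r Yf) (i : ℕ) (hi : i ≤ 𝔖.ℓ) (T : 𝔖.C i) :
    𝔖.resA (S i) (𝔖.am S i) T ^ 2 ≤ 4 * r i ^ 2 * 𝔖.b i T ^ 2 := by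
  unfold TSys.resA
  by_cases hT : T ∈ S i
  · rw [if_pos hT]
    obtain ⟨hb, h1, h2⟩ := hF.ratio i hi T hT
    have h0 := tpf_am_nonneg h S i T
    calc 𝔖.am S i T ^ 2 ≤ (2 * r i * 𝔖.b i T) ^ 2 := pow_le_pow_left₀ h0 h2 2
      _ = _ := by ring
  · rw [if_neg hT]
    have := hF.r_pos i
    have h0 : (0 : ℝ) ≤ 4 * r i ^ 2 * 𝔖.b i T ^ 2 := by positivity
    simpa using h0

/-- U4 (a), weighted Cauchy between two layers: `r_{i+1} ≤ 2 √Γ_i r_i` -/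
theorem ts_prof_cauchy (h : 𝔖.Ok p) (hF : 𝔖.Frozen p.q A K G S r Yf) (hY : Yf.Nonempty) (hA : 0 < A) (i : ℕ) (hi : i < 𝔖.ℓ) :
    r (i + 1) ≤ 2 * Real.sqrt (p.Γ i) * r i := by
  obtain ⟨T, hT⟩ := tpf_S_nonempty h hF hY hA (i + 1) hi
  obtain ⟨hb, h1, _⟩ := hF.ratio (i + 1) hi T hT
  have hΓ : 0 ≤ p.Γ i := le_trans zero_le_one (h.one_le_Γ i)
  have h2 := h.cauchy i hi _ _ (tpf_adm_sel h S i hi.le) T
  have h3 : ∑ T', 𝔖.resA (S i) (𝔖.am S i) T' ^ 2 * 𝔖.eh i T' T ≤ 4 * r i ^ 2 * 𝔖.b (i + 1) T ^ 2 := by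
    calc ∑ T', 𝔖.resA (S i) (𝔖.am S i) T' ^ 2 * 𝔖.eh i T' T ≤ ∑ T', 4 * r i ^ 2 * (𝔖.b i T' ^ 2 * 𝔖.e i T' T) := by
          refine Finset.sum_le_sum fun T' _ => ?_
          calc 𝔖.resA (S i) (𝔖.am S i) T' ^ 2 * 𝔖.eh i T' T ≤ (4 * r i ^ 2 * 𝔖.b i T' ^ 2) * 𝔖.eh i T' T :=
                mul_le_mul_of_nonneg_right (tpf_resA_le h hF i hi.le T') (h.eh_nonneg i T' T)
            _ ≤ (4 * r i ^ 2 * 𝔖.b i T' ^ 2) * 𝔖.e i T' T := mul_le_mul_of_nonneg_left (h.eh_le i T' T) (by positivity)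
            _ = _ := by ring
      _ = 4 * r i ^ 2 * ∑ T', 𝔖.b i T' ^ 2 * 𝔖.e i T' T := by rw [Finset.mul_sum]
      _ ≤ _ := mul_le_mul_of_nonneg_left (h.dom i hi T) (by positivity)
  have h4 : (r (i + 1) * 𝔖.b (i + 1) T) ^ 2 ≤ (2 * Real.sqrt (p.Γ i) * r i * 𝔖.b (i + 1) T) ^ 2 := by
    calc (r (i + 1) * 𝔖.b (i + 1) T) ^ 2 ≤ 𝔖.am S (i + 1) T ^ 2 := pow_le_pow_left₀ (mul_pos (hF.r_pos _) hb).le h1 2
      _ ≤ p.Γ i * ∑ T', 𝔖.resA (S i) (𝔖.am S i) T' ^ 2 * 𝔖.eh i T' T := h2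
      _ ≤ p.Γ i * (4 * r i ^ 2 * 𝔖.b (i + 1) T ^ 2) := mul_le_mul_of_nonneg_left h3 hΓ
      _ = (2 * Real.sqrt (p.Γ i) * r i * 𝔖.b (i + 1) T) ^ 2 := by
          have := Real.sq_sqrt hΓ
          calc p.Γ i * (4 * r i ^ 2 * 𝔖.b (i + 1) T ^ 2) = Real.sqrt (p.Γ i) ^ 2 * (4 * r i ^ 2 * 𝔖.b (i + 1) T ^ 2) := by rw [this]
            _ = _ := by ring
  have h5 : r (i + 1) * 𝔖.b (i + 1) T ≤ 2 * Real.sqrt (p.Γ i) * r i * 𝔖.b (i + 1) T := by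
    have := hF.r_pos i
    exact le_of_sq_le_sq h4 (by positivity)
  exact le_of_mul_le_mul_right h5 hb

/-- one step of the energies of the selected layers -/
theorem tpf_en_step (h : 𝔖.Ok p) (S : ∀ i, Finset (𝔖.C i)) (i : ℕ) (hi : i < 𝔖.ℓ) :
    𝔖.en (i + 1) (𝔖.resA (S (i + 1)) (𝔖.am S (i + 1))) ≤ p.Γ2 * 𝔖.en i (𝔖.resA (S i) (𝔖.am S i)) :=
  (tpf_en_res_le h (i + 1) _ _).trans (h.l2 i hi _ _ (tpf_adm_sel h S i hi.le))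

theorem tpf_en_chain (h : 𝔖.Ok p) (S : ∀ i, Finset (𝔖.C i)) (i : ℕ) : ∀ d, i + d ≤ 𝔖.ℓ →
    𝔖.en (i + d) (𝔖.resA (S (i + d)) (𝔖.am S (i + d))) ≤ p.Γ2 ^ d * 𝔖.en i (𝔖.resA (S i) (𝔖.am S i))
  | 0, _ => by simp
  | d + 1, hd => by
      have h1 := tpf_en_step h S (i + d) (by omega)
      have h2 := tpf_en_chain h S i d (by omega)
      have h0 : 0 ≤ p.Γ2 := le_trans zero_le_one h.one_le_Γ2
      calc 𝔖.en (i + (d + 1)) (𝔖.resA (S (i + (d + 1))) (𝔖.am S (i + (d + 1)))) ≤ p.Γ2 * 𝔖.en (i + d) (𝔖.resA (S (i + d)) (𝔖.am S (i + d))) := h1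
        _ ≤ p.Γ2 * (p.Γ2 ^ d * 𝔖.en i (𝔖.resA (S i) (𝔖.am S i))) := mul_le_mul_of_nonneg_left h2 h0
        _ = _ := by ring

/-- U4 (b), monotonicity from `L²` orthogonality: `r_i ≤ 2 (Γ2 K²)^{1/(q-2)} r_{i+1}` -/
theorem ts_prof_mono (h : 𝔖.Ok p) (hF : 𝔖.Frozen p.q A K G S r Yf) (hD : 0 < 𝔖.D) (i : ℕ) (hi : i < 𝔖.ℓ) :
    r i ≤ 2 * (p.Γ2 * K ^ 2) ^ (1 / (p.q - 2)) * r (i + 1) := by
  have hq : 0 < p.q - 2 := by linarith [h.q_gt]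
  have hΓ2 : 0 < p.Γ2 := lt_of_lt_of_le zero_lt_one h.one_le_Γ2
  have hri := hF.r_pos i
  have hrj := hF.r_pos (i + 1)
  have hK : 0 < K := by
    have h1 := hF.le_bud i hi.le
    have h3 := tpf_en_bud h hF i hi.le
    have hB : 0 ≤ 𝔖.bud p.q i (𝔖.resA (S i) (𝔖.am S i)) (𝔖.b i) :=
      le_trans (mul_nonneg (tpf_en_nonneg h _ _) (Real.rpow_pos_of_pos hri _).le) h3
    by_contra hK
    have := mul_nonpos_of_nonpos_of_nonneg (not_lt.1 hK) hB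
    linarith
  have h1 := ts_le_en h hF (i + 1) hi
  have h2 := tpf_en_step h S i hi
  have h3 := ts_en_le h hF i hi.le
  have h4 : 𝔖.D * r (i + 1) ^ (2 - p.q) ≤ 𝔖.D * (2 ^ (p.q - 2) * (p.Γ2 * K ^ 2) * r i ^ (2 - p.q)) := by
    calc 𝔖.D * r (i + 1) ^ (2 - p.q) ≤ 2 ^ (p.q - 2) * K * 𝔖.en (i + 1) (𝔖.resA (S (i + 1)) (𝔖.am S (i + 1))) := h1
      _ ≤ 2 ^ (p.q - 2) * K * (p.Γ2 * (K * 𝔖.D * r i ^ (2 - p.q))) :=
          mul_le_mul_of_nonneg_left (h2.trans (mul_le_mul_of_nonneg_left h3 hΓ2.le)) (by positivity)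
      _ = _ := by ring
  have h5 : r (i + 1) ^ (2 - p.q) ≤ 2 ^ (p.q - 2) * (p.Γ2 * K ^ 2) * r i ^ (2 - p.q) := le_of_mul_le_mul_left h4 hD
  -- multiply by `r_i^{q-2} r_{i+1}^{q-2}`
  have h6 : r i ^ (p.q - 2) ≤ 2 ^ (p.q - 2) * (p.Γ2 * K ^ 2) * r (i + 1) ^ (p.q - 2) := by
    have hpos : 0 ≤ r i ^ (p.q - 2) * r (i + 1) ^ (p.q - 2) := by positivity
    have := mul_le_mul_of_nonneg_right h5 hpos
    calc r i ^ (p.q - 2) = r (i + 1) ^ (2 - p.q) * (r i ^ (p.q - 2) * r (i + 1) ^ (p.q - 2)) := by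
          rw [mul_comm (r i ^ (p.q - 2)), ← mul_assoc, mul_comm (r (i + 1) ^ (2 - p.q)), tpf_rpow_inv hrj, one_mul]
      _ ≤ 2 ^ (p.q - 2) * (p.Γ2 * K ^ 2) * r i ^ (2 - p.q) * (r i ^ (p.q - 2) * r (i + 1) ^ (p.q - 2)) := this
      _ = 2 ^ (p.q - 2) * (p.Γ2 * K ^ 2) * (r i ^ (p.q - 2) * r i ^ (2 - p.q)) * r (i + 1) ^ (p.q - 2) := by ring
      _ = _ := by rw [tpf_rpow_inv hri, mul_one]
  have hX : 0 < p.Γ2 * K ^ 2 := by positivity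
  have h7 : 2 ^ (p.q - 2) * (p.Γ2 * K ^ 2) * r (i + 1) ^ (p.q - 2) = (2 * (p.Γ2 * K ^ 2) ^ (1 / (p.q - 2)) * r (i + 1)) ^ (p.q - 2) := by
    rw [Real.mul_rpow (by positivity) hrj.le, Real.mul_rpow (by norm_num) (by positivity), ← Real.rpow_mul hX.le]
    congr 2
    rw [one_div, inv_mul_cancel₀ hq.ne', Real.rpow_one]
  rw [h7] at h6
  exact (Real.rpow_le_rpow_iff hri.le (by positivity) hq).1 h6

/-- the selected field at a witness -/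
theorem tpf_Ev_le (h : 𝔖.Ok p) (hF : 𝔖.Frozen p.q A K G S r Yf) (i : ℕ) (hi : i ≤ 𝔖.ℓ) (z : 𝔖.Y) :
    ‖𝔖.Ev i (𝔖.res (S i) (𝔖.fld S i)) z‖ ≤ 2 * Real.sqrt (p.Γr i * p.ϖ0) * r i := by
  have hΓ : 0 ≤ p.Γr i := le_trans zero_le_one (h.one_le_Γr i)
  have hϖ : 0 ≤ p.ϖ0 := le_trans zero_le_one h.one_le_ϖ0
  have hri := hF.r_pos i
  have h1 := h.cauchy_root i hi _ _ (tpf_adm_sel h S i hi) z
  have h2 : 𝔖.sq i (𝔖.resA (S i) (𝔖.am S i)) z ≤ 4 * r i ^ 2 * p.ϖ0 := by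
    calc 𝔖.sq i (𝔖.resA (S i) (𝔖.am S i)) z ≤ ∑ T, 4 * r i ^ 2 * (𝔖.b i T ^ 2 * 𝔖.w i T z) := by
          unfold TSys.sq
          refine Finset.sum_le_sum fun T _ => ?_
          calc 𝔖.resA (S i) (𝔖.am S i) T ^ 2 * 𝔖.w i T z ≤ (4 * r i ^ 2 * 𝔖.b i T ^ 2) * 𝔖.w i T z :=
                mul_le_mul_of_nonneg_right (tpf_resA_le h hF i hi T) (h.w_nonneg i T z)
            _ = _ := by ring
      _ = 4 * r i ^ 2 * 𝔖.sq i (𝔖.b i) z := by unfold TSys.sq; rw [Finset.mul_sum]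
      _ ≤ _ := mul_le_mul_of_nonneg_left (h.sq_le i hi z) (by positivity)
  have h3 : ‖𝔖.Ev i (𝔖.res (S i) (𝔖.fld S i)) z‖ ^ 2 ≤ (2 * Real.sqrt (p.Γr i * p.ϖ0) * r i) ^ 2 := by
    calc ‖𝔖.Ev i (𝔖.res (S i) (𝔖.fld S i)) z‖ ^ 2 ≤ p.Γr i * (4 * r i ^ 2 * p.ϖ0) := h1.trans (mul_le_mul_of_nonneg_left h2 hΓ)
      _ = Real.sqrt (p.Γr i * p.ϖ0) ^ 2 * (4 * r i ^ 2) := by rw [Real.sq_sqrt (mul_nonneg hΓ hϖ)]; ring
      _ = _ := by ring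
  exact le_of_sq_le_sq h3 (by positivity)

/-- U4 (c), root Cauchy: `A ≤ 2 K √(Γr_i ϖ0) r_i` -/
theorem ts_prof_root (h : 𝔖.Ok p) (hF : 𝔖.Frozen p.q A K G S r Yf) (hY : Yf.Nonempty) (i : ℕ) (hi : i ≤ 𝔖.ℓ) :
    A ≤ 2 * K * Real.sqrt (p.Γr i * p.ϖ0) * r i := by
  have hK := tpf_K_pos hF hY
  obtain ⟨z, hz⟩ := hY
  calc A ≤ K * ‖𝔖.Ev i (𝔖.res (S i) (𝔖.fld S i)) z‖ := hF.high i hi z hz
    _ ≤ K * (2 * Real.sqrt (p.Γr i * p.ϖ0) * r i) := mul_le_mul_of_nonneg_left (tpf_Ev_le h hF i hi z) hK.le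
    _ = _ := by ring

/-- U4 (d), root sampling (used in the power case): if `∑_z |Ev ℓ g z|² ≤ Γs · en ℓ a` for all admissible families, then `r_i^{q-2} ≤ Γs Γ2^{ℓ-i} K⁴ Kb A^{q-2}` -/
theorem ts_prof_sample (h : 𝔖.Ok p) (hF : 𝔖.Frozen p.q A K G S r Yf) (hY : Yf.Nonempty) (hA : 0 < A) (Γs Kb : ℝ)
    (hs : ∀ g a, 𝔖.Adm 𝔖.ℓ g a → ∑ z, ‖𝔖.Ev 𝔖.ℓ g z‖ ^ 2 ≤ Γs * 𝔖.en 𝔖.ℓ a)
    (hb : 𝔖.D ≤ Kb * (Fintype.card 𝔖.Y * A ^ p.q)) (i : ℕ) (hi : i ≤ 𝔖.ℓ) :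
    r i ^ (p.q - 2) ≤ Γs * p.Γ2 ^ (𝔖.ℓ - i) * K ^ 4 * Kb * A ^ (p.q - 2) := by
  have hK := tpf_K_pos hF hY
  have hri := hF.r_pos i
  have hΓ2 : 0 < p.Γ2 := lt_of_lt_of_le zero_lt_one h.one_le_Γ2
  have hn : (0 : ℝ) < Yf.card := by exact_mod_cast hY.card_pos
  have hAq : 0 < A ^ p.q := Real.rpow_pos_of_pos hA _
  set Eℓ := 𝔖.en 𝔖.ℓ (𝔖.resA (S 𝔖.ℓ) (𝔖.am S 𝔖.ℓ)) with hEℓ
  set Ei := 𝔖.en i (𝔖.resA (S i) (𝔖.am S i)) with hEi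
  -- lower bound of the sampled sum
  have h1 : (Yf.card : ℝ) * (A / K) ^ 2 ≤ Γs * Eℓ := by
    refine le_trans ?_ (hs _ _ (tpf_adm_sel h S 𝔖.ℓ le_rfl))
    calc (Yf.card : ℝ) * (A / K) ^ 2 = ∑ _z ∈ Yf, (A / K) ^ 2 := by rw [Finset.sum_const, nsmul_eq_mul]
      _ ≤ ∑ z ∈ Yf, ‖𝔖.Ev 𝔖.ℓ (𝔖.res (S 𝔖.ℓ) (𝔖.fld S 𝔖.ℓ)) z‖ ^ 2 := by
          refine Finset.sum_le_sum fun z hz => pow_le_pow_left₀ (by positivity) ?_ 2
          rw [div_le_iff₀ hK, mul_comm]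
          exact hF.high 𝔖.ℓ le_rfl z hz
      _ ≤ _ := Finset.sum_le_sum_of_subset_of_nonneg (Finset.subset_univ _) fun z _ _ => by positivity
  have hEℓ0 : 0 ≤ Eℓ := tpf_en_nonneg h _ _
  have hΓs : 0 < Γs := by
    by_contra hne
    have := mul_nonpos_of_nonpos_of_nonneg (not_lt.1 hne) hEℓ0
    have h0 : 0 < (Yf.card : ℝ) * (A / K) ^ 2 := by positivity
    linarith
  have hKb : 0 < Kb := by
    by_contra hne
    have hD := tpf_D_nonneg h (𝔖 := 𝔖)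
    have hc : (0 : ℝ) ≤ Fintype.card 𝔖.Y * A ^ p.q := by positivity
    have h5 := mul_nonpos_of_nonpos_of_nonneg (not_lt.1 hne) hc
    have hD0 : 𝔖.D = 0 := le_antisymm (hb.trans h5) hD
    have h6 := ts_en_le h hF 𝔖.ℓ le_rfl
    rw [hD0] at h6
    have h0 : 0 < (Yf.card : ℝ) * (A / K) ^ 2 := by positivity
    have h7 : Eℓ ≤ 0 := by simpa using h6
    have := mul_nonpos_of_nonneg_of_nonpos hΓs.le h7
    linarith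
  have h2 : Eℓ ≤ p.Γ2 ^ (𝔖.ℓ - i) * Ei := by
    have := tpf_en_chain h S i (𝔖.ℓ - i) (by omega)
    have e : i + (𝔖.ℓ - i) = 𝔖.ℓ := by omega
    rw [e] at this
    exact this
  have h3 : Ei ≤ K * (Kb * (K * Yf.card * A ^ p.q)) * r i ^ (2 - p.q) := by
    refine (ts_en_le h hF i hi).trans ?_
    refine mul_le_mul_of_nonneg_right ?_ (Real.rpow_pos_of_pos hri _).le
    refine mul_le_mul_of_nonneg_left ?_ hK.le
    refine hb.trans (mul_le_mul_of_nonneg_left ?_ hKb.le)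
    exact mul_le_mul_of_nonneg_right hF.card_le hAq.le
  have h4 : (Yf.card : ℝ) * (A / K) ^ 2 ≤ Γs * (p.Γ2 ^ (𝔖.ℓ - i) * (K * (Kb * (K * Yf.card * A ^ p.q)) * r i ^ (2 - p.q))) :=
    h1.trans (mul_le_mul_of_nonneg_left (h2.trans (mul_le_mul_of_nonneg_left h3 (by positivity))) hΓs.le)
  have hAsplit : A ^ p.q = A ^ 2 * A ^ (p.q - 2) := by
    rw [← Real.rpow_natCast A 2, ← Real.rpow_add hA]
    congr 1
    push_cast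
    ring
  rw [hAsplit] at h4
  have h5 : (Yf.card : ℝ) * (A / K) ^ 2 * 1 ≤ (Yf.card : ℝ) * (A / K) ^ 2 * (Γs * p.Γ2 ^ (𝔖.ℓ - i) * K ^ 4 * Kb * A ^ (p.q - 2) * r i ^ (2 - p.q)) := by
    rw [mul_one]
    refine h4.trans (le_of_eq ?_)
    field_simp
  have h6 : 1 ≤ Γs * p.Γ2 ^ (𝔖.ℓ - i) * K ^ 4 * Kb * A ^ (p.q - 2) * r i ^ (2 - p.q) :=
    le_of_mul_le_mul_left h5 (by positivity)
  have h7 := mul_le_mul_of_nonneg_right h6 (Real.rpow_pos_of_pos hri (p.q - 2)).le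
  rw [one_mul, mul_assoc, mul_comm (r i ^ (2 - p.q)), tpf_rpow_inv hri, mul_one] at h7
  exact h7

end TSys

end

end Claimed.Agent.R257.FR2
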