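import Claimed.Agent.R257.FR2.ProfLim

/-!
# ROW 257, package FR2, unit U5, file 2: ITERATED LIMITS (grid index `N`, then configuration index `n`)      (architect + prover helper94)

Paper-free.   NOTHING is sorried in this file.

Design of helper41 (`FR2/Notes.lean`): the grids `G_N` are FIXED, for every `N` and every configuration `n` there is one selected tree; `f^N = ulim_n`, `f = ulim_N f^N`; every later test uses ONE fixed large `N` and then `n` far along the sequence.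
So all constants which depend on the grid (`c(q, ℓ)` of `ts_select`, ...) are constants when `n → uf`; no slow diagonal.
`PDbl` = nodes `s N n i`, values `ρ N n i = log_Λ r`, `i ≤ ℓ N`, errors `ε N n → 0` (`n → uf`, `N` fixed), mesh `μ N → 0`.
`D.lim : PSeq` = the sequence (index `N`) of the limits in `n`;  `D.f = D.lim.f` THE PROFILE (all real parameters).
EXPORTS: `pd_ok : D.lim.Ok lam` (so `pl_anti, pl_lip, pl_nonneg, pl_top, pl_lipschitz` apply to `D.f`);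
* `pd_unif` : for all `α β tol`: `∀ᶠ N, ∀ᶠ n`, every node `s N n i ∈ [α, β]` has `|ρ N n i - f (s N n i)| ≤ tol`;
* `pd_le_of_nodes`, `pd_ge_of_nodes` : affine bounds at the nodes pass to `f`;   `pd_top` : `f = 0` above the limiting fine endpoint.
-/

set_option autoImplicit false

namespace Claimed.Agent.R257.FR2

open Filter Topology
open Claimed.Agent.R255

noncomputable section

/-- a doubly indexed family of sampled profiles -/
structure PDbl where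
  ℓ : ℕ → ℕ
  s : ℕ → ℕ → ℕ → ℝ
  ρ : ℕ → ℕ → ℕ → ℝ
  ε : ℕ → ℕ → ℝ
  μ : ℕ → ℝ

namespace PDbl

variable (D : PDbl)

/-- the requirements on the tree number `n` on the grid number `N` -/
structure At (lam : ℝ) (N n : ℕ) : Prop where
  anti : ∀ i, i < D.ℓ N → D.s N n (i + 1) ≤ D.s N n i
  mesh : ∀ i, i < D.ℓ N → D.s N n i - D.s N n (i + 1) ≤ D.μ N + D.ε N n
  lo : ∀ i j, i ≤ j → j ≤ D.ℓ N → -D.ε N n ≤ D.ρ N n j - D.ρ N n i
  hi : ∀ i j, i ≤ j → j ≤ D.ℓ N → D.ρ N n j - D.ρ N n i ≤ lam * (D.s N n i - D.s N n j) + D.ε N n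
  zero : D.ρ N n 0 = 0

structure Ok (lam : ℝ) : Prop where
  lam_nonneg : 0 ≤ lam
  ev : ∀ᶠ N in uf, ∀ᶠ n in uf, D.At lam N n
  ε_lim : ∀ᶠ N in uf, Tendsto (D.ε N) uf (𝓝 0)
  μ_nonneg : ∀ᶠ N in uf, 0 ≤ D.μ N
  μ_lim : Tendsto D.μ uf (𝓝 0)
  top : ∃ C : ℝ, ∀ᶠ N in uf, ∀ᶠ n in uf, |D.s N n 0| ≤ C

/-- the limits in `n` -/
def lim : PSeq where
  ℓ := D.ℓ
  s N i := ulim fun n => D.s N n i
  ρ N i := ulim fun n => D.ρ N n i
  ε _ := 0
  μ := D.μ

/-- **the profile** -/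
def f : ℝ → ℝ := D.lim.f

variable {D} {lam : ℝ}

theorem pd_ε_nonneg {N n : ℕ} (h : D.At lam N n) : 0 ≤ D.ε N n := by
  have := h.lo 0 0 le_rfl (Nat.zero_le _)
  simp at this
  exact this

theorem pd_s_range {N n : ℕ} (h : D.At lam N n) : ∀ i, i ≤ D.ℓ N → D.s N n 0 - i * (D.μ N + D.ε N n) ≤ D.s N n i ∧ D.s N n i ≤ D.s N n 0
  | 0, _ => by simp
  | i + 1, hi => by
      have ih := pd_s_range h i (by omega)
      have a1 := h.anti i (by omega)
      have a2 := h.mesh i (by omega)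
      push_cast
      constructor <;> linarith [ih.1, ih.2]

/-- the data of a good grid index -/
structure Good (D : PDbl) (lam C : ℝ) (N : ℕ) : Prop where
  ev : ∀ᶠ n in uf, D.At lam N n
  ε_lim : Tendsto (D.ε N) uf (𝓝 0)
  μ_nonneg : 0 ≤ D.μ N
  top : ∀ᶠ n in uf, |D.s N n 0| ≤ C

theorem pd_good (h : D.Ok lam) : ∃ C : ℝ, ∀ᶠ N in uf, D.Good lam C N := by
  obtain ⟨C, hC⟩ := h.top
  refine ⟨C, ?_⟩
  filter_upwards [h.ev, h.ε_lim, h.μ_nonneg, hC] with N a1 a2 a3 a4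
  exact ⟨a1, a2, a3, a4⟩

theorem pd_bdd_s {C : ℝ} {N : ℕ} (g : D.Good lam C N) {i : ℕ} (hi : i ≤ D.ℓ N) : UBdd fun n => D.s N n i := by
  have hε : ∀ᶠ n in uf, D.ε N n < 1 := g.ε_lim.eventually (gt_mem_nhds (by norm_num))
  refine UBdd.of_le (-C - i * (D.μ N + 1)) C ?_
  filter_upwards [g.ev, g.top, hε] with n hn h0 h1
  have h2 := pd_s_range hn i hi
  have h3 := abs_le.1 h0
  have h4 : (i : ℝ) * (D.μ N + D.ε N n) ≤ i * (D.μ N + 1) := mul_le_mul_of_nonneg_left (by linarith) (by positivity)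
  constructor <;> linarith [h2.1, h2.2, h3.1, h3.2]

theorem pd_bdd_ρ (hl : 0 ≤ lam) {C : ℝ} {N : ℕ} (g : D.Good lam C N) {i : ℕ} (hi : i ≤ D.ℓ N) : UBdd fun n => D.ρ N n i := by
  have hε : ∀ᶠ n in uf, D.ε N n < 1 := g.ε_lim.eventually (gt_mem_nhds (by norm_num))
  refine UBdd.of_le (-1) (lam * (i * (D.μ N + 1)) + 1) ?_
  filter_upwards [g.ev, hε] with n hn h1
  have h2 := pd_s_range hn i hi
  have a1 := hn.lo 0 i (Nat.zero_le _) hi
  have a2 := hn.hi 0 i (Nat.zero_le _) hi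
  rw [hn.zero, sub_zero] at a1 a2
  have h4 : (i : ℝ) * (D.μ N + D.ε N n) ≤ i * (D.μ N + 1) := mul_le_mul_of_nonneg_left (by linarith) (by positivity)
  have h5 : lam * (D.s N n 0 - D.s N n i) ≤ lam * (i * (D.μ N + 1)) := mul_le_mul_of_nonneg_left (by linarith [h2.1]) hl
  constructor <;> linarith

theorem pd_tendsto_s {C : ℝ} {N : ℕ} (g : D.Good lam C N) {i : ℕ} (hi : i ≤ D.ℓ N) : Tendsto (fun n => D.s N n i) uf (𝓝 (D.lim.s N i)) :=
  ulim_tendsto _ (pd_bdd_s g hi)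

theorem pd_tendsto_ρ (hl : 0 ≤ lam) {C : ℝ} {N : ℕ} (g : D.Good lam C N) {i : ℕ} (hi : i ≤ D.ℓ N) :
    Tendsto (fun n => D.ρ N n i) uf (𝓝 (D.lim.ρ N i)) :=
  ulim_tendsto _ (pd_bdd_ρ hl g hi)

theorem pd_lim_at (hl : 0 ≤ lam) {C : ℝ} {N : ℕ} (g : D.Good lam C N) : D.lim.At lam N := by
  have := uf_neBot
  refine ⟨?_, ?_, g.μ_nonneg, ?_, ?_, ?_⟩
  · intro i hi
    have hi' : i < D.ℓ N := hi
    refine le_of_tendsto_of_tendsto (pd_tendsto_s g (by omega)) (pd_tendsto_s g (by omega)) ?_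
    filter_upwards [g.ev] with n hn
    exact hn.anti i hi'
  · intro i hi
    have hi' : i < D.ℓ N := hi
    have h2 : Tendsto (fun n => D.μ N + D.ε N n) uf (𝓝 (D.μ N + 0)) := tendsto_const_nhds.add g.ε_lim
    rw [add_zero] at h2
    refine le_of_tendsto_of_tendsto ((pd_tendsto_s g (i := i) (by omega)).sub (pd_tendsto_s g (i := i + 1) (by omega))) h2 ?_
    filter_upwards [g.ev] with n hn
    exact hn.mesh i hi'
  · intro i j hij hj
    have hj' : j ≤ D.ℓ N := hj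
    have h2 : Tendsto (fun n => -D.ε N n) uf (𝓝 (-0)) := g.ε_lim.neg
    refine le_of_tendsto_of_tendsto h2 ((pd_tendsto_ρ hl g (i := j) hj').sub (pd_tendsto_ρ hl g (i := i) (by omega))) ?_
    filter_upwards [g.ev] with n hn
    exact hn.lo i j hij hj'
  · intro i j hij hj
    have hj' : j ≤ D.ℓ N := hj
    have h2 : Tendsto (fun n => lam * (D.s N n i - D.s N n j) + D.ε N n) uf (𝓝 (lam * (D.lim.s N i - D.lim.s N j) + 0)) :=
      (((pd_tendsto_s g (i := i) (by omega)).sub (pd_tendsto_s g (i := j) hj')).const_mul lam).add g.ε_lim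
    refine le_of_tendsto_of_tendsto ((pd_tendsto_ρ hl g (i := j) hj').sub (pd_tendsto_ρ hl g (i := i) (by omega))) h2 ?_
    filter_upwards [g.ev] with n hn
    exact hn.hi i j hij hj'
  · show ulim (fun n => D.ρ N n 0) = 0
    rw [← ulim_const 0]
    refine ulim_congr _ _ ?_
    filter_upwards [g.ev] with n hn
    exact hn.zero

/-- **the limits in `n` form an admissible sequence of sampled profiles (without errors)** -/
theorem pd_ok (h : D.Ok lam) : D.lim.Ok lam := by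
  have := uf_neBot
  obtain ⟨C, hC⟩ := pd_good h
  refine ⟨h.lam_nonneg, hC.mono fun N g => pd_lim_at h.lam_nonneg g, tendsto_const_nhds, h.μ_lim, ⟨C, ?_⟩⟩
  filter_upwards [hC] with N g
  have h1 := (pd_tendsto_s g (Nat.zero_le _)).abs
  exact le_of_tendsto h1 g.top

/-- **uniform convergence at the nodes, iterated form** -/
theorem pd_unif (h : D.Ok lam) (α β tol : ℝ) (htol : 0 < tol) :
    ∀ᶠ N in uf, ∀ᶠ n in uf, ∀ i, i ≤ D.ℓ N → α ≤ D.s N n i → D.s N n i ≤ β → |D.ρ N n i - D.f (D.s N n i)| ≤ tol := by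
  obtain ⟨C, hC⟩ := pd_good h
  have hok := pd_ok h
  have hl1 : 0 < lam + 1 := by linarith [h.lam_nonneg]
  filter_upwards [hC, PSeq.pl_unif hok (α - 1) (β + 1) (tol / 3) (by positivity)] with N g hN
  have h1 : ∀ᶠ n in uf, ∀ i ∈ Finset.range (D.ℓ N + 1), |D.ρ N n i - D.lim.ρ N i| < tol / 3 ∧ |D.s N n i - D.lim.s N i| < min 1 (tol / (3 * (lam + 1))) := by
    refine (eventually_all_finset _).2 fun i hi => ?_
    have hi' : i ≤ D.ℓ N := Nat.lt_succ_iff.1 (Finset.mem_range.1 hi)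
    have a1 : Tendsto (fun n => |D.ρ N n i - D.lim.ρ N i|) uf (𝓝 |D.lim.ρ N i - D.lim.ρ N i|) :=
      ((pd_tendsto_ρ h.lam_nonneg g hi').sub tendsto_const_nhds).abs
    have a2 : Tendsto (fun n => |D.s N n i - D.lim.s N i|) uf (𝓝 |D.lim.s N i - D.lim.s N i|) :=
      ((pd_tendsto_s g hi').sub tendsto_const_nhds).abs
    rw [sub_self, abs_zero] at a1 a2
    exact (a1.eventually (gt_mem_nhds (by positivity))).and (a2.eventually (gt_mem_nhds (by positivity)))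
  filter_upwards [h1] with n hn i hi hα hβ
  obtain ⟨b1, b2⟩ := hn i (Finset.mem_range.2 (Nat.lt_succ_of_le hi))
  have b3 := abs_lt.1 (lt_of_lt_of_le b2 (min_le_left _ _))
  have b4 := hN i hi (by linarith [b3.2]) (by linarith [b3.1])
  have b5 : |D.f (D.lim.s N i) - D.f (D.s N n i)| ≤ tol / 3 := by
    refine (PSeq.pl_abs_le hok _ _).trans ?_
    rw [abs_sub_comm]
    have b6 : |D.s N n i - D.lim.s N i| ≤ tol / (3 * (lam + 1)) := (lt_of_lt_of_le b2 (min_le_right _ _)).le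
    calc lam * |D.s N n i - D.lim.s N i| ≤ (lam + 1) * (tol / (3 * (lam + 1))) :=
          mul_le_mul (by linarith) b6 (abs_nonneg _) hl1.le
      _ = tol / 3 := by field_simp
  calc |D.ρ N n i - D.f (D.s N n i)|
      = |(D.ρ N n i - D.lim.ρ N i) + (D.lim.ρ N i - D.f (D.lim.s N i)) + (D.f (D.lim.s N i) - D.f (D.s N n i))| := by ring_nf
    _ ≤ |D.ρ N n i - D.lim.ρ N i| + |D.lim.ρ N i - D.f (D.lim.s N i)| + |D.f (D.lim.s N i) - D.f (D.s N n i)| := abs_add_three _ _ _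
    _ ≤ tol / 3 + tol / 3 + tol / 3 := add_le_add (add_le_add b1.le b4) b5
    _ = tol := by ring

/-- the limiting range of the grids -/
theorem pd_range (h : D.Ok lam) {x : ℝ} (hx : ∀ᶠ N in uf, ∀ᶠ n in uf, D.s N n (D.ℓ N) ≤ x ∧ x ≤ D.s N n 0) :
    ∀ᶠ N in uf, D.lim.s N (D.lim.ℓ N) ≤ x ∧ x ≤ D.lim.s N 0 := by
  have := uf_neBot
  obtain ⟨C, hC⟩ := pd_good h
  filter_upwards [hC, hx] with N g hN
  exact ⟨le_of_tendsto (pd_tendsto_s g le_rfl) (hN.mono fun n hn => hn.1), ge_of_tendsto (pd_tendsto_s g (Nat.zero_le _)) (hN.mono fun n hn => hn.2)⟩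

/-- an affine upper bound at the nodes passes to the profile -/
theorem pd_le_of_nodes (h : D.Ok lam) (a : ℕ → ℕ → ℝ) (a0 c : ℝ) (ha : ∀ᶠ N in uf, Tendsto (a N) uf (𝓝 a0))
    (hb : ∀ᶠ N in uf, ∀ᶠ n in uf, ∀ i, i ≤ D.ℓ N → D.ρ N n i ≤ a N n + c * D.s N n i) {x : ℝ}
    (hx : ∀ᶠ N in uf, ∀ᶠ n in uf, D.s N n (D.ℓ N) ≤ x ∧ x ≤ D.s N n 0) : D.f x ≤ a0 + c * x := by
  have := uf_neBot
  obtain ⟨C, hC⟩ := pd_good h
  refine PSeq.pl_le_of_nodes (pd_ok h) (fun _ => a0) a0 c tendsto_const_nhds ?_ (pd_range h hx)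
  filter_upwards [hC, ha, hb] with N g haN hbN i hi
  refine le_of_tendsto_of_tendsto (pd_tendsto_ρ h.lam_nonneg g hi) (haN.add ((pd_tendsto_s g hi).const_mul c)) ?_
  filter_upwards [hbN] with n hn
  exact hn i hi

/-- an affine lower bound at the nodes passes to the profile -/
theorem pd_ge_of_nodes (h : D.Ok lam) (a : ℕ → ℕ → ℝ) (a0 c : ℝ) (ha : ∀ᶠ N in uf, Tendsto (a N) uf (𝓝 a0))
    (hb : ∀ᶠ N in uf, ∀ᶠ n in uf, ∀ i, i ≤ D.ℓ N → a N n + c * D.s N n i ≤ D.ρ N n i) {x : ℝ}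
    (hx : ∀ᶠ N in uf, ∀ᶠ n in uf, D.s N n (D.ℓ N) ≤ x ∧ x ≤ D.s N n 0) : a0 + c * x ≤ D.f x := by
  have := uf_neBot
  obtain ⟨C, hC⟩ := pd_good h
  refine PSeq.pl_ge_of_nodes (pd_ok h) (fun _ => a0) a0 c tendsto_const_nhds ?_ (pd_range h hx)
  filter_upwards [hC, ha, hb] with N g haN hbN i hi
  refine le_of_tendsto_of_tendsto (haN.add ((pd_tendsto_s g hi).const_mul c)) (pd_tendsto_ρ h.lam_nonneg g hi) ?_
  filter_upwards [hbN] with n hn
  exact hn i hi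

/-- the profile vanishes at and above every parameter which is eventually above the fine endpoints up to `o(1)` -/
theorem pd_top (h : D.Ok lam) {x : ℝ} (hx : ∀ δ : ℝ, 0 < δ → ∀ᶠ N in uf, ∀ᶠ n in uf, D.s N n 0 ≤ x + δ) : D.f x = 0 := by
  have := uf_neBot
  obtain ⟨C, hC⟩ := pd_good h
  have hok := pd_ok h
  refine PSeq.pl_top hok ?_
  refine le_of_forall_pos_le_add fun δ hδ => ?_
  refine ulim_le_const _ _ hok.top ?_
  filter_upwards [hC, hx δ hδ] with N g hN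
  exact le_of_tendsto (pd_tendsto_s g (Nat.zero_le _)) hN

theorem pd_anti (h : D.Ok lam) {x y : ℝ} (hxy : x ≤ y) : D.f y ≤ D.f x := PSeq.pl_anti (pd_ok h) hxy

theorem pd_lip (h : D.Ok lam) {x y : ℝ} (hxy : x ≤ y) : D.f x - D.f y ≤ lam * (y - x) := PSeq.pl_lip (pd_ok h) hxy

theorem pd_nonneg (h : D.Ok lam) (x : ℝ) : 0 ≤ D.f x := PSeq.pl_nonneg (pd_ok h) x

theorem pd_lipschitz (h : D.Ok lam) : LipschitzWith (Real.toNNReal lam) D.f := PSeq.pl_lipschitz (pd_ok h)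

end PDbl

end

end Claimed.Agent.R257.FR2
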