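import Claimed.Agent.R257.FR2.Prof
import Claimed.Agent.R257.FR2.ProfDbl

/-!
# ROW 257, package FR2, unit U5, file 3: FROM A FROZEN TREE TO A SAMPLED PROFILE; SLOPE BLOCKS      (architect + prover helper94)

Paper-free.   NOTHING is sorried in this file.
* `tpf_chain` (reals): one-step bounds `r_{i+1} ≤ E (κ_i/κ_{i+1})^lam r_i`, `r_i ≤ E r_{i+1}` give `-ℓ log_Λ E ≤ log_Λ r_j - log_Λ r_i ≤ lam (log_Λ κ_i - log_Λ κ_j) + ℓ log_Λ E`.
* `TSys.tpf_frozen_chain`: the same for the ratios of a frozen tree, `lam = k/2`, if `Γ_i ≤ Cg (κ_i/κ_{i+1})^k`, `E ≥ 2 √Cg, 2 (Γ2 K²)^{1/(q-2)}`  (`ts_prof_cauchy`, `ts_prof_mono`).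
* `TSys.tpf_at`: constructor of `PDbl.At (k/2) N n` with nodes `log_Λ (κ_i/κref)`, values `log_Λ r_i`, error `ℓ log_Λ E`.
* `TSys.tpf_log_root`, `TSys.tpf_log_sample`: `ts_prof_root`, `ts_prof_sample` in logarithmic form (inputs of `pd_ge_of_nodes`, `pd_le_of_nodes`: `f(0) = lim log_h A` in the power case, `f + ks/2 ≥ 0` in the subpower case).
* `PSeq.pl_block`, `PDbl.pd_block`: at a differentiability point `x0` of the profile with slope `-x`, ALL nodes within `V u` of `x0` carry values which are affine of slope `-x` up to `ε u`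
  (`f(l+v) - f(l) = -xv + O(εu)` "on the required finite mesh": any mesh of nodes in the window).
-/

set_option autoImplicit false

namespace Claimed.Agent.R257.FR2

open Filter Topology
open Claimed.Agent.R255

noncomputable section

/-! ## 1. The chain in logarithms -/

theorem tpf_chain_aux {Λ E lam : ℝ} (hΛ : 1 < Λ) (hE : 1 ≤ E) {ℓ : ℕ} {r κ : ℕ → ℝ} (hr : ∀ i, 0 < r i) (hκ : ∀ i, 0 < κ i)
    (up : ∀ i, i < ℓ → r (i + 1) ≤ E * (κ i / κ (i + 1)) ^ lam * r i) (dn : ∀ i, i < ℓ → r i ≤ E * r (i + 1)) (i : ℕ) :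
    ∀ d, i + d ≤ ℓ →
      -(d * Real.logb Λ E) ≤ Real.logb Λ (r (i + d)) - Real.logb Λ (r i) ∧
      Real.logb Λ (r (i + d)) - Real.logb Λ (r i) ≤ lam * (Real.logb Λ (κ i) - Real.logb Λ (κ (i + d))) + d * Real.logb Λ E
  | 0, _ => by simp
  | d + 1, hd => by
      have ih := tpf_chain_aux hΛ hE hr hκ up dn i d (by omega)
      have hE0 : 0 < E := lt_of_lt_of_le zero_lt_one hE
      have hq : 0 < κ (i + d) / κ (i + d + 1) := div_pos (hκ _) (hκ _)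
      have h1 : Real.logb Λ (r (i + d + 1)) ≤ Real.logb Λ E + lam * (Real.logb Λ (κ (i + d)) - Real.logb Λ (κ (i + d + 1))) + Real.logb Λ (r (i + d)) := by
        have := Real.logb_le_logb_of_le hΛ (hr _) (up (i + d) (by omega))
        rwa [Real.logb_mul (by positivity) (hr _).ne', Real.logb_mul hE0.ne' (by positivity), Real.logb_rpow_eq_mul_logb_of_pos hq,
          Real.logb_div (hκ _).ne' (hκ _).ne'] at this
      have h2 : Real.logb Λ (r (i + d)) ≤ Real.logb Λ E + Real.logb Λ (r (i + d + 1)) := by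
        have := Real.logb_le_logb_of_le hΛ (hr _) (dn (i + d) (by omega))
        rwa [Real.logb_mul hE0.ne' (hr _).ne'] at this
      have e : i + (d + 1) = i + d + 1 := by omega
      rw [e]
      push_cast
      constructor
      · linarith [ih.1]
      · linarith [ih.2]

theorem tpf_chain {Λ E lam : ℝ} (hΛ : 1 < Λ) (hE : 1 ≤ E) {ℓ : ℕ} {r κ : ℕ → ℝ} (hr : ∀ i, 0 < r i) (hκ : ∀ i, 0 < κ i)
    (up : ∀ i, i < ℓ → r (i + 1) ≤ E * (κ i / κ (i + 1)) ^ lam * r i) (dn : ∀ i, i < ℓ → r i ≤ E * r (i + 1)) (i j : ℕ) (hij : i ≤ j) (hj : j ≤ ℓ) :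
    -(ℓ * Real.logb Λ E) ≤ Real.logb Λ (r j) - Real.logb Λ (r i) ∧
      Real.logb Λ (r j) - Real.logb Λ (r i) ≤ lam * (Real.logb Λ (κ i) - Real.logb Λ (κ j)) + ℓ * Real.logb Λ E := by
  obtain ⟨d, rfl⟩ := Nat.exists_eq_add_of_le hij
  have h := tpf_chain_aux hΛ hE hr hκ up dn i d hj
  have hL : 0 ≤ Real.logb Λ E := Real.logb_nonneg hΛ hE
  have hd : (d : ℝ) * Real.logb Λ E ≤ ℓ * Real.logb Λ E := by
    refine mul_le_mul_of_nonneg_right ?_ hL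
    exact_mod_cast (by omega : d ≤ ℓ)
  constructor
  · linarith [h.1]
  · linarith [h.2]

namespace TSys

variable {𝔖 : TSys} {p : TPar} {A K G : ℝ} {S : ∀ i, Finset (𝔖.C i)} {r : ℕ → ℝ} {Yf : Finset 𝔖.Y}

/-- the two one-sided Lipschitz bounds of `f:profiles` on one frozen tree -/
theorem tpf_frozen_chain (h : 𝔖.Ok p) (hF : 𝔖.Frozen p.q A K G S r Yf) (hY : Yf.Nonempty) (hA : 0 < A) (hD : 0 < 𝔖.D)
    {Λ Cg kk E : ℝ} (hΛ : 1 < Λ) (hCg : 0 ≤ Cg) {κ : ℕ → ℝ} (hκ : ∀ i, 0 < κ i) (hΓ : ∀ i, i < 𝔖.ℓ → p.Γ i ≤ Cg * (κ i / κ (i + 1)) ^ kk)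
    (hE : 1 ≤ E) (hE1 : 2 * Real.sqrt Cg ≤ E) (hE2 : 2 * (p.Γ2 * K ^ 2) ^ (1 / (p.q - 2)) ≤ E) (i j : ℕ) (hij : i ≤ j) (hj : j ≤ 𝔖.ℓ) :
    -(𝔖.ℓ * Real.logb Λ E) ≤ Real.logb Λ (r j) - Real.logb Λ (r i) ∧
      Real.logb Λ (r j) - Real.logb Λ (r i) ≤ kk / 2 * (Real.logb Λ (κ i) - Real.logb Λ (κ j)) + 𝔖.ℓ * Real.logb Λ E := by
  refine tpf_chain hΛ hE hF.r_pos hκ ?_ ?_ i j hij hj
  · intro m hm
    have hq : 0 < κ m / κ (m + 1) := div_pos (hκ _) (hκ _)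
    have h1 := ts_prof_cauchy h hF hY hA m hm
    have h2 : Real.sqrt (p.Γ m) ≤ Real.sqrt Cg * (κ m / κ (m + 1)) ^ (kk / 2) := by
      calc Real.sqrt (p.Γ m) ≤ Real.sqrt (Cg * (κ m / κ (m + 1)) ^ kk) := Real.sqrt_le_sqrt (hΓ m hm)
        _ = Real.sqrt Cg * Real.sqrt ((κ m / κ (m + 1)) ^ kk) := Real.sqrt_mul hCg _
        _ = _ := by
            rw [Real.sqrt_eq_rpow ((κ m / κ (m + 1)) ^ kk), ← Real.rpow_mul hq.le]
            congr 2
            ring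
    have hrm := hF.r_pos m
    calc r (m + 1) ≤ 2 * Real.sqrt (p.Γ m) * r m := h1
      _ ≤ 2 * (Real.sqrt Cg * (κ m / κ (m + 1)) ^ (kk / 2)) * r m := by
          refine mul_le_mul_of_nonneg_right ?_ hrm.le
          exact mul_le_mul_of_nonneg_left h2 (by norm_num)
      _ = (2 * Real.sqrt Cg) * (κ m / κ (m + 1)) ^ (kk / 2) * r m := by ring
      _ ≤ E * (κ m / κ (m + 1)) ^ (kk / 2) * r m := by
          refine mul_le_mul_of_nonneg_right ?_ hrm.le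
          exact mul_le_mul_of_nonneg_right hE1 (by positivity)
  · intro m hm
    exact (ts_prof_mono h hF hD m hm).trans (mul_le_mul_of_nonneg_right hE2 (hF.r_pos _).le)

/-- **constructor of `PDbl.At`** from one frozen tree -/
theorem tpf_at (h : 𝔖.Ok p) (hF : 𝔖.Frozen p.q A K G S r Yf) (hY : Yf.Nonempty) (hA : 0 < A) (hD : 0 < 𝔖.D)
    {Λ Cg kk E κref : ℝ} (hΛ : 1 < Λ) (hCg : 0 ≤ Cg) {κ : ℕ → ℝ} (hκ : ∀ i, 0 < κ i) (hκref : 0 < κref) (hΓ : ∀ i, i < 𝔖.ℓ → p.Γ i ≤ Cg * (κ i / κ (i + 1)) ^ kk)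
    (hE : 1 ≤ E) (hE1 : 2 * Real.sqrt Cg ≤ E) (hE2 : 2 * (p.Γ2 * K ^ 2) ^ (1 / (p.q - 2)) ≤ E)
    (D : PDbl) (N n : ℕ) (hℓ : D.ℓ N = 𝔖.ℓ) (hs : ∀ i, D.s N n i = Real.logb Λ (κ i / κref)) (hρ : ∀ i, D.ρ N n i = Real.logb Λ (r i))
    (hε : D.ε N n = 𝔖.ℓ * Real.logb Λ E) (hanti : ∀ i, i < 𝔖.ℓ → κ (i + 1) ≤ κ i) (hmesh : ∀ i, i < 𝔖.ℓ → κ i ≤ Λ ^ D.μ N * κ (i + 1)) :
    D.At (kk / 2) N n := by
  have hL : 0 ≤ Real.logb Λ E := Real.logb_nonneg hΛ hE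
  have hε0 : 0 ≤ D.ε N n := by rw [hε]; positivity
  have hsd : ∀ i j, D.s N n i - D.s N n j = Real.logb Λ (κ i) - Real.logb Λ (κ j) := by
    intro i j
    rw [hs, hs, Real.logb_div (hκ _).ne' hκref.ne', Real.logb_div (hκ _).ne' hκref.ne']
    ring
  refine ⟨?_, ?_, ?_, ?_, ?_⟩
  · intro i hi
    rw [hℓ] at hi
    have := hsd i (i + 1)
    have h2 := Real.logb_le_logb_of_le hΛ (hκ _) (hanti i hi)
    linarith
  · intro i hi
    rw [hℓ] at hi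
    rw [hsd]
    have h2 := Real.logb_le_logb_of_le hΛ (hκ _) (hmesh i hi)
    rw [Real.logb_mul (by positivity) (hκ _).ne', Real.logb_rpow (by linarith) (by linarith)] at h2
    linarith
  · intro i j hij hj
    rw [hℓ] at hj
    rw [hρ, hρ, hε]
    exact (tpf_frozen_chain h hF hY hA hD hΛ hCg hκ hΓ hE hE1 hE2 i j hij hj).1
  · intro i j hij hj
    rw [hℓ] at hj
    rw [hρ, hρ, hε, hsd]
    exact (tpf_frozen_chain h hF hY hA hD hΛ hCg hκ hΓ hE hE1 hE2 i j hij hj).2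
  · rw [hρ, hF.r_zero, Real.logb_one]

/-- `ts_prof_root` in logarithmic form -/
theorem tpf_log_root (h : 𝔖.Ok p) (hF : 𝔖.Frozen p.q A K G S r Yf) (hY : Yf.Nonempty) (hA : 0 < A)
    {Λ Cr kk : ℝ} (hΛ : 1 < Λ) (hCr : 0 < Cr) {κ : ℕ → ℝ} (hκ : ∀ i, 0 < κ i) (i : ℕ) (hi : i ≤ 𝔖.ℓ) (hΓ : p.Γr i ≤ Cr * κ i ^ kk) :
    Real.logb Λ A - Real.logb Λ (2 * K * Real.sqrt (Cr * p.ϖ0)) - kk / 2 * Real.logb Λ (κ i) ≤ Real.logb Λ (r i) := by
  have hK := tpf_K_pos hF hY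
  have hϖ : 0 < p.ϖ0 := lt_of_lt_of_le zero_lt_one h.one_le_ϖ0
  have hri := hF.r_pos i
  have h1 := ts_prof_root h hF hY i hi
  have h2 : Real.sqrt (p.Γr i * p.ϖ0) ≤ Real.sqrt (Cr * p.ϖ0) * κ i ^ (kk / 2) := by
    calc Real.sqrt (p.Γr i * p.ϖ0) ≤ Real.sqrt ((Cr * p.ϖ0) * κ i ^ kk) := by
          refine Real.sqrt_le_sqrt ?_
          calc p.Γr i * p.ϖ0 ≤ (Cr * κ i ^ kk) * p.ϖ0 := mul_le_mul_of_nonneg_right hΓ hϖ.le
            _ = _ := by ring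
      _ = Real.sqrt (Cr * p.ϖ0) * Real.sqrt (κ i ^ kk) := Real.sqrt_mul (by positivity) _
      _ = _ := by
          rw [Real.sqrt_eq_rpow (κ i ^ kk), ← Real.rpow_mul (hκ i).le]
          congr 2
          ring
  have h3 : A ≤ (2 * K * Real.sqrt (Cr * p.ϖ0)) * κ i ^ (kk / 2) * r i := by
    calc A ≤ 2 * K * Real.sqrt (p.Γr i * p.ϖ0) * r i := h1
      _ ≤ 2 * K * (Real.sqrt (Cr * p.ϖ0) * κ i ^ (kk / 2)) * r i := by
          refine mul_le_mul_of_nonneg_right ?_ hri.le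
          exact mul_le_mul_of_nonneg_left h2 (by positivity)
      _ = _ := by ring
  have hs : 0 < Real.sqrt (Cr * p.ϖ0) := Real.sqrt_pos.2 (by positivity)
  have h4 := Real.logb_le_logb_of_le hΛ hA h3
  have hκi := hκ i
  rw [Real.logb_mul (by positivity) hri.ne', Real.logb_mul (by positivity) (by positivity), Real.logb_rpow_eq_mul_logb_of_pos hκi] at h4
  linarith

/-- `ts_prof_sample` in logarithmic form -/
theorem tpf_log_sample (h : 𝔖.Ok p) (hF : 𝔖.Frozen p.q A K G S r Yf) (hY : Yf.Nonempty) (hA : 0 < A) (Γs Kb : ℝ)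
    (hs : ∀ g a, 𝔖.Adm 𝔖.ℓ g a → ∑ z, ‖𝔖.Ev 𝔖.ℓ g z‖ ^ 2 ≤ Γs * 𝔖.en 𝔖.ℓ a)
    (hb : 𝔖.D ≤ Kb * (Fintype.card 𝔖.Y * A ^ p.q)) {Λ : ℝ} (hΛ : 1 < Λ) (i : ℕ) (hi : i ≤ 𝔖.ℓ) :
    Real.logb Λ (r i) ≤ Real.logb Λ A + Real.logb Λ (Γs * p.Γ2 ^ (𝔖.ℓ - i) * K ^ 4 * Kb) / (p.q - 2) := by
  have hq : 0 < p.q - 2 := by linarith [h.q_gt]
  have hri := hF.r_pos i
  have h1 := ts_prof_sample h hF hY hA Γs Kb hs hb i hi
  have hrq : 0 < r i ^ (p.q - 2) := Real.rpow_pos_of_pos hri _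
  have hAq : 0 < A ^ (p.q - 2) := Real.rpow_pos_of_pos hA _
  have hc : 0 < Γs * p.Γ2 ^ (𝔖.ℓ - i) * K ^ 4 * Kb := by
    by_contra hne
    have := mul_nonpos_of_nonpos_of_nonneg (not_lt.1 hne) hAq.le
    linarith
  have h2 := Real.logb_le_logb_of_le hΛ hrq h1
  rw [Real.logb_mul hc.ne' hAq.ne', Real.logb_rpow_eq_mul_logb_of_pos hri, Real.logb_rpow_eq_mul_logb_of_pos hA] at h2
  rw [← sub_le_iff_le_add', le_div_iff₀ hq]
  linarith

end TSys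

/-! ## 2. Slope blocks -/

/-- differentiability on a window -/
theorem tpf_deriv_window {f : ℝ → ℝ} {x0 x : ℝ} (hd : HasDerivAt f (-x) x0) {c : ℝ} (hc : 0 < c) :
    ∃ δ, 0 < δ ∧ ∀ y z, |y - x0| < δ → |z - x0| < δ → |f z - f y + x * (z - y)| ≤ c * (|y - x0| + |z - x0|) := by
  have h1 := (hasDerivAt_iff_isLittleO.1 hd).def hc
  obtain ⟨δ, hδ, h2⟩ := Metric.eventually_nhds_iff.1 h1
  refine ⟨δ, hδ, fun y z hy hz => ?_⟩
  have a1 := h2 (y := y) (by rwa [Real.dist_eq])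
  have a2 := h2 (y := z) (by rwa [Real.dist_eq])
  simp only [Real.norm_eq_abs, smul_eq_mul] at a1 a2
  calc |f z - f y + x * (z - y)| = |(f z - f x0 - (z - x0) * -x) - (f y - f x0 - (y - x0) * -x)| := by ring_nf
    _ ≤ |f z - f x0 - (z - x0) * -x| + |f y - f x0 - (y - x0) * -x| := abs_sub _ _
    _ ≤ c * |z - x0| + c * |y - x0| := add_le_add a2 a1
    _ = _ := by ring

namespace PSeq

variable {P : PSeq} {lam : ℝ}

/-- **slope block, one index** -/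
theorem pl_block (h : P.Ok lam) {x0 x : ℝ} (hd : HasDerivAt P.f (-x) x0) {ε V : ℝ} (hε : 0 < ε) (hV : 0 < V) :
    ∃ u0, 0 < u0 ∧ ∀ u, 0 < u → u ≤ u0 → ∀ᶠ n in uf, ∀ i j, i ≤ P.ℓ n → j ≤ P.ℓ n → |P.s n i - x0| ≤ V * u → |P.s n j - x0| ≤ V * u →
      |P.ρ n j - P.ρ n i + x * (P.s n j - P.s n i)| ≤ ε * u := by
  obtain ⟨δ, hδ, hw⟩ := tpf_deriv_window hd (c := ε / (4 * V)) (by positivity)
  refine ⟨δ / (2 * V), by positivity, fun u hu hu0 => ?_⟩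
  have hVu : V * u < δ := by
    have : V * u ≤ V * (δ / (2 * V)) := mul_le_mul_of_nonneg_left hu0 hV.le
    have e : V * (δ / (2 * V)) = δ / 2 := by field_simp
    linarith
  filter_upwards [pl_unif h (x0 - V * u) (x0 + V * u) (ε * u / 4) (by positivity)] with n hn i j hi hj hsi hsj
  have b1 := abs_le.1 hsi
  have b2 := abs_le.1 hsj
  have c1 := hn i hi (by linarith [b1.1]) (by linarith [b1.2])
  have c2 := hn j hj (by linarith [b2.1]) (by linarith [b2.2])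
  have c3 := hw _ _ (lt_of_le_of_lt hsi hVu) (lt_of_le_of_lt hsj hVu)
  have c4 : ε / (4 * V) * (|P.s n i - x0| + |P.s n j - x0|) ≤ ε * u / 2 := by
    calc ε / (4 * V) * (|P.s n i - x0| + |P.s n j - x0|) ≤ ε / (4 * V) * (V * u + V * u) :=
          mul_le_mul_of_nonneg_left (add_le_add hsi hsj) (by positivity)
      _ = ε * u / 2 := by field_simp; ring
  calc |P.ρ n j - P.ρ n i + x * (P.s n j - P.s n i)|
      = |(P.ρ n j - P.f (P.s n j)) - (P.ρ n i - P.f (P.s n i)) + (P.f (P.s n j) - P.f (P.s n i) + x * (P.s n j - P.s n i))| := by ring_nf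
    _ ≤ |(P.ρ n j - P.f (P.s n j)) - (P.ρ n i - P.f (P.s n i))| + |P.f (P.s n j) - P.f (P.s n i) + x * (P.s n j - P.s n i)| := abs_add_le _ _
    _ ≤ (|P.ρ n j - P.f (P.s n j)| + |P.ρ n i - P.f (P.s n i)|) + |P.f (P.s n j) - P.f (P.s n i) + x * (P.s n j - P.s n i)| :=
        add_le_add (abs_sub _ _) le_rfl
    _ ≤ (ε * u / 4 + ε * u / 4) + ε * u / 2 := add_le_add (add_le_add c2 c1) (c3.trans c4)
    _ = ε * u := by ring

end PSeq

namespace PDbl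

variable {D : PDbl} {lam : ℝ}

/-- **slope block, iterated form** -/
theorem pd_block (h : D.Ok lam) {x0 x : ℝ} (hd : HasDerivAt D.f (-x) x0) {ε V : ℝ} (hε : 0 < ε) (hV : 0 < V) :
    ∃ u0, 0 < u0 ∧ ∀ u, 0 < u → u ≤ u0 → ∀ᶠ N in uf, ∀ᶠ n in uf, ∀ i j, i ≤ D.ℓ N → j ≤ D.ℓ N → |D.s N n i - x0| ≤ V * u → |D.s N n j - x0| ≤ V * u →
      |D.ρ N n j - D.ρ N n i + x * (D.s N n j - D.s N n i)| ≤ ε * u := by
  obtain ⟨δ, hδ, hw⟩ := tpf_deriv_window hd (c := ε / (4 * V)) (by positivity)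
  refine ⟨δ / (2 * V), by positivity, fun u hu hu0 => ?_⟩
  have hVu : V * u < δ := by
    have : V * u ≤ V * (δ / (2 * V)) := mul_le_mul_of_nonneg_left hu0 hV.le
    have e : V * (δ / (2 * V)) = δ / 2 := by field_simp
    linarith
  filter_upwards [pd_unif h (x0 - V * u) (x0 + V * u) (ε * u / 4) (by positivity)] with N hN
  filter_upwards [hN] with n hn i j hi hj hsi hsj
  have b1 := abs_le.1 hsi
  have b2 := abs_le.1 hsj
  have c1 := hn i hi (by linarith [b1.1]) (by linarith [b1.2])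
  have c2 := hn j hj (by linarith [b2.1]) (by linarith [b2.2])
  have c3 := hw _ _ (lt_of_le_of_lt hsi hVu) (lt_of_le_of_lt hsj hVu)
  have c4 : ε / (4 * V) * (|D.s N n i - x0| + |D.s N n j - x0|) ≤ ε * u / 2 := by
    calc ε / (4 * V) * (|D.s N n i - x0| + |D.s N n j - x0|) ≤ ε / (4 * V) * (V * u + V * u) :=
          mul_le_mul_of_nonneg_left (add_le_add hsi hsj) (by positivity)
      _ = ε * u / 2 := by field_simp; ring
  calc |D.ρ N n j - D.ρ N n i + x * (D.s N n j - D.s N n i)|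
      = |(D.ρ N n j - D.f (D.s N n j)) - (D.ρ N n i - D.f (D.s N n i)) + (D.f (D.s N n j) - D.f (D.s N n i) + x * (D.s N n j - D.s N n i))| := by ring_nf
    _ ≤ |(D.ρ N n j - D.f (D.s N n j)) - (D.ρ N n i - D.f (D.s N n i))| + |D.f (D.s N n j) - D.f (D.s N n i) + x * (D.s N n j - D.s N n i)| := abs_add_le _ _
    _ ≤ (|D.ρ N n j - D.f (D.s N n j)| + |D.ρ N n i - D.f (D.s N n i)|) + |D.f (D.s N n j) - D.f (D.s N n i) + x * (D.s N n j - D.s N n i)| :=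
        add_le_add (abs_sub _ _) le_rfl
    _ ≤ (ε * u / 4 + ε * u / 4) + ε * u / 2 := add_le_add (add_le_add c2 c1) (c3.trans c4)
    _ = ε * u := by ring

end PDbl

end

end Claimed.Agent.R257.FR2
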