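import Claimed.Agent.R255.Base.Ulim

/-!
# ROW 257, package FR2, unit U5 (the limiting half of `f:profiles`, H `frame.tex` l.707-754), file 1: THE LIMIT OF SAMPLED PROFILES      (architect + prover helper94)

Paper-free (Mathlib + `R255/Base/Ulim`).   NOTHING is sorried in this file.

The paper takes "subsequences and finer finite rational grids" and a "slow diagonal".   Here: ONE tree per `n`, on a grid which depends on `n`; limits along the fixed ultrafilter `uf`; no subsequence, no rational parameters.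
`PSeq` = for every `n`: heights `0, …, ℓ n`, NODES `s n i` (the logarithmic scale parameter of the height `i`; antitone in `i`, height `0` = the fine endpoint), VALUES `ρ n i = log_Λ r_{n,i}`, errors `ε n`, mesh `μ n`.
`PSeq.At lam n` = the two one-sided Lipschitz bounds of `f:profiles` on the `n`-th grid: `-ε ≤ ρ_j - ρ_i ≤ lam (s_i - s_j) + ε` for `i ≤ j ≤ ℓ` (`lam = k/2`), `ρ_0 = 0`, mesh `≤ μ`.
`PSeq.Ok lam` = `At` holds `uf`-a.e., `ε, μ → 0`, the top nodes are bounded.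
`P.f x = ulim ρ n (idx n x)`, DEFINED FOR ALL REAL `x` (`idx n x` = the first height whose node is `≤ x`; constant continuation beyond the ends of the grids).
EXPORTS
* `pl_anti`, `pl_lip`, `pl_nonneg`, `pl_abs_le` : `f` is nonincreasing, `lam`-Lipschitz, `≥ 0`;
* `pl_seq`   : `ρ n (I n) → f x` whenever the nodes `s n (I n) → x`;
* `pl_unif`  : for all `α β tol`: for `uf`-a.e. `n`, EVERY node `s n i ∈ [α, β]` has `|ρ n i - f (s n i)| ≤ tol`   ("every later test involves only a fixed finite grid": no grid has to be named in advance);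
* `pl_top`   : `f x = 0` for `x ≥ ulim (s n 0)`;   `pl_node` : `idx n x` is a node within `μ n` of `x` clamped to the range of the grid;
* `pl_le_of_nodes`, `pl_ge_of_nodes` : affine bounds at the nodes pass to `f` on the limiting range.
-/

set_option autoImplicit false

namespace Claimed.Agent.R257.FR2

open Filter Topology
open Claimed.Agent.R255

noncomputable section

/-- a sequence of sampled profiles -/
structure PSeq where
  ℓ : ℕ → ℕ
  s : ℕ → ℕ → ℝ
  ρ : ℕ → ℕ → ℝ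
  ε : ℕ → ℝ
  μ : ℕ → ℝ

namespace PSeq

variable (P : PSeq)

/-- the requirements on the `n`-th sampled profile -/
structure At (lam : ℝ) (n : ℕ) : Prop where
  anti : ∀ i, i < P.ℓ n → P.s n (i + 1) ≤ P.s n i
  mesh : ∀ i, i < P.ℓ n → P.s n i - P.s n (i + 1) ≤ P.μ n
  μ_nonneg : 0 ≤ P.μ n
  lo : ∀ i j, i ≤ j → j ≤ P.ℓ n → -P.ε n ≤ P.ρ n j - P.ρ n i
  hi : ∀ i j, i ≤ j → j ≤ P.ℓ n → P.ρ n j - P.ρ n i ≤ lam * (P.s n i - P.s n j) + P.ε n
  zero : P.ρ n 0 = 0

structure Ok (lam : ℝ) : Prop where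
  lam_nonneg : 0 ≤ lam
  ev : ∀ᶠ n in uf, P.At lam n
  ε_lim : Tendsto P.ε uf (𝓝 0)
  μ_lim : Tendsto P.μ uf (𝓝 0)
  top : UBdd fun n => P.s n 0

open Classical in
/-- the first height whose node is `≤ x` (the last height if there is none) -/
def idx (n : ℕ) (x : ℝ) : ℕ := if h : ∃ i, i ≤ P.ℓ n ∧ P.s n i ≤ x then Nat.find h else P.ℓ n

/-- `x` clamped to the range of the `n`-th grid -/
def clamp (n : ℕ) (x : ℝ) : ℝ := max (P.s n (P.ℓ n)) (min x (P.s n 0))

/-- **the limiting profile** -/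
def f (x : ℝ) : ℝ := ulim fun n => P.ρ n (P.idx n x)

variable {P} {lam : ℝ}

theorem pl_idx_le (n : ℕ) (x : ℝ) : P.idx n x ≤ P.ℓ n := by
  classical
  unfold idx
  split_ifs with h
  · exact (Nat.find_spec h).1
  · exact le_rfl

theorem pl_idx_anti (n : ℕ) {x y : ℝ} (hxy : x ≤ y) : P.idx n y ≤ P.idx n x := by
  classical
  by_cases h : ∃ i, i ≤ P.ℓ n ∧ P.s n i ≤ x
  · have hy : ∃ i, i ≤ P.ℓ n ∧ P.s n i ≤ y := by
      obtain ⟨i, h1, h2⟩ := h
      exact ⟨i, h1, h2.trans hxy⟩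
    have e1 : P.idx n x = Nat.find h := by unfold idx; rw [dif_pos h]
    have e2 : P.idx n y = Nat.find hy := by unfold idx; rw [dif_pos hy]
    rw [e1, e2]
    exact Nat.find_min' hy ⟨(Nat.find_spec h).1, (Nat.find_spec h).2.trans hxy⟩
  · have e1 : P.idx n x = P.ℓ n := by unfold idx; rw [dif_neg h]
    rw [e1]
    exact pl_idx_le n y

theorem pl_s_anti {n : ℕ} (h : P.At lam n) : ∀ i j, i ≤ j → j ≤ P.ℓ n → P.s n j ≤ P.s n i := by
  intro i j hij
  induction j, hij using Nat.le_induction with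
  | base => intro _; exact le_rfl
  | succ j hj ih =>
    intro hl
    exact (h.anti j (by omega)).trans (ih (by omega))

theorem pl_ε_nonneg {n : ℕ} (h : P.At lam n) : 0 ≤ P.ε n := by
  have := h.lo 0 0 le_rfl (Nat.zero_le _)
  simp at this
  exact this

/-- the node of `idx n x` lies within `μ n` below the clamped point -/
theorem pl_node {n : ℕ} (h : P.At lam n) (x : ℝ) : P.clamp n x - P.μ n ≤ P.s n (P.idx n x) ∧ P.s n (P.idx n x) ≤ P.clamp n x := by
  classical
  have h0 : P.s n (P.ℓ n) ≤ P.s n 0 := pl_s_anti h 0 _ (Nat.zero_le _) le_rfl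
  have hμ := h.μ_nonneg
  by_cases hx : ∃ i, i ≤ P.ℓ n ∧ P.s n i ≤ x
  · have e1 : P.idx n x = Nat.find hx := by unfold idx; rw [dif_pos hx]
    obtain ⟨s1, s2⟩ := Nat.find_spec hx
    rw [← e1] at s1 s2
    rcases Nat.eq_zero_or_pos (P.idx n x) with hz | hz
    · rw [hz] at s2 ⊢
      have : P.clamp n x = P.s n 0 := by
        unfold clamp
        rw [min_eq_right s2, max_eq_right h0]
      rw [this]
      exact ⟨by linarith, le_rfl⟩
    · obtain ⟨i, hi⟩ : ∃ i, P.idx n x = i + 1 := ⟨P.idx n x - 1, by omega⟩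
      have hlt : x < P.s n i := by
        by_contra hc
        have := Nat.find_min' hx ⟨(by omega : i ≤ P.ℓ n), not_lt.1 hc⟩
        omega
      have hle : P.s n (P.ℓ n) ≤ P.s n (P.idx n x) := pl_s_anti h _ _ s1 le_rfl
      have hi0 : P.s n i ≤ P.s n 0 := pl_s_anti h 0 i (Nat.zero_le _) (by omega)
      have : P.clamp n x = x := by
        unfold clamp
        rw [min_eq_left (by linarith), max_eq_right (by linarith)]
      rw [this]
      have hm := h.mesh i (by omega)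
      rw [hi] at s2 ⊢
      exact ⟨by linarith, s2⟩
  · have e1 : P.idx n x = P.ℓ n := by unfold idx; rw [dif_neg hx]
    have hl : x < P.s n (P.ℓ n) := by
      by_contra hc
      exact hx ⟨_, le_rfl, not_lt.1 hc⟩
    have : P.clamp n x = P.s n (P.ℓ n) := by
      unfold clamp
      rw [min_eq_left (by linarith), max_eq_left hl.le]
    rw [this, e1]
    exact ⟨by linarith, le_rfl⟩

theorem pl_clamp_lip (n : ℕ) (x y : ℝ) : |P.clamp n x - P.clamp n y| ≤ |x - y| := by
  unfold clamp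
  refine (abs_max_sub_max_le_max _ _ _ _).trans (max_le (by simp) ?_)
  refine (abs_min_sub_min_le_max _ _ _ _).trans (max_le le_rfl (by simp))

theorem pl_clamp_mono (n : ℕ) {x y : ℝ} (hxy : x ≤ y) : P.clamp n x ≤ P.clamp n y := by
  unfold clamp
  exact max_le_max le_rfl (min_le_min hxy le_rfl)

theorem pl_clamp_node {n : ℕ} (h : P.At lam n) {i : ℕ} (hi : i ≤ P.ℓ n) : P.clamp n (P.s n i) = P.s n i := by
  unfold clamp
  rw [min_eq_left (pl_s_anti h 0 i (Nat.zero_le _) hi), max_eq_right (pl_s_anti h i _ hi le_rfl)]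

theorem pl_clamp_of_mem {n : ℕ} {x : ℝ} (h1 : P.s n (P.ℓ n) ≤ x) (h2 : x ≤ P.s n 0) : P.clamp n x = x := by
  unfold clamp
  rw [min_eq_left h2, max_eq_right h1]

/-- two heights of one grid -/
theorem pl_two {n : ℕ} (hl : 0 ≤ lam) (h : P.At lam n) {i j : ℕ} (hi : i ≤ P.ℓ n) (hj : j ≤ P.ℓ n) :
    |P.ρ n i - P.ρ n j| ≤ lam * |P.s n i - P.s n j| + P.ε n := by
  have hε := pl_ε_nonneg h
  rcases le_total i j with hij | hij
  · have a1 := h.lo i j hij hj
    have a2 := h.hi i j hij hj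
    have a3 : 0 ≤ P.s n i - P.s n j := sub_nonneg.2 (pl_s_anti h i j hij hj)
    rw [abs_of_nonneg a3, abs_le]
    have : 0 ≤ lam * (P.s n i - P.s n j) := mul_nonneg hl a3
    constructor <;> linarith
  · have a1 := h.lo j i hij hi
    have a2 := h.hi j i hij hi
    have a3 : 0 ≤ P.s n j - P.s n i := sub_nonneg.2 (pl_s_anti h j i hij hi)
    rw [abs_sub_comm (P.s n i), abs_of_nonneg a3, abs_le]
    have : 0 ≤ lam * (P.s n j - P.s n i) := mul_nonneg hl a3
    constructor <;> linarith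

/-- a height against the height chosen for a real parameter -/
theorem pl_vs_idx {n : ℕ} (hl : 0 ≤ lam) (h : P.At lam n) {i : ℕ} (hi : i ≤ P.ℓ n) (x : ℝ) :
    |P.ρ n i - P.ρ n (P.idx n x)| ≤ lam * (|P.s n i - x| + P.μ n) + P.ε n := by
  refine (pl_two hl h hi (pl_idx_le n x)).trans ?_
  have h1 := pl_node h x
  have h2 : |P.s n i - P.clamp n x| ≤ |P.s n i - x| := by
    have := pl_clamp_lip (P := P) n (P.s n i) x
    rwa [pl_clamp_node h hi] at this
  have h3 : |P.s n i - P.s n (P.idx n x)| ≤ |P.s n i - x| + P.μ n := by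
    have h4 : |P.clamp n x - P.s n (P.idx n x)| ≤ P.μ n := by
      rw [abs_le]; constructor <;> linarith [h.μ_nonneg]
    calc |P.s n i - P.s n (P.idx n x)| = |(P.s n i - P.clamp n x) + (P.clamp n x - P.s n (P.idx n x))| := by ring_nf
      _ ≤ |P.s n i - P.clamp n x| + |P.clamp n x - P.s n (P.idx n x)| := abs_add_le _ _
      _ ≤ _ := add_le_add h2 h4
  linarith [mul_le_mul_of_nonneg_left h3 hl]

theorem pl_bdd (h : P.Ok lam) (x : ℝ) : UBdd fun n => P.ρ n (P.idx n x) := by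
  obtain ⟨C0, hC0⟩ := h.top
  have hε : ∀ᶠ n in uf, P.ε n < 1 := h.ε_lim.eventually (gt_mem_nhds (by norm_num))
  have hμ : ∀ᶠ n in uf, P.μ n < 1 := h.μ_lim.eventually (gt_mem_nhds (by norm_num))
  refine UBdd.of_le (-(lam * (C0 + |x| + 1) + 1)) (lam * (C0 + |x| + 1) + 1) ?_
  filter_upwards [h.ev, hC0, hε, hμ] with n hn h0 h1 h2
  have h3 := pl_vs_idx h.lam_nonneg hn (Nat.zero_le (P.ℓ n)) x
  rw [hn.zero, zero_sub, abs_neg] at h3
  have h4 : |P.s n 0 - x| ≤ C0 + |x| := (abs_sub _ _).trans (by linarith)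
  have h5 : lam * (|P.s n 0 - x| + P.μ n) ≤ lam * (C0 + |x| + 1) := mul_le_mul_of_nonneg_left (by linarith) h.lam_nonneg
  have h6 := abs_le.1 h3
  constructor <;> linarith [h6.1, h6.2]

theorem pl_tendsto (h : P.Ok lam) (x : ℝ) : Tendsto (fun n => P.ρ n (P.idx n x)) uf (𝓝 (P.f x)) :=
  ulim_tendsto _ (pl_bdd h x)

/-- `f` is nonincreasing -/
theorem pl_anti (h : P.Ok lam) {x y : ℝ} (hxy : x ≤ y) : P.f y ≤ P.f x := by
  have := uf_neBot
  have h1 : Tendsto (fun n => P.ρ n (P.idx n y) - P.ε n) uf (𝓝 (P.f y - 0)) := (pl_tendsto h y).sub h.ε_lim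
  rw [sub_zero] at h1
  refine le_of_tendsto_of_tendsto h1 (pl_tendsto h x) ?_
  filter_upwards [h.ev] with n hn
  have := hn.lo _ _ (pl_idx_anti (P := P) n hxy) (pl_idx_le n x)
  linarith

/-- `f` is `lam`-Lipschitz -/
theorem pl_lip (h : P.Ok lam) {x y : ℝ} (hxy : x ≤ y) : P.f x - P.f y ≤ lam * (y - x) := by
  have := uf_neBot
  have h1 : Tendsto (fun n => P.ρ n (P.idx n x) - P.ρ n (P.idx n y)) uf (𝓝 (P.f x - P.f y)) := (pl_tendsto h x).sub (pl_tendsto h y)
  have h2 : Tendsto (fun n => lam * (y - x + P.μ n) + P.ε n) uf (𝓝 (lam * (y - x + 0) + 0)) :=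
    ((tendsto_const_nhds.add h.μ_lim).const_mul lam).add h.ε_lim
  rw [add_zero, add_zero] at h2
  refine le_of_tendsto_of_tendsto h1 h2 ?_
  filter_upwards [h.ev] with n hn
  have a1 := hn.hi _ _ (pl_idx_anti (P := P) n hxy) (pl_idx_le n x)
  have a2 := (pl_node hn y).2
  have a3 := (pl_node hn x).1
  have a4 : P.clamp n y - P.clamp n x ≤ y - x := by
    have := pl_clamp_lip (P := P) n y x
    rw [abs_of_nonneg (sub_nonneg.2 hxy)] at this
    exact (le_abs_self _).trans this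
  have a5 : lam * (P.s n (P.idx n y) - P.s n (P.idx n x)) ≤ lam * (y - x + P.μ n) := mul_le_mul_of_nonneg_left (by linarith) h.lam_nonneg
  show P.ρ n (P.idx n x) - P.ρ n (P.idx n y) ≤ lam * (y - x + P.μ n) + P.ε n
  linarith

theorem pl_abs_le (h : P.Ok lam) (x y : ℝ) : |P.f x - P.f y| ≤ lam * |x - y| := by
  rcases le_total x y with hxy | hxy
  · rw [abs_sub_comm x y, abs_of_nonneg (sub_nonneg.2 hxy), abs_of_nonneg (sub_nonneg.2 (pl_anti h hxy))]
    exact pl_lip h hxy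
  · rw [abs_sub_comm (P.f x), abs_of_nonneg (sub_nonneg.2 hxy), abs_of_nonneg (sub_nonneg.2 (pl_anti h hxy))]
    exact pl_lip h hxy

theorem pl_continuous (h : P.Ok lam) : Continuous P.f := by
  have : LipschitzWith (Real.toNNReal lam) P.f := by
    refine LipschitzWith.of_dist_le_mul fun x y => ?_
    rw [Real.dist_eq, Real.dist_eq, Real.coe_toNNReal _ h.lam_nonneg]
    exact pl_abs_le h x y
  exact this.continuous

theorem pl_lipschitz (h : P.Ok lam) : LipschitzWith (Real.toNNReal lam) P.f := by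
  refine LipschitzWith.of_dist_le_mul fun x y => ?_
  rw [Real.dist_eq, Real.dist_eq, Real.coe_toNNReal _ h.lam_nonneg]
  exact pl_abs_le h x y

theorem pl_nonneg (h : P.Ok lam) (x : ℝ) : 0 ≤ P.f x := by
  have := uf_neBot
  have h1 : Tendsto (fun n => -P.ε n) uf (𝓝 (-0)) := h.ε_lim.neg
  rw [neg_zero] at h1
  refine le_of_tendsto_of_tendsto h1 (pl_tendsto h x) ?_
  filter_upwards [h.ev] with n hn
  have := hn.lo 0 _ (Nat.zero_le _) (pl_idx_le n x)
  rw [hn.zero, sub_zero] at this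
  exact this

/-- **convergence along any sequence of heights whose nodes converge** -/
theorem pl_seq (h : P.Ok lam) (I : ℕ → ℕ) (hI : ∀ᶠ n in uf, I n ≤ P.ℓ n) (x : ℝ) (hx : Tendsto (fun n => P.s n (I n)) uf (𝓝 x)) :
    Tendsto (fun n => P.ρ n (I n)) uf (𝓝 (P.f x)) := by
  have h1 : Tendsto (fun n => lam * (|P.s n (I n) - x| + P.μ n) + P.ε n) uf (𝓝 (lam * (|x - x| + 0) + 0)) :=
    ((((hx.sub tendsto_const_nhds).abs).add h.μ_lim).const_mul lam).add h.ε_lim
  simp only [sub_self, abs_zero, add_zero, mul_zero] at h1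
  have h2 : Tendsto (fun n => P.ρ n (I n) - P.ρ n (P.idx n x)) uf (𝓝 0) := by
    refine squeeze_zero_norm' ?_ h1
    filter_upwards [h.ev, hI] with n hn hIn
    rw [Real.norm_eq_abs]
    exact pl_vs_idx h.lam_nonneg hn hIn x
  have h3 := h2.add (pl_tendsto h x)
  simpa using h3

/-- **uniform convergence at the nodes** -/
theorem pl_unif (h : P.Ok lam) (α β tol : ℝ) (htol : 0 < tol) :
    ∀ᶠ n in uf, ∀ i, i ≤ P.ℓ n → α ≤ P.s n i → P.s n i ≤ β → |P.ρ n i - P.f (P.s n i)| ≤ tol := by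
  classical
  have := uf_neBot
  rcases uf_em (fun n => ∀ i, i ≤ P.ℓ n → α ≤ P.s n i → P.s n i ≤ β → |P.ρ n i - P.f (P.s n i)| ≤ tol) with h1 | h1
  · exact h1
  exfalso
  have h2 : ∀ᶠ n in uf, ∃ i, i ≤ P.ℓ n ∧ α ≤ P.s n i ∧ P.s n i ≤ β ∧ tol < |P.ρ n i - P.f (P.s n i)| := by
    filter_upwards [h1] with n hn
    by_contra hc
    apply hn
    intro i a1 a2 a3
    by_contra a4
    exact hc ⟨i, a1, a2, a3, not_le.1 a4⟩
  let I : ℕ → ℕ := fun n => if hn : ∃ i, i ≤ P.ℓ n ∧ α ≤ P.s n i ∧ P.s n i ≤ β ∧ tol < |P.ρ n i - P.f (P.s n i)| then hn.choose else 0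
  have hI : ∀ᶠ n in uf, I n ≤ P.ℓ n ∧ α ≤ P.s n (I n) ∧ P.s n (I n) ≤ β ∧ tol < |P.ρ n (I n) - P.f (P.s n (I n))| := by
    filter_upwards [h2] with n hn
    have : I n = hn.choose := dif_pos hn
    rw [this]
    exact hn.choose_spec
  have hb : UBdd fun n => P.s n (I n) := UBdd.of_le α β (hI.mono fun n hn => ⟨hn.2.1, hn.2.2.1⟩)
  have ht := ulim_tendsto _ hb
  set τ := ulim fun n => P.s n (I n) with hτ
  have h3 := pl_seq h I (hI.mono fun n hn => hn.1) τ ht
  have h4 : Tendsto (fun n => P.f (P.s n (I n))) uf (𝓝 (P.f τ)) := ((pl_continuous h).tendsto τ).comp ht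
  have h5 : Tendsto (fun n => |P.ρ n (I n) - P.f (P.s n (I n))|) uf (𝓝 |P.f τ - P.f τ|) := (h3.sub h4).abs
  rw [sub_self, abs_zero] at h5
  have h6 : ∀ᶠ n in uf, |P.ρ n (I n) - P.f (P.s n (I n))| < tol := h5.eventually (gt_mem_nhds htol)
  obtain ⟨n, a1, a2⟩ := (hI.and h6).exists
  linarith [a1.2.2.2]

/-- `f` vanishes where the parameter is eventually above the top node -/
theorem pl_top' (h : P.Ok lam) {x : ℝ} (hx : ∀ᶠ n in uf, P.s n 0 ≤ x) : P.f x = 0 := by
  classical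
  unfold f
  rw [← ulim_const 0]
  refine ulim_congr _ _ ?_
  filter_upwards [h.ev, hx] with n hn h0
  have hex : ∃ i, i ≤ P.ℓ n ∧ P.s n i ≤ x := ⟨0, Nat.zero_le _, h0⟩
  have e1 : P.idx n x = Nat.find hex := by unfold idx; rw [dif_pos hex]
  have e2 : Nat.find hex = 0 := Nat.le_zero.1 (Nat.find_min' hex ⟨Nat.zero_le _, h0⟩)
  rw [e1, e2, hn.zero]

/-- `f (e) = 0` at the limiting fine endpoint, and above it -/
theorem pl_top (h : P.Ok lam) {x : ℝ} (hx : ulim (fun n => P.s n 0) ≤ x) : P.f x = 0 := by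
  have h1 : ∀ y, x < y → P.f y = 0 := fun y hy =>
    pl_top' h ((eventually_lt_of_ulim_lt _ y h.top (lt_of_le_of_lt hx hy)).mono fun n hn => hn.le)
  refine le_antisymm ?_ (pl_nonneg h x)
  refine le_of_forall_pos_le_add fun δ hδ => ?_
  have hl1 : 0 < lam + 1 := by linarith [h.lam_nonneg]
  have h2 := pl_lip h (x := x) (y := x + δ / (lam + 1)) (by have := div_pos hδ hl1; linarith)
  have h1' : P.f (x + δ / (lam + 1)) = 0 := h1 _ (by have := div_pos hδ hl1; linarith)
  rw [h1', sub_zero] at h2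
  have h3 : lam * (x + δ / (lam + 1) - x) ≤ δ := by
    have : lam * (x + δ / (lam + 1) - x) = δ * (lam / (lam + 1)) := by
      field_simp
      ring
    rw [this]
    have h4 : lam / (lam + 1) ≤ 1 := by rw [div_le_one hl1]; linarith
    calc δ * (lam / (lam + 1)) ≤ δ * 1 := mul_le_mul_of_nonneg_left h4 hδ.le
      _ = δ := mul_one δ
  linarith

/-- the nodes chosen for a parameter in the limiting range converge to it -/
theorem pl_node_tendsto (h : P.Ok lam) {x : ℝ} (hx : ∀ᶠ n in uf, P.s n (P.ℓ n) ≤ x ∧ x ≤ P.s n 0) :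
    Tendsto (fun n => P.s n (P.idx n x)) uf (𝓝 x) := by
  have h1 : Tendsto (fun n => x - P.μ n) uf (𝓝 (x - 0)) := tendsto_const_nhds.sub h.μ_lim
  rw [sub_zero] at h1
  refine tendsto_of_tendsto_of_tendsto_of_le_of_le' h1 tendsto_const_nhds ?_ ?_
  · filter_upwards [h.ev, hx] with n hn hxn
    have := (pl_node hn x).1
    rwa [pl_clamp_of_mem hxn.1 hxn.2] at this
  · filter_upwards [h.ev, hx] with n hn hxn
    have := (pl_node hn x).2
    rwa [pl_clamp_of_mem hxn.1 hxn.2] at this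

/-- an affine upper bound at the nodes passes to the limit -/
theorem pl_le_of_nodes (h : P.Ok lam) (a : ℕ → ℝ) (a0 c : ℝ) (ha : Tendsto a uf (𝓝 a0))
    (hb : ∀ᶠ n in uf, ∀ i, i ≤ P.ℓ n → P.ρ n i ≤ a n + c * P.s n i) {x : ℝ} (hx : ∀ᶠ n in uf, P.s n (P.ℓ n) ≤ x ∧ x ≤ P.s n 0) :
    P.f x ≤ a0 + c * x := by
  have := uf_neBot
  refine le_of_tendsto_of_tendsto (pl_tendsto h x) (ha.add ((pl_node_tendsto h hx).const_mul c)) ?_
  filter_upwards [hb] with n hn
  exact hn _ (pl_idx_le n x)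

/-- an affine lower bound at the nodes passes to the limit -/
theorem pl_ge_of_nodes (h : P.Ok lam) (a : ℕ → ℝ) (a0 c : ℝ) (ha : Tendsto a uf (𝓝 a0))
    (hb : ∀ᶠ n in uf, ∀ i, i ≤ P.ℓ n → a n + c * P.s n i ≤ P.ρ n i) {x : ℝ} (hx : ∀ᶠ n in uf, P.s n (P.ℓ n) ≤ x ∧ x ≤ P.s n 0) :
    a0 + c * x ≤ P.f x := by
  have := uf_neBot
  refine le_of_tendsto_of_tendsto (ha.add ((pl_node_tendsto h hx).const_mul c)) (pl_tendsto h x) ?_
  filter_upwards [hb] with n hn
  exact hn _ (pl_idx_le n x)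

end PSeq

end

end Claimed.Agent.R257.FR2
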