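import Claimed.Agent.R257.FR2.Sys

/-!
# ROW 257, package FR2, unit SEL, file A: API of `TSys.Ok`; THE DISCARD ESTIMATES `tsl_discard`, `tsl_discard_now`      (architect helper57)

Paper-free (H `frame.tex` l.632-660).   Everything is a consequence of `TSys.Ok`.
* §1 API: `ev 0 = 0`, `Ev (res M g) = ∑_{T ∈ M}`, restriction of admissible families, budgets of restrictions, square functions.
* §2 ONE STEP with the reference weights: `tsl_step_ratio` (`cauchy` + `dom`), `tsl_step_bud` (`hier` + `dom`).   Ratios are carried in SQUARED form `a_T² ≤ R b_T²` (no sign condition on `ρ`).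
* §3 propagation `prop` with its amplitudes `pam`: `tsl_prop_inv`.
* §4 `tsl_root` (the root count at a height `j = ℓ`, reference weights), `tsl_discard` (U1), `tsl_discard_now` (U1').
-/

set_option autoImplicit false

namespace Claimed.Agent.R257.FR2

open scoped BigOperators Classical

noncomputable section

namespace TSys

/-- product of the Cauchy constants of the steps `i, …, ℓ - 1` -/
def GamProd (𝔖 : TSys) (p : TPar) (i : ℕ) : ℝ := ∏ m ∈ Finset.Ico i 𝔖.ℓ, p.Γ m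

/-- the amplitudes of the propagated family `prop S i g d` -/
def pam (𝔖 : TSys) (S : ∀ i, Finset (𝔖.C i)) (i : ℕ) (g : 𝔖.C i → 𝔖.F) (a : 𝔖.C i → ℝ) : ∀ d, 𝔖.C (i + d) → ℝ
  | 0 => a
  | d + 1 => 𝔖.amp (i + d) (if d = 0 then 𝔖.prop S i g d else 𝔖.res (S (i + d)) (𝔖.prop S i g d))

variable {𝔖 : TSys} {p : TPar}

/-! ## 1. API -/

theorem tsl_ev_zero (h : 𝔖.Ok p) (i : ℕ) (T : 𝔖.C i) (z : 𝔖.Y) : 𝔖.ev i T 0 z = 0 := by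
  have := h.ev_add i T 0 0 z
  rw [add_zero] at this
  exact left_eq_add.1 this

theorem tsl_Ev_res (h : 𝔖.Ok p) (i : ℕ) (M : Finset (𝔖.C i)) (g : 𝔖.C i → 𝔖.F) (z : 𝔖.Y) :
    𝔖.Ev i (𝔖.res M g) z = ∑ T ∈ M, 𝔖.ev i T (g T) z := by
  unfold Ev res
  rw [← Finset.sum_filter_add_sum_filter_not Finset.univ (fun T => T ∈ M)]
  rw [Finset.sum_congr rfl (g := fun T => 𝔖.ev i T (g T) z) (fun T hT => by rw [if_pos (Finset.mem_filter.1 hT).2]),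
    Finset.sum_eq_zero (s := Finset.univ.filter fun T => ¬ T ∈ M) (fun T hT => by rw [if_neg (Finset.mem_filter.1 hT).2, tsl_ev_zero h]), add_zero]
  congr 1
  ext T
  simp

theorem tsl_res_univ (i : ℕ) (g : 𝔖.C i → 𝔖.F) : 𝔖.res Finset.univ g = g := by
  funext T
  simp [res]

theorem tsl_adm_nonneg (h : 𝔖.Ok p) {i : ℕ} {g : 𝔖.C i → 𝔖.F} {a : 𝔖.C i → ℝ} (hg : 𝔖.Adm i g a) (T : 𝔖.C i) : 0 ≤ a T :=
  h.pk_nonneg i T _ _ (hg T)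

theorem tsl_adm_res (h : 𝔖.Ok p) {i : ℕ} {g : 𝔖.C i → 𝔖.F} {a : 𝔖.C i → ℝ} (hg : 𝔖.Adm i g a) (M : Finset (𝔖.C i)) :
    𝔖.Adm i (𝔖.res M g) (𝔖.resA M a) := by
  intro T
  unfold res resA
  split_ifs
  · exact hg T
  · exact h.pk_zero i T

theorem tsl_adm_res' (h : 𝔖.Ok p) {i : ℕ} {g : 𝔖.C i → 𝔖.F} {a : 𝔖.C i → ℝ} (hg : 𝔖.Adm i g a) (M : Finset (𝔖.C i)) :
    𝔖.Adm i (𝔖.res M g) a := by
  intro T
  unfold res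
  split_ifs
  · exact hg T
  · exact h.pk_mono i T 0 _ 0 (h.pk_zero i T) (tsl_adm_nonneg h hg T)

theorem tsl_bud_nonneg (h : 𝔖.Ok p) (q : ℝ) (i : ℕ) {a b : 𝔖.C i → ℝ} (ha : ∀ T, 0 ≤ a T) (hb : ∀ T, 0 ≤ b T) : 0 ≤ 𝔖.bud q i a b :=
  Finset.sum_nonneg fun T _ => mul_nonneg (mul_nonneg (h.vol_pos i).le (Real.rpow_nonneg (ha T) _)) (Real.rpow_nonneg (hb T) _)

theorem tsl_bud_res (q : ℝ) (hq : q ≠ 0) (i : ℕ) (M : Finset (𝔖.C i)) (a b : 𝔖.C i → ℝ) :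
    𝔖.bud q i (𝔖.resA M a) b = ∑ T ∈ M, 𝔖.vol i * a T ^ q * b T ^ (2 - q) := by
  unfold bud resA
  rw [← Finset.sum_filter_add_sum_filter_not Finset.univ (fun T => T ∈ M)]
  rw [Finset.sum_congr rfl (g := fun T => 𝔖.vol i * a T ^ q * b T ^ (2 - q)) (fun T hT => by rw [if_pos (Finset.mem_filter.1 hT).2]),
    Finset.sum_eq_zero (s := Finset.univ.filter fun T => ¬ T ∈ M) (fun T hT => by rw [if_neg (Finset.mem_filter.1 hT).2, Real.zero_rpow hq, mul_zero, zero_mul]), add_zero]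
  congr 1
  ext T
  simp

theorem tsl_bud_res_le (h : 𝔖.Ok p) (q : ℝ) (hq : q ≠ 0) (i : ℕ) (M : Finset (𝔖.C i)) {a b : 𝔖.C i → ℝ} (ha : ∀ T, 0 ≤ a T) (hb : ∀ T, 0 ≤ b T) :
    𝔖.bud q i (𝔖.resA M a) b ≤ 𝔖.bud q i a b := by
  rw [tsl_bud_res q hq]
  exact Finset.sum_le_sum_of_subset_of_nonneg (Finset.subset_univ M) fun T _ _ =>
    mul_nonneg (mul_nonneg (h.vol_pos i).le (Real.rpow_nonneg (ha T) _)) (Real.rpow_nonneg (hb T) _)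

theorem tsl_sq_le (h : 𝔖.Ok p) (i : ℕ) {a b : 𝔖.C i → ℝ} {R : ℝ} (hR : ∀ T, a T ^ 2 ≤ R * b T ^ 2) (z : 𝔖.Y) : 𝔖.sq i a z ≤ R * 𝔖.sq i b z := by
  unfold sq
  rw [Finset.mul_sum]
  refine Finset.sum_le_sum fun T _ => ?_
  rw [← mul_assoc]
  exact mul_le_mul_of_nonneg_right (hR T) (h.w_nonneg i T z)

theorem tsl_sq_of_le {a b ρ : ℝ} (ha : 0 ≤ a) (hρ : a ≤ ρ * b) : a ^ 2 ≤ ρ ^ 2 * b ^ 2 := by
  rw [← mul_pow]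
  exact pow_le_pow_left₀ ha hρ 2

theorem tsl_le_of_sq {a b R : ℝ} (hb : 0 ≤ b) (hR : a ^ 2 ≤ R * b ^ 2) : a ≤ Real.sqrt R * b := by
  by_cases hR0 : 0 ≤ R
  · have h1 := Real.sqrt_le_sqrt hR
    rw [Real.sqrt_sq_eq_abs, Real.sqrt_mul hR0, Real.sqrt_sq hb] at h1
    exact (le_abs_self a).trans h1
  · have h1 : R * b ^ 2 ≤ 0 := mul_nonpos_of_nonpos_of_nonneg (not_le.1 hR0).le (sq_nonneg b)
    have h2 : a = 0 := by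
      have := le_antisymm (hR.trans h1) (sq_nonneg a)
      exact pow_eq_zero_iff (two_ne_zero) |>.1 this
    rw [h2]
    exact mul_nonneg (Real.sqrt_nonneg R) hb

theorem tsl_pos_of_sq {a b R : ℝ} (hb : 0 ≤ b) (hR : a ^ 2 ≤ R * b ^ 2) (ha : a ≠ 0) : 0 < b := by
  rcases hb.lt_or_eq with h | h
  · exact h
  · exfalso
    rw [← h] at hR
    have : a ^ 2 ≤ 0 := by simpa using hR
    exact ha (pow_eq_zero_iff (two_ne_zero) |>.1 (le_antisymm this (sq_nonneg a)))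

/-! ## 2. One step with the reference weights -/

theorem tsl_dom_eh (h : 𝔖.Ok p) (i : ℕ) (hi : i < 𝔖.ℓ) (T : 𝔖.C (i + 1)) : ∑ T', 𝔖.b i T' ^ 2 * 𝔖.eh i T' T ≤ 𝔖.b (i + 1) T ^ 2 :=
  le_trans (Finset.sum_le_sum fun T' _ => mul_le_mul_of_nonneg_left (h.eh_le i T' T) (sq_nonneg _)) (h.dom i hi T)

theorem tsl_step_ratio (h : 𝔖.Ok p) (i : ℕ) (hi : i < 𝔖.ℓ) {g : 𝔖.C i → 𝔖.F} {a : 𝔖.C i → ℝ} (hg : 𝔖.Adm i g a) {R : ℝ} (hR0 : 0 ≤ R)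
    (hR : ∀ T, a T ^ 2 ≤ R * 𝔖.b i T ^ 2) (T : 𝔖.C (i + 1)) : 𝔖.amp i g T ^ 2 ≤ R * p.Γ i * 𝔖.b (i + 1) T ^ 2 := by
  have hΓ : 0 ≤ p.Γ i := zero_le_one.trans (h.one_le_Γ i)
  calc 𝔖.amp i g T ^ 2 ≤ p.Γ i * ∑ T', a T' ^ 2 * 𝔖.eh i T' T := h.cauchy i hi g a hg T
    _ ≤ p.Γ i * ∑ T', R * (𝔖.b i T' ^ 2 * 𝔖.eh i T' T) := by
        refine mul_le_mul_of_nonneg_left (Finset.sum_le_sum fun T' _ => ?_) hΓ
        rw [← mul_assoc]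
        exact mul_le_mul_of_nonneg_right (hR T') (h.eh_nonneg i T' T)
    _ = R * p.Γ i * ∑ T', 𝔖.b i T' ^ 2 * 𝔖.eh i T' T := by rw [← Finset.mul_sum]; ring
    _ ≤ R * p.Γ i * 𝔖.b (i + 1) T ^ 2 := mul_le_mul_of_nonneg_left (tsl_dom_eh h i hi T) (mul_nonneg hR0 hΓ)

theorem tsl_step_bud (h : 𝔖.Ok p) (i : ℕ) (hi : i < 𝔖.ℓ) {g : 𝔖.C i → 𝔖.F} {a : 𝔖.C i → ℝ} (hg : 𝔖.Adm i g a) {R : ℝ}
    (hR : ∀ T, a T ^ 2 ≤ R * 𝔖.b i T ^ 2) : 𝔖.bud p.q (i + 1) (𝔖.amp i g) (𝔖.b (i + 1)) ≤ p.L * 𝔖.bud p.q i a (𝔖.b i) :=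
  h.hier i hi g a hg (𝔖.b i) (𝔖.b (i + 1)) (h.b_nonneg i) (fun T' hT' => tsl_pos_of_sq (h.b_nonneg i T') (hR T') hT') (h.b_nonneg (i + 1)) (tsl_dom_eh h i hi)

/-! ## 3. Propagation -/

theorem tsl_one_le_prod (h : 𝔖.Ok p) (s : Finset ℕ) : 1 ≤ ∏ m ∈ s, p.Γ m := by
  have := Finset.prod_le_prod (s := s) (f := fun _ => (1 : ℝ)) (g := fun m => p.Γ m) (fun _ _ => zero_le_one) (fun m _ => h.one_le_Γ m)
  simpa using this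

theorem tsl_prod_le_GamProd (h : 𝔖.Ok p) (i d : ℕ) (hd : i + d ≤ 𝔖.ℓ) : ∏ m ∈ Finset.Ico i (i + d), p.Γ m ≤ 𝔖.GamProd p i := by
  unfold GamProd
  rw [← Finset.prod_Ico_consecutive (fun m => p.Γ m) (Nat.le_add_right i d) hd]
  exact le_mul_of_one_le_right (zero_le_one.trans (tsl_one_le_prod h _)) (tsl_one_le_prod h _)

/-- the family which is assembled at the step `d → d + 1` of `prop` -/
def pin (𝔖 : TSys) (S : ∀ i, Finset (𝔖.C i)) (i : ℕ) (g : 𝔖.C i → 𝔖.F) (d : ℕ) : 𝔖.C (i + d) → 𝔖.F :=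
  if d = 0 then 𝔖.prop S i g d else 𝔖.res (S (i + d)) (𝔖.prop S i g d)

theorem tsl_prop_inv (h : 𝔖.Ok p) (S : ∀ i, Finset (𝔖.C i)) (i : ℕ) {g : 𝔖.C i → 𝔖.F} {a : 𝔖.C i → ℝ} (hg : 𝔖.Adm i g a) {R : ℝ} (hR0 : 0 ≤ R)
    (hR : ∀ T, a T ^ 2 ≤ R * 𝔖.b i T ^ 2) : ∀ d, i + d ≤ 𝔖.ℓ → 𝔖.Adm (i + d) (𝔖.prop S i g d) (𝔖.pam S i g a d) ∧
      (∀ T, 𝔖.pam S i g a d T ^ 2 ≤ R * (∏ m ∈ Finset.Ico i (i + d), p.Γ m) * 𝔖.b (i + d) T ^ 2) ∧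
      𝔖.bud p.q (i + d) (𝔖.pam S i g a d) (𝔖.b (i + d)) ≤ p.L ^ d * 𝔖.bud p.q i a (𝔖.b i) := by
  intro d
  induction d with
  | zero =>
    intro _
    refine ⟨hg, fun T => ?_, ?_⟩
    · have : (∏ m ∈ Finset.Ico i (i + 0), p.Γ m) = 1 := by simp
      rw [this, mul_one]
      exact hR T
    · rw [pow_zero, one_mul]
      exact le_refl _
  | succ d ih =>
    intro hd
    have hd' : i + d < 𝔖.ℓ := hd
    obtain ⟨h1, h2, h3⟩ := ih hd'.le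
    have hadm : 𝔖.Adm (i + d) (𝔖.pin S i g d) (𝔖.pam S i g a d) := by
      unfold pin
      split_ifs
      · exact h1
      · exact tsl_adm_res' h h1 _
    have hP0 : 0 ≤ R * ∏ m ∈ Finset.Ico i (i + d), p.Γ m := mul_nonneg hR0 (zero_le_one.trans (tsl_one_le_prod h _))
    refine ⟨h.closure (i + d) hd' _ _ hadm, fun T => ?_, ?_⟩
    · have := tsl_step_ratio h (i + d) hd' hadm hP0 h2 T
      have e : (∏ m ∈ Finset.Ico i (i + (d + 1)), p.Γ m) = (∏ m ∈ Finset.Ico i (i + d), p.Γ m) * p.Γ (i + d) :=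
        Finset.prod_Ico_succ_top (Nat.le_add_right i d) _
      rw [e, ← mul_assoc]
      exact this
    · have := tsl_step_bud h (i + d) hd' hadm h2
      refine le_trans this ?_
      rw [pow_succ, mul_comm (p.L ^ d) p.L, mul_assoc]
      exact mul_le_mul_of_nonneg_left h3 (zero_le_one.trans h.one_le_L)

/-! ## 4. The root count and the discard estimates -/

theorem tsl_root (h : 𝔖.Ok p) (j : ℕ) (hj : j = 𝔖.ℓ) {g : 𝔖.C j → 𝔖.F} {a : 𝔖.C j → ℝ} (hg : 𝔖.Adm j g a) {R θ : ℝ} (hR0 : 0 ≤ R) (hθ : 0 < θ)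
    (hR : ∀ T, a T ^ 2 ≤ R * 𝔖.b j T ^ 2) (hRm : R * p.Γr 𝔖.ℓ * p.ϖ0 ≤ (p.Rm * θ) ^ 2) :
    ((Finset.univ.filter fun z => θ ≤ ‖𝔖.Ev j g z‖).card : ℝ) ≤ p.L0 * θ ^ (-p.q) * p.ϖ0 ^ (p.q / 2 - 1) * 𝔖.bud p.q j a (𝔖.b j) := by
  subst hj
  refine h.root g a hg (𝔖.b 𝔖.ℓ) (h.b_nonneg _) (fun T hT => tsl_pos_of_sq (h.b_nonneg _ T) (hR T) hT) _ θ p.ϖ0 (Real.sqrt R) hθ
    (zero_lt_one.trans_le h.one_le_ϖ0) (fun T => tsl_le_of_sq (h.b_nonneg _ T) (hR T)) (by rw [Real.sq_sqrt hR0]; exact hRm) fun z hz => ⟨(Finset.mem_filter.1 hz).2, ?_⟩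
  exact le_trans (Finset.sum_le_sum fun T _ => mul_le_mul_of_nonneg_left (h.wh_le T z) (sq_nonneg _)) (h.sq_le 𝔖.ℓ le_rfl z)

/-- **U1, the discard estimate** (f:discard) -/
theorem tsl_discard (h : 𝔖.Ok p) (S : ∀ i, Finset (𝔖.C i)) (i d : ℕ) (hid : i + d = 𝔖.ℓ) (g : 𝔖.C i → 𝔖.F) (a : 𝔖.C i → ℝ) (hg : 𝔖.Adm i g a)
    (ρ θ : ℝ) (hθ : 0 < θ) (hρ : ∀ T, a T ≤ ρ * 𝔖.b i T) (hR : ρ ^ 2 * 𝔖.GamProd p i * p.Γr 𝔖.ℓ * p.ϖ0 ≤ (p.Rm * θ) ^ 2) :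
    ((Finset.univ.filter fun z => θ ≤ ‖𝔖.Ev (i + d) (𝔖.res (S (i + d)) (𝔖.prop S i g d)) z‖).card : ℝ)
      ≤ p.L0 * p.L ^ d * p.ϖ0 ^ (p.q / 2 - 1) * θ ^ (-p.q) * 𝔖.bud p.q i a (𝔖.b i) := by
  obtain ⟨h1, h2, h3⟩ := tsl_prop_inv h S i hg (sq_nonneg ρ) (fun T => tsl_sq_of_le (tsl_adm_nonneg h hg T) (hρ T)) d hid.le
  have e : (∏ m ∈ Finset.Ico i (i + d), p.Γ m) = 𝔖.GamProd p i := by unfold GamProd; rw [hid]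
  rw [e] at h2
  have hG0 : 0 ≤ 𝔖.GamProd p i := zero_le_one.trans (tsl_one_le_prod h _)
  have := tsl_root h (i + d) hid (tsl_adm_res' h h1 (S (i + d))) (mul_nonneg (sq_nonneg ρ) hG0) hθ h2 hR
  refine le_trans this ?_
  have hc : 0 ≤ p.L0 * θ ^ (-p.q) * p.ϖ0 ^ (p.q / 2 - 1) :=
    mul_nonneg (mul_nonneg (zero_le_one.trans h.one_le_L0) (Real.rpow_nonneg hθ.le _)) (Real.rpow_nonneg (zero_le_one.trans h.one_le_ϖ0) _)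
  calc p.L0 * θ ^ (-p.q) * p.ϖ0 ^ (p.q / 2 - 1) * 𝔖.bud p.q (i + d) (𝔖.pam S i g a d) (𝔖.b (i + d))
      ≤ p.L0 * θ ^ (-p.q) * p.ϖ0 ^ (p.q / 2 - 1) * (p.L ^ d * 𝔖.bud p.q i a (𝔖.b i)) := mul_le_mul_of_nonneg_left h3 hc
    _ = p.L0 * p.L ^ d * p.ϖ0 ^ (p.q / 2 - 1) * θ ^ (-p.q) * 𝔖.bud p.q i a (𝔖.b i) := by ring

theorem tsl_pin_univ (i : ℕ) (g : 𝔖.C i → 𝔖.F) (d : ℕ) : 𝔖.pin (fun _ => Finset.univ) i g d = 𝔖.prop (fun _ => Finset.univ) i g d := by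
  unfold pin
  split_ifs
  · rfl
  · exact tsl_res_univ _ _

/-- all cells of the upper layers retained: the root field changes by `d η √(R Γ ϖ0)` -/
theorem tsl_junk_tele (h : 𝔖.Ok p) (i : ℕ) {g : 𝔖.C i → 𝔖.F} {a : 𝔖.C i → ℝ} (hg : 𝔖.Adm i g a) {R : ℝ} (hR0 : 0 ≤ R)
    (hR : ∀ T, a T ^ 2 ≤ R * 𝔖.b i T ^ 2) (z : 𝔖.Y) : ∀ d, i + d ≤ 𝔖.ℓ →
      ‖𝔖.Ev i g z - 𝔖.Ev (i + d) (𝔖.prop (fun _ => Finset.univ) i g d) z‖ ≤ d * (p.η * Real.sqrt (R * 𝔖.GamProd p i * p.ϖ0)) := by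
  intro d
  induction d with
  | zero =>
    intro _
    have : 𝔖.Ev i g z - 𝔖.Ev (i + 0) (𝔖.prop (fun _ => Finset.univ) i g 0) z = 0 := sub_self _
    rw [this]
    simp
  | succ d ih =>
    intro hd
    have hd' : i + d < 𝔖.ℓ := hd
    obtain ⟨h1, h2, -⟩ := tsl_prop_inv h (fun _ => Finset.univ) i hg hR0 hR d hd'.le
    have hj := h.junk (i + d) hd' _ _ h1 z
    have hs : 𝔖.sq (i + d) (𝔖.pam (fun _ => Finset.univ) i g a d) z ≤ R * 𝔖.GamProd p i * p.ϖ0 := by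
      refine le_trans (tsl_sq_le h (i + d) h2 z) ?_
      have hP0 : 0 ≤ R * ∏ m ∈ Finset.Ico i (i + d), p.Γ m := mul_nonneg hR0 (zero_le_one.trans (tsl_one_le_prod h _))
      refine le_trans (mul_le_mul_of_nonneg_left (h.sq_le (i + d) hd'.le z) hP0) ?_
      exact mul_le_mul_of_nonneg_right (mul_le_mul_of_nonneg_left (tsl_prod_le_GamProd h i d hd'.le) hR0) (zero_le_one.trans h.one_le_ϖ0)
    have hstep : ‖𝔖.Ev (i + d) (𝔖.prop (fun _ => Finset.univ) i g d) z - 𝔖.Ev (i + (d + 1)) (𝔖.prop (fun _ => Finset.univ) i g (d + 1)) z‖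
        ≤ p.η * Real.sqrt (R * 𝔖.GamProd p i * p.ϖ0) := by
      have e : 𝔖.prop (fun _ => Finset.univ) i g (d + 1) = 𝔖.asm (i + d) (𝔖.prop (fun _ => Finset.univ) i g d) := by
        conv_rhs => rw [← tsl_pin_univ]
        rfl
      rw [e]
      have h4 : ‖𝔖.Ev (i + d) (𝔖.prop (fun _ => Finset.univ) i g d) z - 𝔖.Ev (i + d + 1) (𝔖.asm (i + d) (𝔖.prop (fun _ => Finset.univ) i g d)) z‖ ^ 2
          ≤ (p.η * Real.sqrt (R * 𝔖.GamProd p i * p.ϖ0)) ^ 2 := by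
        rw [mul_pow, Real.sq_sqrt (le_trans (Finset.sum_nonneg fun T _ => mul_nonneg (sq_nonneg _) (h.w_nonneg _ T z)) hs)]
        exact hj.trans (mul_le_mul_of_nonneg_left hs (sq_nonneg _))
      exact (abs_le_of_sq_le_sq' h4 (mul_nonneg h.η_nonneg (Real.sqrt_nonneg _))).2
    calc ‖𝔖.Ev i g z - 𝔖.Ev (i + (d + 1)) (𝔖.prop (fun _ => Finset.univ) i g (d + 1)) z‖
        ≤ ‖𝔖.Ev i g z - 𝔖.Ev (i + d) (𝔖.prop (fun _ => Finset.univ) i g d) z‖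
          + ‖𝔖.Ev (i + d) (𝔖.prop (fun _ => Finset.univ) i g d) z - 𝔖.Ev (i + (d + 1)) (𝔖.prop (fun _ => Finset.univ) i g (d + 1)) z‖ := norm_sub_le_norm_sub_add_norm_sub _ _ _
      _ ≤ d * (p.η * Real.sqrt (R * 𝔖.GamProd p i * p.ϖ0)) + p.η * Real.sqrt (R * 𝔖.GamProd p i * p.ϖ0) := add_le_add (ih hd'.le) hstep
      _ = ((d + 1 : ℕ) : ℝ) * (p.η * Real.sqrt (R * 𝔖.GamProd p i * p.ϖ0)) := by push_cast; ring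

/-- **U1', the discard estimate before the upper layers are assembled** -/
theorem tsl_discard_now (h : 𝔖.Ok p) (i : ℕ) (hi : i ≤ 𝔖.ℓ) (g : 𝔖.C i → 𝔖.F) (a : 𝔖.C i → ℝ) (hg : 𝔖.Adm i g a)
    (ρ θ : ℝ) (hθ : 0 < θ) (hρ : ∀ T, a T ≤ ρ * 𝔖.b i T) (hR : ρ ^ 2 * 𝔖.GamProd p i * p.Γr 𝔖.ℓ * p.ϖ0 ≤ (p.Rm * θ / 2) ^ 2)
    (hη : (p.η * 𝔖.ℓ) ^ 2 * (ρ ^ 2 * 𝔖.GamProd p i * p.ϖ0) ≤ (θ / 2) ^ 2) :
    ((Finset.univ.filter fun z => θ ≤ ‖𝔖.Ev i g z‖).card : ℝ)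
      ≤ 2 ^ p.q * p.L0 * p.L ^ (𝔖.ℓ - i) * p.ϖ0 ^ (p.q / 2 - 1) * θ ^ (-p.q) * 𝔖.bud p.q i a (𝔖.b i) := by
  have hid : i + (𝔖.ℓ - i) = 𝔖.ℓ := Nat.add_sub_cancel' hi
  have hd := tsl_discard h (fun _ => Finset.univ) i (𝔖.ℓ - i) hid g a hg ρ (θ / 2) (half_pos hθ) hρ (by rw [← mul_div_assoc]; exact hR)
  have hM0 : 0 ≤ ρ ^ 2 * 𝔖.GamProd p i * p.ϖ0 :=
    mul_nonneg (mul_nonneg (sq_nonneg ρ) (zero_le_one.trans (tsl_one_le_prod h _))) (zero_le_one.trans h.one_le_ϖ0)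
  have herr : ((𝔖.ℓ - i : ℕ) : ℝ) * (p.η * Real.sqrt (ρ ^ 2 * 𝔖.GamProd p i * p.ϖ0)) ≤ θ / 2 := by
    have h1 : ((𝔖.ℓ - i : ℕ) : ℝ) * (p.η * Real.sqrt (ρ ^ 2 * 𝔖.GamProd p i * p.ϖ0)) ≤ p.η * 𝔖.ℓ * Real.sqrt (ρ ^ 2 * 𝔖.GamProd p i * p.ϖ0) := by
      have : ((𝔖.ℓ - i : ℕ) : ℝ) ≤ 𝔖.ℓ := by exact_mod_cast Nat.sub_le _ _
      calc ((𝔖.ℓ - i : ℕ) : ℝ) * (p.η * Real.sqrt (ρ ^ 2 * 𝔖.GamProd p i * p.ϖ0)) ≤ (𝔖.ℓ : ℝ) * (p.η * Real.sqrt (ρ ^ 2 * 𝔖.GamProd p i * p.ϖ0)) :=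
            mul_le_mul_of_nonneg_right this (mul_nonneg h.η_nonneg (Real.sqrt_nonneg _))
        _ = _ := by ring
    refine h1.trans ?_
    have h2 : (p.η * 𝔖.ℓ * Real.sqrt (ρ ^ 2 * 𝔖.GamProd p i * p.ϖ0)) ^ 2 ≤ (θ / 2) ^ 2 := by
      rw [mul_pow, Real.sq_sqrt hM0]
      exact hη
    exact (abs_le_of_sq_le_sq' h2 (half_pos hθ).le).2
  have hsub : (Finset.univ.filter fun z => θ ≤ ‖𝔖.Ev i g z‖)
      ⊆ Finset.univ.filter fun z => θ / 2 ≤ ‖𝔖.Ev (i + (𝔖.ℓ - i)) (𝔖.res Finset.univ (𝔖.prop (fun _ => Finset.univ) i g (𝔖.ℓ - i))) z‖ := by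
    intro z hz
    rw [Finset.mem_filter] at hz ⊢
    refine ⟨hz.1, ?_⟩
    rw [tsl_res_univ]
    have h1 := tsl_junk_tele h i hg (sq_nonneg ρ) (fun T => tsl_sq_of_le (tsl_adm_nonneg h hg T) (hρ T)) z (𝔖.ℓ - i) hid.le
    have h2 := norm_sub_norm_le (𝔖.Ev i g z) (𝔖.Ev (i + (𝔖.ℓ - i)) (𝔖.prop (fun _ => Finset.univ) i g (𝔖.ℓ - i)) z)
    have h3 := hz.2
    linarith
  have hc : ((Finset.univ.filter fun z => θ ≤ ‖𝔖.Ev i g z‖).card : ℝ)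
      ≤ ((Finset.univ.filter fun z => θ / 2 ≤ ‖𝔖.Ev (i + (𝔖.ℓ - i)) (𝔖.res Finset.univ (𝔖.prop (fun _ => Finset.univ) i g (𝔖.ℓ - i))) z‖).card : ℝ) := by
    exact_mod_cast Finset.card_le_card hsub
  refine hc.trans (hd.trans (le_of_eq ?_))
  have e : (θ / 2) ^ (-p.q) = 2 ^ p.q * θ ^ (-p.q) := by
    rw [Real.div_rpow hθ.le (by norm_num), Real.rpow_neg (by norm_num : (0:ℝ) ≤ 2), div_eq_mul_inv, inv_inv, mul_comm]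
  rw [e]
  ring

end TSys

end

end Claimed.Agent.R257.FR2
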