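import Claimed.Agent.R257.FR2.SelA

/-!
# ROW 257, package FR2, unit SEL, file B: ONE STAGE OF THE SELECTION `tsl_stage`      (architect helper57)

Paper-free (H `frame.tex` l.662-698).   One layer `i`, an admissible family `g` with amplitudes `a`, high (`≥ θ`) on `Y₀`.
Cells: `tslZ` (negligible ratio `a_T < ρ₀ b_T`, or `b_T = 0`), dyadic classes `tslCl m` (`2^m ρ₀ b_T ≤ a_T < 2^{m+1} ρ₀ b_T`, `m < N`), each split by the occupancy into `tslGood m`, `tslBad m`.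
* `tsl_partition` (L-SEL-B1): `∑_T = ∑_Z + ∑_{m<N} ∑_{Cl m}`.
* `tsl_bad_bud` (L-SEL-B2): the budget of over-occupied cells is `≤ 2^q ϖ1 |Y| A^q / G` (double counting, `inc_le`).
* `tsl_pigeon` (L-SEL-B3): abstract pigeonhole.
* `tsl_stage` (L-SEL-B4): assembly.   The discard estimate enters as the HYPOTHESIS `hdisc` (constant `Cd`); it is supplied in file C by `tsl_discard_num`.
RULES FOR LEAVES: prove in place, statements verbatim (defect: one line to helper57), auxiliary lemmas directly above with prefix `tsl_<leaf>_`.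
-/

set_option autoImplicit false

namespace Claimed.Agent.R257.FR2

open scoped BigOperators Classical

noncomputable section

namespace TSys

/-- the cells of negligible ratio -/
def tslZ (𝔖 : TSys) (i : ℕ) (a : 𝔖.C i → ℝ) (ρ₀ : ℝ) : Finset (𝔖.C i) := Finset.univ.filter fun T => 𝔖.b i T = 0 ∨ a T < ρ₀ * 𝔖.b i T

/-- the dyadic classes of the ratio `a_T / b_T` -/
def tslCl (𝔖 : TSys) (i : ℕ) (a : 𝔖.C i → ℝ) (ρ₀ : ℝ) (m : ℕ) : Finset (𝔖.C i) :=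
  Finset.univ.filter fun T => 0 < 𝔖.b i T ∧ 2 ^ m * ρ₀ * 𝔖.b i T ≤ a T ∧ a T < 2 ^ (m + 1) * ρ₀ * 𝔖.b i T

/-- the cells of a class with admissible occupancy -/
def tslGood (𝔖 : TSys) (i : ℕ) (a : 𝔖.C i → ℝ) (ρ₀ A G q : ℝ) (m : ℕ) : Finset (𝔖.C i) :=
  (𝔖.tslCl i a ρ₀ m).filter fun T => (𝔖.occ i T : ℝ) ≤ G * (𝔖.vol i * (2 ^ m * ρ₀ / A) ^ q)

/-- the over-occupied cells of a class -/
def tslBad (𝔖 : TSys) (i : ℕ) (a : 𝔖.C i → ℝ) (ρ₀ A G q : ℝ) (m : ℕ) : Finset (𝔖.C i) :=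
  (𝔖.tslCl i a ρ₀ m).filter fun T => ¬ (𝔖.occ i T : ℝ) ≤ G * (𝔖.vol i * (2 ^ m * ρ₀ / A) ^ q)

variable {𝔖 : TSys} {p : TPar}

/-- L-SEL-B1.   PLAN: `U n = {T | 0 < b T ∧ ρ₀ b T ≤ a T ∧ a T < 2^n ρ₀ b T}`; induction on `n`: `∑_{U n} = ∑_{m<n} ∑_{Cl m}` (`U (n+1) = U n ⊔ Cl n`, disjoint: `Finset.sum_union` / `Finset.sum_filter_add_sum_filter_not`; `U 0 = ∅`);
`univ = Z ⊔ U N` by `htop`, `hb`. -/
theorem tsl_partition (i : ℕ) (a : 𝔖.C i → ℝ) (hb : ∀ T, 0 ≤ 𝔖.b i T) (ρ₀ : ℝ) (hρ₀ : 0 < ρ₀) (N : ℕ)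
    (htop : ∀ T, 0 < 𝔖.b i T → a T < 2 ^ N * ρ₀ * 𝔖.b i T) (f : 𝔖.C i → ℂ) :
    ∑ T, f T = ∑ T ∈ 𝔖.tslZ i a ρ₀, f T + ∑ m ∈ Finset.range N, ∑ T ∈ 𝔖.tslCl i a ρ₀ m, f T := by
  have key : ∀ n : ℕ, ∑ T ∈ Finset.univ.filter (fun T => 0 < 𝔖.b i T ∧ ρ₀ * 𝔖.b i T ≤ a T ∧ a T < 2 ^ n * ρ₀ * 𝔖.b i T), f T
      = ∑ m ∈ Finset.range n, ∑ T ∈ 𝔖.tslCl i a ρ₀ m, f T := by
    intro n
    induction n with
    | zero =>
      rw [Finset.range_zero, Finset.sum_empty]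
      refine Finset.sum_eq_zero fun T hT => ?_
      rw [Finset.mem_filter] at hT
      obtain ⟨-, -, h2, h3⟩ := hT
      rw [pow_zero, one_mul] at h3
      exact absurd h3 (not_lt.2 h2)
    | succ n ih =>
      rw [Finset.sum_range_succ, ← ih, ← Finset.sum_union]
      · refine Finset.sum_congr ?_ fun _ _ => rfl
        ext T
        unfold tslCl
        simp only [Finset.mem_union, Finset.mem_filter, Finset.mem_univ, true_and]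
        constructor
        · rintro ⟨h1, h2, h3⟩
          by_cases h4 : a T < 2 ^ n * ρ₀ * 𝔖.b i T
          · exact Or.inl ⟨h1, h2, h4⟩
          · exact Or.inr ⟨h1, not_lt.1 h4, h3⟩
        · rintro (⟨h1, h2, h3⟩ | ⟨h1, h2, h3⟩)
          · refine ⟨h1, h2, h3.trans_le ?_⟩
            have h5 : 0 < ρ₀ * 𝔖.b i T := mul_pos hρ₀ h1
            have h6 : (2 : ℝ) ^ n ≤ 2 ^ (n + 1) := pow_le_pow_right₀ (by norm_num) (Nat.le_succ n)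
            rw [mul_assoc, mul_assoc]
            exact mul_le_mul_of_nonneg_right h6 h5.le
          · refine ⟨h1, le_trans ?_ h2, h3⟩
            have h5 : 0 < ρ₀ * 𝔖.b i T := mul_pos hρ₀ h1
            have h6 : (1 : ℝ) ≤ 2 ^ n := one_le_pow₀ (by norm_num)
            rw [mul_assoc]
            exact le_mul_of_one_le_left h5.le h6
      · rw [Finset.disjoint_left]
        intro T hT hT'
        unfold tslCl at hT'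
        rw [Finset.mem_filter] at hT hT'
        exact absurd hT.2.2.2 (not_lt.2 hT'.2.2.1)
  rw [← key N, ← Finset.sum_union]
  · refine Finset.sum_congr ?_ fun _ _ => rfl
    ext T
    unfold tslZ
    simp only [Finset.mem_union, Finset.mem_filter, Finset.mem_univ, true_and, true_iff]
    by_cases h0 : 𝔖.b i T = 0
    · exact Or.inl (Or.inl h0)
    · have h1 : 0 < 𝔖.b i T := lt_of_le_of_ne (hb T) (Ne.symm h0)
      by_cases h2 : a T < ρ₀ * 𝔖.b i T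
      · exact Or.inl (Or.inr h2)
      · exact Or.inr ⟨h1, not_lt.1 h2, htop T h1⟩
  · rw [Finset.disjoint_left]
    intro T hT hT'
    unfold tslZ at hT
    rw [Finset.mem_filter] at hT hT'
    rcases hT.2 with h0 | h0
    · exact absurd hT'.2.1 (by rw [h0]; exact lt_irrefl 0)
    · exact absurd h0 (not_lt.2 hT'.2.2.1)

/-- double counting of the incidences -/
theorem tsl_bad_bud_occ (h : 𝔖.Ok p) (i : ℕ) (hi : i ≤ 𝔖.ℓ) :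
    ∑ T, (𝔖.occ i T : ℝ) * 𝔖.b i T ^ 2 ≤ Fintype.card 𝔖.Y * p.ϖ1 := by
  have e : ∀ T, (𝔖.occ i T : ℝ) * 𝔖.b i T ^ 2 = ∑ z, if 𝔖.inc i z T then 𝔖.b i T ^ 2 else 0 := by
    intro T
    unfold occ
    rw [← Finset.sum_filter, Finset.sum_const, nsmul_eq_mul]
  rw [Finset.sum_congr rfl fun T _ => e T, Finset.sum_comm]
  calc ∑ z, ∑ T, (if 𝔖.inc i z T then 𝔖.b i T ^ 2 else 0) ≤ ∑ _z : 𝔖.Y, p.ϖ1 :=
        Finset.sum_le_sum fun z _ => h.inc_le i hi z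
    _ = Fintype.card 𝔖.Y * p.ϖ1 := by rw [Finset.sum_const, Finset.card_univ, nsmul_eq_mul]

/-- L-SEL-B2, **the budget of over-occupied cells**.   PLAN: `tsl_bud_res`; on `B`: `a^q b^{2-q} ≤ (2 r b)^q b^{2-q} = (2r)^q b²` (`Real.rpow_le_rpow`, `Real.mul_rpow`, `← Real.rpow_add`, `Real.rpow_two`);
`b_T² G vol (r/A)^q ≤ b_T² occ_T`; `∑_T b_T² occ_T = ∑_z ∑_T [inc z T] b_T² ≤ |Y| ϖ1` (`occ`, `Finset.card_filter` / `Finset.sum_boole`, `Finset.sum_comm`, `h.inc_le`); `Real.div_rpow`; `field_simp`. -/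
theorem tsl_bad_bud (h : 𝔖.Ok p) (i : ℕ) (hi : i ≤ 𝔖.ℓ) (a : 𝔖.C i → ℝ) (ha : ∀ T, 0 ≤ a T) (A G r : ℝ) (hA : 0 < A) (hG : 0 < G) (hr : 0 < r)
    (B : Finset (𝔖.C i)) (hB : ∀ T ∈ B, 0 < 𝔖.b i T ∧ a T ≤ 2 * r * 𝔖.b i T ∧ G * (𝔖.vol i * (r / A) ^ p.q) < 𝔖.occ i T) :
    𝔖.bud p.q i (𝔖.resA B a) (𝔖.b i) ≤ 2 ^ p.q * p.ϖ1 * Fintype.card 𝔖.Y * A ^ p.q / G := by
  have hq : 2 < p.q := h.q_gt
  have hq0 : p.q ≠ 0 := by linarith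
  rw [tsl_bud_res p.q hq0]
  have hvol := h.vol_pos i
  have hAq : 0 < A ^ p.q := Real.rpow_pos_of_pos hA _
  have h2q : (0 : ℝ) < 2 ^ p.q := Real.rpow_pos_of_pos (by norm_num) _
  have hterm : ∀ T ∈ B, 𝔖.vol i * a T ^ p.q * 𝔖.b i T ^ (2 - p.q)
      ≤ (2 ^ p.q * A ^ p.q / G) * ((𝔖.occ i T : ℝ) * 𝔖.b i T ^ 2) := by
    intro T hT
    obtain ⟨hb, hab, hocc⟩ := hB T hT
    have h1 : a T ^ p.q ≤ (2 * r * 𝔖.b i T) ^ p.q := Real.rpow_le_rpow (ha T) hab (by linarith)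
    have h2 : (2 * r * 𝔖.b i T) ^ p.q = 2 ^ p.q * r ^ p.q * 𝔖.b i T ^ p.q := by
      rw [Real.mul_rpow (by positivity) hb.le, Real.mul_rpow (by norm_num) hr.le]
    have h3 : 𝔖.b i T ^ p.q * 𝔖.b i T ^ (2 - p.q) = 𝔖.b i T ^ 2 := by
      rw [← Real.rpow_add hb, ← Real.rpow_two]
      congr 1
      ring
    have h4 : (r / A) ^ p.q = r ^ p.q / A ^ p.q := Real.div_rpow hr.le hA.le _
    have h5 : 𝔖.vol i * r ^ p.q ≤ (𝔖.occ i T : ℝ) * A ^ p.q / G := by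
      rw [h4] at hocc
      rw [le_div_iff₀ hG]
      have e : G * (𝔖.vol i * (r ^ p.q / A ^ p.q)) * A ^ p.q = 𝔖.vol i * r ^ p.q * G := by
        field_simp
      rw [← e]
      exact mul_le_mul_of_nonneg_right hocc.le hAq.le
    have hb2 : 0 ≤ 𝔖.b i T ^ (2 - p.q) := Real.rpow_nonneg hb.le _
    calc 𝔖.vol i * a T ^ p.q * 𝔖.b i T ^ (2 - p.q)
        ≤ 𝔖.vol i * (2 ^ p.q * r ^ p.q * 𝔖.b i T ^ p.q) * 𝔖.b i T ^ (2 - p.q) := by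
          rw [← h2]
          exact mul_le_mul_of_nonneg_right (mul_le_mul_of_nonneg_left h1 hvol.le) hb2
      _ = 2 ^ p.q * (𝔖.vol i * r ^ p.q) * (𝔖.b i T ^ p.q * 𝔖.b i T ^ (2 - p.q)) := by ring
      _ = 2 ^ p.q * (𝔖.vol i * r ^ p.q) * 𝔖.b i T ^ 2 := by rw [h3]
      _ ≤ 2 ^ p.q * ((𝔖.occ i T : ℝ) * A ^ p.q / G) * 𝔖.b i T ^ 2 :=
          mul_le_mul_of_nonneg_right (mul_le_mul_of_nonneg_left h5 h2q.le) (sq_nonneg _)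
      _ = (2 ^ p.q * A ^ p.q / G) * ((𝔖.occ i T : ℝ) * 𝔖.b i T ^ 2) := by ring
  calc ∑ T ∈ B, 𝔖.vol i * a T ^ p.q * 𝔖.b i T ^ (2 - p.q)
      ≤ ∑ T ∈ B, (2 ^ p.q * A ^ p.q / G) * ((𝔖.occ i T : ℝ) * 𝔖.b i T ^ 2) := Finset.sum_le_sum hterm
    _ ≤ ∑ T, (2 ^ p.q * A ^ p.q / G) * ((𝔖.occ i T : ℝ) * 𝔖.b i T ^ 2) :=
        Finset.sum_le_sum_of_subset_of_nonneg (Finset.subset_univ _) fun T _ _ => by positivity
    _ = (2 ^ p.q * A ^ p.q / G) * ∑ T, ((𝔖.occ i T : ℝ) * 𝔖.b i T ^ 2) := by rw [Finset.mul_sum]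
    _ ≤ (2 ^ p.q * A ^ p.q / G) * (Fintype.card 𝔖.Y * p.ϖ1) :=
        mul_le_mul_of_nonneg_left (tsl_bad_bud_occ h i hi) (by positivity)
    _ = 2 ^ p.q * p.ϖ1 * Fintype.card 𝔖.Y * A ^ p.q / G := by ring

/-- L-SEL-B3, **pigeonhole**.   PLAN: `E = ⋃_{m<N} {z | θ/(4N) ≤ v m z}`, `2 |E| ≤ |Y₀|` (`Finset.card_biUnion_le`, `hE`); for `z ∈ Y₀ \ E`: `∑_m v m z ≤ θ/4`, so `θ/2 ≤ ∑_{m<N} u m z`, so `∃ m < N, θ/(2N) ≤ u m z`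
(`Finset.exists_le_of_sum_le` / by contradiction with `Finset.sum_lt_sum_of_nonempty`); `W m = {z ∈ Y₀ \ E | θ/(2N) ≤ u m z}` cover `Y₀ \ E`: `|Y₀ \ E| ≤ ∑_m |W m|`, so some `|W m| ≥ |Y₀ \ E| / N ≥ |Y₀| / (2N)`. -/
theorem tsl_pigeon {Y : Type} [Fintype Y] (Y₀ : Finset Y) (N : ℕ) (hN : 1 ≤ N) (θ : ℝ) (F u₀ : Y → ℝ) (u v : ℕ → Y → ℝ)
    (hF : ∀ z ∈ Y₀, θ ≤ F z) (hdec : ∀ z, F z ≤ u₀ z + ∑ m ∈ Finset.range N, u m z + ∑ m ∈ Finset.range N, v m z) (h0 : ∀ z, u₀ z ≤ θ / 4)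
    (hE : ∀ m, m < N → 2 * (N : ℝ) * ((Finset.univ.filter fun z => θ / (4 * N) ≤ v m z).card : ℝ) ≤ Y₀.card) :
    ∃ m, m < N ∧ ∃ Y₁ : Finset Y, Y₁ ⊆ Y₀ ∧ (Y₀.card : ℝ) ≤ 2 * N * Y₁.card ∧ ∀ z ∈ Y₁, θ / (2 * N) ≤ u m z := by
  have hN0 : (0 : ℝ) < N := by exact_mod_cast hN
  obtain ⟨Em, hEm⟩ : ∃ Em : ℕ → Finset Y, Em = fun m => Finset.univ.filter fun z => θ / (4 * N) ≤ v m z := ⟨_, rfl⟩
  have hE' : ∀ m, m < N → 2 * (N : ℝ) * ((Em m).card : ℝ) ≤ Y₀.card := by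
    intro m hm
    rw [hEm]
    exact hE m hm
  have hmemE : ∀ m z, z ∈ Em m ↔ θ / (4 * N) ≤ v m z := by
    intro m z
    rw [hEm]
    simp
  obtain ⟨E, hEdef⟩ : ∃ E : Finset Y, E = (Finset.range N).biUnion Em := ⟨_, rfl⟩
  have hEcard : 2 * (E.card : ℝ) ≤ Y₀.card := by
    have h1 : (E.card : ℝ) ≤ ∑ m ∈ Finset.range N, ((Em m).card : ℝ) := by
      rw [hEdef]
      exact_mod_cast Finset.card_biUnion_le
    have h2 : ∑ m ∈ Finset.range N, ((Em m).card : ℝ) ≤ ∑ _m ∈ Finset.range N, (Y₀.card : ℝ) / (2 * N) := by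
      refine Finset.sum_le_sum fun m hm => ?_
      rw [le_div_iff₀ (by positivity)]
      have := hE' m (Finset.mem_range.1 hm)
      linarith
    rw [Finset.sum_const, Finset.card_range, nsmul_eq_mul] at h2
    have e : (N : ℝ) * ((Y₀.card : ℝ) / (2 * N)) = (Y₀.card : ℝ) / 2 := by field_simp
    linarith
  obtain ⟨R, hR⟩ : ∃ R : Finset Y, R = Y₀ \ E := ⟨_, rfl⟩
  have hRcard : (Y₀.card : ℝ) ≤ 2 * R.card := by
    have h1 : Y₀.card ≤ R.card + E.card := by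
      rw [hR]
      exact Finset.card_le_card_sdiff_add_card
    have h2 : (Y₀.card : ℝ) ≤ R.card + E.card := by exact_mod_cast h1
    linarith
  have hz : ∀ z ∈ R, ∃ m ∈ Finset.range N, θ / (2 * N) ≤ u m z := by
    intro z hzR
    rw [hR, Finset.mem_sdiff] at hzR
    obtain ⟨hz0, hzE⟩ := hzR
    have hv : ∑ m ∈ Finset.range N, v m z ≤ ∑ _m ∈ Finset.range N, θ / (4 * N) := by
      refine Finset.sum_le_sum fun m hm => ?_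
      by_contra hcon
      rw [not_le] at hcon
      apply hzE
      rw [hEdef, Finset.mem_biUnion]
      exact ⟨m, hm, (hmemE m z).2 hcon.le⟩
    rw [Finset.sum_const, Finset.card_range, nsmul_eq_mul] at hv
    have e1 : (N : ℝ) * (θ / (4 * N)) = θ / 4 := by field_simp
    by_contra hcon
    push Not at hcon
    have hu : ∑ m ∈ Finset.range N, u m z < ∑ _m ∈ Finset.range N, θ / (2 * N) :=
      Finset.sum_lt_sum_of_nonempty (Finset.nonempty_range_iff.2 (by omega)) hcon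
    rw [Finset.sum_const, Finset.card_range, nsmul_eq_mul] at hu
    have e2 : (N : ℝ) * (θ / (2 * N)) = θ / 2 := by field_simp
    have := hF z hz0
    have := hdec z
    have := h0 z
    linarith
  obtain ⟨Wm, hWm⟩ : ∃ Wm : ℕ → Finset Y, Wm = fun m => R.filter fun z => θ / (2 * N) ≤ u m z := ⟨_, rfl⟩
  have hmemW : ∀ m z, z ∈ Wm m ↔ z ∈ R ∧ θ / (2 * N) ≤ u m z := by
    intro m z
    rw [hWm]
    simp
  have hcover : R ⊆ (Finset.range N).biUnion Wm := by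
    intro z hzR
    obtain ⟨m, hm, hmu⟩ := hz z hzR
    rw [Finset.mem_biUnion]
    exact ⟨m, hm, (hmemW m z).2 ⟨hzR, hmu⟩⟩
  have hsum : (R.card : ℝ) ≤ ∑ m ∈ Finset.range N, ((Wm m).card : ℝ) := by
    have h1 : R.card ≤ ∑ m ∈ Finset.range N, (Wm m).card :=
      (Finset.card_le_card hcover).trans Finset.card_biUnion_le
    exact_mod_cast h1
  obtain ⟨m, hm, hmle⟩ : ∃ m ∈ Finset.range N, (R.card : ℝ) / N ≤ ((Wm m).card : ℝ) := by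
    refine Finset.exists_le_of_sum_le (Finset.nonempty_range_iff.2 (by omega)) ?_
    rw [Finset.sum_const, Finset.card_range, nsmul_eq_mul]
    have e : (N : ℝ) * ((R.card : ℝ) / N) = R.card := by field_simp
    rw [e]
    exact hsum
  refine ⟨m, Finset.mem_range.1 hm, Wm m, ?_, ?_, fun z hz' => ((hmemW m z).1 hz').2⟩
  · intro z hz'
    have := ((hmemW m z).1 hz').1
    rw [hR, Finset.mem_sdiff] at this
    exact this.1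
  · rw [div_le_iff₀ hN0] at hmle
    nlinarith

/-- L-SEL-B4, **one stage of the selection**.   PLAN: `tsl_pigeon` with `F z = ‖Ev i g z‖`, `u₀ z = ‖Ev i (res Z g) z‖`, `u m z = ‖Ev i (res (Good m) g) z‖`, `v m z = ‖Ev i (res (Bad m) g) z‖`.
`hdec`: `Ev i g z = ∑_T ev ..` (`Ev`), `tsl_partition` with `f T = ev i T (g T) z`, `Cl m = Good m ⊔ Bad m` (`Finset.sum_filter_add_sum_filter_not`), `tsl_Ev_res`, `norm_add_le`, `norm_sum_le`.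
`hE`: `hdisc (Bad m)`, `tsl_bad_bud` with `r = 2^m ρ₀`, `hbig`.   `M = Good m`. -/
theorem tsl_stage (h : 𝔖.Ok p) (i : ℕ) (hi : i ≤ 𝔖.ℓ) (g : 𝔖.C i → 𝔖.F) (a : 𝔖.C i → ℝ) (hg : 𝔖.Adm i g a)
    (A G ρ₀ θ Cd : ℝ) (N : ℕ) (Y₀ : Finset 𝔖.Y) (hA : 0 < A) (hG : 0 < G) (hρ₀ : 0 < ρ₀) (hN : 1 ≤ N) (hCd : 0 ≤ Cd)
    (htop : ∀ T, 0 < 𝔖.b i T → a T < 2 ^ N * ρ₀ * 𝔖.b i T)
    (hsmall : ∀ z, ‖𝔖.Ev i (𝔖.res (𝔖.tslZ i a ρ₀) g) z‖ ≤ θ / 4)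
    (hhigh : ∀ z ∈ Y₀, θ ≤ ‖𝔖.Ev i g z‖)
    (hdisc : ∀ B : Finset (𝔖.C i), ((Finset.univ.filter fun z => θ / (4 * N) ≤ ‖𝔖.Ev i (𝔖.res B g) z‖).card : ℝ) ≤ Cd * 𝔖.bud p.q i (𝔖.resA B a) (𝔖.b i))
    (hbig : 2 * (N : ℝ) * (Cd * (2 ^ p.q * p.ϖ1 * Fintype.card 𝔖.Y * A ^ p.q / G)) ≤ Y₀.card) :
    ∃ (M : Finset (𝔖.C i)) (m : ℕ) (Y₁ : Finset 𝔖.Y), m < N ∧ Y₁ ⊆ Y₀ ∧ (Y₀.card : ℝ) ≤ 2 * N * Y₁.card ∧
      (∀ T ∈ M, 0 < 𝔖.b i T ∧ 2 ^ m * ρ₀ * 𝔖.b i T ≤ a T ∧ a T ≤ 2 * (2 ^ m * ρ₀) * 𝔖.b i T ∧ (𝔖.occ i T : ℝ) ≤ G * (𝔖.vol i * (2 ^ m * ρ₀ / A) ^ p.q)) ∧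
      ∀ z ∈ Y₁, θ / (2 * N) ≤ ‖𝔖.Ev i (𝔖.res M g) z‖ := by
  have ha : ∀ T, 0 ≤ a T := fun T => h.pk_nonneg i T (a T) (g T) (hg T)
  have hdec : ∀ z, ‖𝔖.Ev i g z‖ ≤ ‖𝔖.Ev i (𝔖.res (𝔖.tslZ i a ρ₀) g) z‖
      + ∑ m ∈ Finset.range N, ‖𝔖.Ev i (𝔖.res (𝔖.tslGood i a ρ₀ A G p.q m) g) z‖
      + ∑ m ∈ Finset.range N, ‖𝔖.Ev i (𝔖.res (𝔖.tslBad i a ρ₀ A G p.q m) g) z‖ := by
    intro z
    have e1 : 𝔖.Ev i g z = 𝔖.Ev i (𝔖.res (𝔖.tslZ i a ρ₀) g) z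
        + ∑ m ∈ Finset.range N, 𝔖.Ev i (𝔖.res (𝔖.tslGood i a ρ₀ A G p.q m) g) z
        + ∑ m ∈ Finset.range N, 𝔖.Ev i (𝔖.res (𝔖.tslBad i a ρ₀ A G p.q m) g) z := by
      have e2 : 𝔖.Ev i g z = ∑ T, 𝔖.ev i T (g T) z := rfl
      rw [e2, tsl_partition i a (h.b_nonneg i) ρ₀ hρ₀ N htop (fun T => 𝔖.ev i T (g T) z), add_assoc, ← Finset.sum_add_distrib,
        tsl_Ev_res h]
      congr 1
      refine Finset.sum_congr rfl fun m _ => ?_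
      rw [tsl_Ev_res h, tsl_Ev_res h]
      exact (Finset.sum_filter_add_sum_filter_not (𝔖.tslCl i a ρ₀ m) _ _).symm
    rw [e1]
    refine (norm_add_le _ _).trans (add_le_add ((norm_add_le _ _).trans (add_le_add le_rfl (norm_sum_le _ _))) (norm_sum_le _ _))
  have hE : ∀ m, m < N → 2 * (N : ℝ) * ((Finset.univ.filter fun z => θ / (4 * N) ≤ ‖𝔖.Ev i (𝔖.res (𝔖.tslBad i a ρ₀ A G p.q m) g) z‖).card : ℝ) ≤ Y₀.card := by
    intro m _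
    refine le_trans ?_ hbig
    have h1 := hdisc (𝔖.tslBad i a ρ₀ A G p.q m)
    have h2 := tsl_bad_bud h i hi a ha A G (2 ^ m * ρ₀) hA hG (by positivity) (𝔖.tslBad i a ρ₀ A G p.q m) (by
      intro T hT
      obtain ⟨hT1, hT2⟩ := Finset.mem_filter.1 hT
      obtain ⟨-, hb, -, h2⟩ := Finset.mem_filter.1 hT1
      refine ⟨hb, ?_, not_le.1 hT2⟩
      have e : (2 : ℝ) ^ (m + 1) * ρ₀ * 𝔖.b i T = 2 * (2 ^ m * ρ₀) * 𝔖.b i T := by ring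
      linarith)
    have h3 : (0 : ℝ) ≤ 2 * (N : ℝ) := by positivity
    exact mul_le_mul_of_nonneg_left (h1.trans (mul_le_mul_of_nonneg_left h2 hCd)) h3
  obtain ⟨m, hm, Y₁, hY₁, hcard, hhi⟩ := tsl_pigeon Y₀ N hN θ (fun z => ‖𝔖.Ev i g z‖) (fun z => ‖𝔖.Ev i (𝔖.res (𝔖.tslZ i a ρ₀) g) z‖)
    (fun m z => ‖𝔖.Ev i (𝔖.res (𝔖.tslGood i a ρ₀ A G p.q m) g) z‖) (fun m z => ‖𝔖.Ev i (𝔖.res (𝔖.tslBad i a ρ₀ A G p.q m) g) z‖)
    hhigh hdec hsmall hE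
  refine ⟨𝔖.tslGood i a ρ₀ A G p.q m, m, Y₁, hm, hY₁, hcard, ?_, hhi⟩
  intro T hT
  obtain ⟨hT1, hT2⟩ := Finset.mem_filter.1 hT
  obtain ⟨-, hb, h1, h2⟩ := Finset.mem_filter.1 hT1
  refine ⟨hb, h1, ?_, hT2⟩
  have e : (2 : ℝ) ^ (m + 1) * ρ₀ * 𝔖.b i T = 2 * (2 ^ m * ρ₀) * 𝔖.b i T := by ring
  linarith

/-- a mask which carries a nonzero root field is nonempty -/
theorem tsl_mask_nonempty (h : 𝔖.Ok p) (i : ℕ) (M : Finset (𝔖.C i)) (g : 𝔖.C i → 𝔖.F) (z : 𝔖.Y) (hz : 0 < ‖𝔖.Ev i (𝔖.res M g) z‖) : M.Nonempty := by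
  by_contra hM
  rw [Finset.not_nonempty_iff_eq_empty] at hM
  rw [tsl_Ev_res h, hM] at hz
  simp at hz

end TSys

end

end Claimed.Agent.R257.FR2
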