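import Claimed.Agent.R257.FR2.SelB

/-!
# ROW 257, package FR2, unit SEL, file C: THE ITERATION; NUMERICS; `tsl_select` (= `ts_select`)      (architect helper57)

Paper-free (H `frame.tex` l.662-705).   `N` = number of dyadic classes per layer.   Stage `j` (`0 ≤ j ≤ ℓ`, from the leaves to the root):
threshold before the stage `θ_j = A / (4N)^j`, after the stage `θ_j / (2N)`, after `junk` `θ_{j+1} = θ_j / (4N)`;   witnesses `|Y| ≤ (2N)^{j+1} |Y_j|`;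
ratios `a_T ≤ X^{2j} b_T` before the stage (`cauchy`, `dom`), `ρ₀ = 1 / (4 X (4N)^j)` (`j ≥ 1`; `cauchy_root`), `ρ₀ = 1`, `r_0 = 1` at the leaves.
* `TslNum` = the FOUR numeric inequalities which are used (pure real numbers), `W` = the loss of the frozen tree;  `tsl_num` (L-SEL-D1, D2): they hold with `W = (K log X)^c` if `X^c ≤ Rm`, `η X^c ≤ 1`, `K ≤ X`.
* the occupancy cut-off `G` enters ONLY through `hG : ϖ1 W ≤ G` (`tsl_base`, `tsl_pick`).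
* `TslInv n` = the invariant after the stage `n`;  `tsl_base` (C5), `tsl_step` (C6), `tsl_iter`;  `tsl_frozen` (C7): `TslInv ℓ → Frozen q A W G`.
* `tsl_discard_num` (C3) = `tsl_discard_now` at height `j`, ratio `≤ 2 X^{2j}`, threshold `A / (4N)^{j+1}`.
REPAIR of the contract: the hypothesis `K ≤ X` is ADDED to `ts_select` (`Rm ≥ X^c` must beat `√ϖ0 ≤ √K`).
RULES FOR LEAVES: prove in place, statements verbatim (defect: one line to helper57), auxiliary lemmas directly above with prefix `tsl_<leaf>_`.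
-/

set_option autoImplicit false

namespace Claimed.Agent.R257.FR2

open scoped BigOperators Classical

noncomputable section

/-- the numeric inequalities of the selection -/
structure TslNum (ℓ : ℕ) (q K X W Rm η : ℝ) (N : ℕ) : Prop where
  one_le_N : 1 ≤ N
  top : 4 * X * (4 * (N : ℝ)) ^ ℓ * X ^ (2 * ℓ) < 2 ^ N
  rm : (4 * (N : ℝ)) ^ (ℓ + 2) * X ^ (3 * ℓ + 3) ≤ Rm
  eta : η * (ℓ + 1) * ((4 * (N : ℝ)) ^ (ℓ + 2) * X ^ (3 * ℓ + 3)) ≤ 1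
  big : 2 * (N : ℝ) * (4 ^ q * K ^ (ℓ + 2) * K ^ (q / 2 - 1) * ((4 * (N : ℝ)) ^ (ℓ + 1)) ^ q * (2 * (N : ℝ)) ^ ℓ) ≤ W

namespace TSys

/-- the invariant after the stage `n` -/
structure TslInv (𝔖 : TSys) (p : TPar) (A X G : ℝ) (N n : ℕ) (S : ∀ i, Finset (𝔖.C i)) (r : ℕ → ℝ) (Yn : Finset 𝔖.Y) : Prop where
  r_pos : ∀ j, 0 < r j
  r_zero : r 0 = 1
  r_le : ∀ j, j ≤ n → r j ≤ X ^ (2 * j)
  ratio : ∀ j, j ≤ n → ∀ T ∈ S j, 0 < 𝔖.b j T ∧ r j * 𝔖.b j T ≤ 𝔖.am S j T ∧ 𝔖.am S j T ≤ 2 * r j * 𝔖.b j T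
  occ_le : ∀ j, j ≤ n → ∀ T ∈ S j, (𝔖.occ j T : ℝ) ≤ G * (𝔖.vol j * (r j / A) ^ p.q)
  high : ∀ j, j ≤ n → ∀ z ∈ Yn, A / (4 * (N : ℝ)) ^ j / (2 * N) ≤ ‖𝔖.Ev j (𝔖.res (S j) (𝔖.fld S j)) z‖
  card_le : (Fintype.card 𝔖.Y : ℝ) ≤ (2 * (N : ℝ)) ^ (n + 1) * Yn.card

variable {𝔖 : TSys} {p : TPar} {A K X W G : ℝ} {N : ℕ}

/-! ## 1. The tree -/

/-- L-SEL-C1 (induction on `n`; `fld`, `am`) -/
theorem tsl_fld_congr (S S' : ∀ i, Finset (𝔖.C i)) : ∀ n, (∀ j, j < n → S j = S' j) → 𝔖.fld S n = 𝔖.fld S' n := by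
  intro n
  induction n with
  | zero => intro _; rfl
  | succ n ih =>
    intro hS
    show 𝔖.asm n (𝔖.res (S n) (𝔖.fld S n)) = 𝔖.asm n (𝔖.res (S' n) (𝔖.fld S' n))
    rw [ih (fun j hj => hS j (Nat.lt_succ_of_lt hj)), hS n (Nat.lt_succ_self n)]

/-- L-SEL-C1 (cases on `n`; `tsl_fld_congr`) -/
theorem tsl_am_congr (S S' : ∀ i, Finset (𝔖.C i)) (n : ℕ) (hS : ∀ j, j < n → S j = S' j) : 𝔖.am S n = 𝔖.am S' n := by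
  cases n with
  | zero => rfl
  | succ n =>
    show 𝔖.amp n (𝔖.res (S n) (𝔖.fld S n)) = 𝔖.amp n (𝔖.res (S' n) (𝔖.fld S' n))
    rw [tsl_fld_congr S S' n (fun j hj => hS j (Nat.lt_succ_of_lt hj)), hS n (Nat.lt_succ_self n)]

/-- L-SEL-C1 (induction on `n`: `h.leaf`, `h.closure`, `tsl_adm_res'`) -/
theorem tsl_adm_fld (h : 𝔖.Ok p) (S : ∀ i, Finset (𝔖.C i)) : ∀ n, n ≤ 𝔖.ℓ → 𝔖.Adm n (𝔖.fld S n) (𝔖.am S n) := by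
  intro n
  induction n with
  | zero => intro _; exact h.leaf
  | succ n ih =>
    intro hn
    exact h.closure n hn _ _ (tsl_adm_res' h (ih (Nat.le_of_succ_le hn)) (S n))

/-- the selected amplitudes in squared form -/
theorem tsl_sel_sq (S : ∀ i, Finset (𝔖.C i)) (j : ℕ) (ρ : ℝ) (hr : ∀ T ∈ S j, 0 ≤ 𝔖.am S j T ∧ 𝔖.am S j T ≤ ρ * 𝔖.b j T) (T : 𝔖.C j) :
    𝔖.resA (S j) (𝔖.am S j) T ^ 2 ≤ ρ ^ 2 * 𝔖.b j T ^ 2 := by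
  unfold resA
  split_ifs with hT
  · exact tsl_sq_of_le (hr T hT).1 (hr T hT).2
  · rw [zero_pow two_ne_zero]
    positivity

/-- L-SEL-C2, (f:Qsat), upper half.   PLAN: induction on `j`.   `j = 0`: `am S 0 = b 0`, `tsl_bud_res_le`, `bud q 0 b b = D` (`b^q b^{2-q} = b²`: `b = 0` apart; `← Real.rpow_add`, `Real.rpow_two`).
`j + 1`: `tsl_bud_res_le`, `am S (j+1) = amp j (res (S j) (fld S j))` (`rfl`), `tsl_step_bud` with `tsl_adm_res`, `tsl_sel_sq`. -/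
theorem tsl_bud_le (h : 𝔖.Ok p) (S : ∀ i, Finset (𝔖.C i)) (ρ : ℕ → ℝ) (n : ℕ) (hn : n ≤ 𝔖.ℓ) (hr : ∀ j, j ≤ n → ∀ T ∈ S j, 𝔖.am S j T ≤ ρ j * 𝔖.b j T) :
    ∀ j, j ≤ n → 𝔖.bud p.q j (𝔖.resA (S j) (𝔖.am S j)) (𝔖.b j) ≤ p.L ^ j * 𝔖.D := by
  have hq0 : p.q ≠ 0 := by
    have := h.q_gt
    linarith
  intro j
  induction j with
  | zero =>
    intro _
    rw [pow_zero, one_mul]
    refine (tsl_bud_res_le h p.q hq0 0 (S 0) (a := 𝔖.am S 0) (fun T => h.b_nonneg 0 T) (h.b_nonneg 0)).trans (le_of_eq ?_)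
    show 𝔖.bud p.q 0 (𝔖.b 0) (𝔖.b 0) = 𝔖.en 0 (𝔖.b 0)
    unfold bud en
    refine Finset.sum_congr rfl fun T _ => ?_
    rw [mul_assoc]
    congr 1
    rcases (h.b_nonneg 0 T).lt_or_eq with hb | hb
    · rw [← Real.rpow_add hb, show p.q + (2 - p.q) = (2 : ℝ) by ring, Real.rpow_two]
    · rw [← hb, Real.zero_rpow hq0]
      simp
  | succ j ih =>
    intro hj
    have hjn : j ≤ n := Nat.le_of_succ_le hj
    have hjl : j < 𝔖.ℓ := lt_of_lt_of_le (Nat.lt_of_succ_le hj) hn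
    have hadm := tsl_adm_fld h S j hjl.le
    have hL : 0 ≤ p.L := zero_le_one.trans h.one_le_L
    calc 𝔖.bud p.q (j + 1) (𝔖.resA (S (j + 1)) (𝔖.am S (j + 1))) (𝔖.b (j + 1))
        ≤ 𝔖.bud p.q (j + 1) (𝔖.am S (j + 1)) (𝔖.b (j + 1)) :=
          tsl_bud_res_le h p.q hq0 (j + 1) (S (j + 1)) (fun T => h.amp_nonneg j _ T) (h.b_nonneg (j + 1))
      _ ≤ p.L * 𝔖.bud p.q j (𝔖.resA (S j) (𝔖.am S j)) (𝔖.b j) :=
          tsl_step_bud h j hjl (tsl_adm_res h hadm (S j))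
            (tsl_sel_sq S j (ρ j) fun T hT => ⟨tsl_adm_nonneg h hadm T, hr j hjn T hT⟩)
      _ ≤ p.L * (p.L ^ j * 𝔖.D) := mul_le_mul_of_nonneg_left (ih hjn) hL
      _ = p.L ^ (j + 1) * 𝔖.D := by ring

/-! ## 2. The discard estimate with the numbers of the selection -/

theorem tsl_C3_gam (h : 𝔖.Ok p) (hS : 𝔖.SelHyp p A K X) (j : ℕ) : 𝔖.GamProd p j ≤ X ^ 𝔖.ℓ := by
  have hX1 : (1:ℝ) ≤ X := by linarith [hS.three_le_X]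
  unfold GamProd
  calc ∏ m ∈ Finset.Ico j 𝔖.ℓ, p.Γ m ≤ ∏ _m ∈ Finset.Ico j 𝔖.ℓ, X :=
        Finset.prod_le_prod (fun m _ => zero_le_one.trans (h.one_le_Γ m)) (fun m hm => hS.Γ_le m (Finset.mem_Ico.1 hm).2)
    _ = X ^ (𝔖.ℓ - j) := by rw [Finset.prod_const, Nat.card_Ico]
    _ ≤ X ^ 𝔖.ℓ := pow_le_pow_right₀ hX1 (Nat.sub_le _ _)

theorem tsl_C3_key {w X : ℝ} (hw : 4 ≤ w) (hX : 1 ≤ X) {j ℓ : ℕ} (hj : j ≤ ℓ) :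
    16 * (w ^ (j + 1)) ^ 2 * X ^ (4 * j + ℓ + 2) ≤ (w ^ (ℓ + 2) * X ^ (3 * ℓ + 3)) ^ 2 := by
  have hw1 : 1 ≤ w := by linarith
  have h16 : (16:ℝ) ≤ w ^ 2 := by nlinarith
  calc 16 * (w ^ (j + 1)) ^ 2 * X ^ (4 * j + ℓ + 2) ≤ w ^ 2 * (w ^ (j + 1)) ^ 2 * X ^ (6 * ℓ + 6) := by
        have h1 : X ^ (4 * j + ℓ + 2) ≤ X ^ (6 * ℓ + 6) := pow_le_pow_right₀ hX (by omega)
        have h2 : 16 * (w ^ (j + 1)) ^ 2 ≤ w ^ 2 * (w ^ (j + 1)) ^ 2 := mul_le_mul_of_nonneg_right h16 (sq_nonneg _)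
        exact mul_le_mul h2 h1 (by positivity) (by positivity)
    _ = w ^ (2 * j + 4) * X ^ (6 * ℓ + 6) := by ring
    _ ≤ w ^ (2 * ℓ + 4) * X ^ (6 * ℓ + 6) := mul_le_mul_of_nonneg_right (pow_le_pow_right₀ hw1 (by omega)) (by positivity)
    _ = (w ^ (ℓ + 2) * X ^ (3 * ℓ + 3)) ^ 2 := by ring

/-- L-SEL-C3.   PLAN: `tsl_discard_now` with `ρ = 2 X^{2j}`, `θ = A / (4N)^{j+1}`.   `GamProd p j ≤ X^ℓ` (`Finset.prod_le_prod`, `hS.Γ_le`, `Finset.prod_const`, `Nat.card_Ico`, `pow_le_pow_right₀`), `Γr ℓ ≤ X A²`, `ϖ0 ≤ K ≤ X`: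
`hR`: LHS `≤ 4 X^{4j+ℓ+2} A²`, and `16 (4N)^{2j+2} X^{4j+ℓ+2} ≤ ((4N)^{ℓ+2} X^{3ℓ+3})² ≤ Rm²` (`hnum.rm`);   `hη`: LHS `≤ (η ℓ)² 4 X^{4j+ℓ+1}`, `1 ≤ A`, `hnum.eta`.
Conclusion: `L0 ≤ K`, `L^{ℓ-j} ≤ K^ℓ`, `ϖ0^{q/2-1} ≤ K^{q/2-1}` (`Real.rpow_le_rpow`), `θ^{-q} = ((4N)^{j+1})^q A^{-q}` (`Real.div_rpow`, `Real.rpow_neg`), `tsl_bud_nonneg`. -/
theorem tsl_discard_num (h : 𝔖.Ok p) (hS : 𝔖.SelHyp p A K X) (hKX : K ≤ X) (hnum : TslNum 𝔖.ℓ p.q K X W p.Rm p.η N) (j : ℕ) (hj : j ≤ 𝔖.ℓ)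
    (g : 𝔖.C j → 𝔖.F) (a : 𝔖.C j → ℝ) (hg : 𝔖.Adm j g a) (hρ : ∀ T, a T ≤ 2 * X ^ (2 * j) * 𝔖.b j T) :
    ((Finset.univ.filter fun z => A / (4 * (N : ℝ)) ^ (j + 1) ≤ ‖𝔖.Ev j g z‖).card : ℝ)
      ≤ 2 ^ p.q * K ^ (𝔖.ℓ + 1) * K ^ (p.q / 2 - 1) * ((4 * (N : ℝ)) ^ (j + 1)) ^ p.q * A ^ (-p.q) * 𝔖.bud p.q j a (𝔖.b j) := by
  have hX1 : (1:ℝ) ≤ X := by linarith [hS.three_le_X]
  have hX0 : (0:ℝ) < X := by linarith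
  have hN1 : (1:ℝ) ≤ N := by exact_mod_cast hnum.one_le_N
  have hrm := hnum.rm
  have heta := hnum.eta
  obtain ⟨w, hw⟩ : ∃ w : ℝ, w = 4 * (N : ℝ) := ⟨_, rfl⟩
  rw [← hw] at hrm heta ⊢
  have hw4 : (4:ℝ) ≤ w := by rw [hw]; linarith
  have hw0 : (0:ℝ) < w := by linarith
  have hA1 := hS.one_le_A
  have hA0 : 0 < A := by linarith
  have hK0 : (0:ℝ) < K := by linarith [hS.two_le_K]
  have hK1 : (1:ℝ) ≤ K := by linarith [hS.two_le_K]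
  have hV0 : 0 < w ^ (j + 1) := by positivity
  have hθ : 0 < A / w ^ (j + 1) := by positivity
  have hGam := tsl_C3_gam h hS j
  have hGam0 : 0 ≤ 𝔖.GamProd p j := zero_le_one.trans (tsl_one_le_prod h _)
  have hΓr0 : 0 ≤ p.Γr 𝔖.ℓ := zero_le_one.trans (h.one_le_Γr _)
  have hϖ0 : 0 ≤ p.ϖ0 := zero_le_one.trans h.one_le_ϖ0
  have hϖX : p.ϖ0 ≤ X := hS.ϖ0_le.trans hKX
  have hkey := tsl_C3_key hw4 hX1 hj
  have hP0 : 0 ≤ w ^ (𝔖.ℓ + 2) * X ^ (3 * 𝔖.ℓ + 3) := by positivity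
  have hR : (2 * X ^ (2 * j)) ^ 2 * 𝔖.GamProd p j * p.Γr 𝔖.ℓ * p.ϖ0 ≤ (p.Rm * (A / w ^ (j + 1)) / 2) ^ 2 := by
    have h1 : (2 * X ^ (2 * j)) ^ 2 * 𝔖.GamProd p j * p.Γr 𝔖.ℓ * p.ϖ0 ≤ (2 * X ^ (2 * j)) ^ 2 * X ^ 𝔖.ℓ * (X * A ^ 2) * X :=
      mul_le_mul (mul_le_mul (mul_le_mul_of_nonneg_left hGam (sq_nonneg _)) (hS.Γr_le _ le_rfl) hΓr0 (by positivity)) hϖX hϖ0 (by positivity)
    have h2 : (2 * X ^ (2 * j)) ^ 2 * X ^ 𝔖.ℓ * (X * A ^ 2) * X = 4 * X ^ (4 * j + 𝔖.ℓ + 2) * A ^ 2 := by ring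
    have h3 : (p.Rm * (A / w ^ (j + 1)) / 2) ^ 2 = p.Rm ^ 2 * A ^ 2 / (4 * (w ^ (j + 1)) ^ 2) := by
      field_simp
      ring
    rw [h3, le_div_iff₀ (by positivity)]
    have h4 : (w ^ (𝔖.ℓ + 2) * X ^ (3 * 𝔖.ℓ + 3)) ^ 2 ≤ p.Rm ^ 2 := pow_le_pow_left₀ hP0 hrm 2
    calc (2 * X ^ (2 * j)) ^ 2 * 𝔖.GamProd p j * p.Γr 𝔖.ℓ * p.ϖ0 * (4 * (w ^ (j + 1)) ^ 2)
        ≤ 4 * X ^ (4 * j + 𝔖.ℓ + 2) * A ^ 2 * (4 * (w ^ (j + 1)) ^ 2) := mul_le_mul_of_nonneg_right (h1.trans h2.le) (by positivity)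
      _ = 16 * (w ^ (j + 1)) ^ 2 * X ^ (4 * j + 𝔖.ℓ + 2) * A ^ 2 := by ring
      _ ≤ p.Rm ^ 2 * A ^ 2 := mul_le_mul_of_nonneg_right (hkey.trans h4) (sq_nonneg A)
  have hη : (p.η * 𝔖.ℓ) ^ 2 * ((2 * X ^ (2 * j)) ^ 2 * 𝔖.GamProd p j * p.ϖ0) ≤ (A / w ^ (j + 1) / 2) ^ 2 := by
    have h1 : (2 * X ^ (2 * j)) ^ 2 * 𝔖.GamProd p j * p.ϖ0 ≤ (2 * X ^ (2 * j)) ^ 2 * X ^ 𝔖.ℓ * X :=
      mul_le_mul (mul_le_mul_of_nonneg_left hGam (sq_nonneg _)) hϖX hϖ0 (by positivity)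
    have h2 : (2 * X ^ (2 * j)) ^ 2 * X ^ 𝔖.ℓ * X ≤ 4 * X ^ (4 * j + 𝔖.ℓ + 2) := by
      have : (2 * X ^ (2 * j)) ^ 2 * X ^ 𝔖.ℓ * X = 4 * X ^ (4 * j + 𝔖.ℓ + 1) := by ring
      rw [this]
      exact mul_le_mul_of_nonneg_left (pow_le_pow_right₀ hX1 (by omega)) (by norm_num)
    have h3 : (A / w ^ (j + 1) / 2) ^ 2 = A ^ 2 / (4 * (w ^ (j + 1)) ^ 2) := by
      field_simp
      ring
    rw [h3, le_div_iff₀ (by positivity)]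
    have h5 : p.η * 𝔖.ℓ ≤ p.η * (𝔖.ℓ + 1) := mul_le_mul_of_nonneg_left (by linarith) h.η_nonneg
    have h50 : 0 ≤ p.η * 𝔖.ℓ := mul_nonneg h.η_nonneg (Nat.cast_nonneg _)
    have h6 : (p.η * (𝔖.ℓ + 1) * (w ^ (𝔖.ℓ + 2) * X ^ (3 * 𝔖.ℓ + 3))) ^ 2 ≤ 1 :=
      pow_le_one₀ (mul_nonneg (h50.trans h5) hP0) heta
    calc (p.η * 𝔖.ℓ) ^ 2 * ((2 * X ^ (2 * j)) ^ 2 * 𝔖.GamProd p j * p.ϖ0) * (4 * (w ^ (j + 1)) ^ 2)
        ≤ (p.η * 𝔖.ℓ) ^ 2 * (4 * X ^ (4 * j + 𝔖.ℓ + 2)) * (4 * (w ^ (j + 1)) ^ 2) :=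
          mul_le_mul_of_nonneg_right (mul_le_mul_of_nonneg_left (h1.trans h2) (sq_nonneg _)) (by positivity)
      _ = (p.η * 𝔖.ℓ) ^ 2 * (16 * (w ^ (j + 1)) ^ 2 * X ^ (4 * j + 𝔖.ℓ + 2)) := by ring
      _ ≤ (p.η * (𝔖.ℓ + 1)) ^ 2 * (w ^ (𝔖.ℓ + 2) * X ^ (3 * 𝔖.ℓ + 3)) ^ 2 :=
          mul_le_mul (pow_le_pow_left₀ h50 h5 2) hkey (by positivity) (sq_nonneg _)
      _ = (p.η * (𝔖.ℓ + 1) * (w ^ (𝔖.ℓ + 2) * X ^ (3 * 𝔖.ℓ + 3))) ^ 2 := by ring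
      _ ≤ 1 := h6
      _ ≤ A ^ 2 := one_le_pow₀ hA1
  have hd := tsl_discard_now h j hj g a hg (2 * X ^ (2 * j)) (A / w ^ (j + 1)) hθ hρ hR hη
  refine hd.trans ?_
  have hbud : 0 ≤ 𝔖.bud p.q j a (𝔖.b j) := tsl_bud_nonneg h _ _ (tsl_adm_nonneg h hg) (h.b_nonneg j)
  have e : (A / w ^ (j + 1)) ^ (-p.q) = (w ^ (j + 1)) ^ p.q * A ^ (-p.q) := by
    rw [Real.div_rpow hA0.le hV0.le, Real.rpow_neg hV0.le, div_inv_eq_mul, mul_comm]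
  rw [e]
  have hq2 : 0 ≤ p.q / 2 - 1 := by linarith [h.q_gt]
  have hc1 : p.L0 * p.L ^ (𝔖.ℓ - j) ≤ K ^ (𝔖.ℓ + 1) := by
    have h1 : p.L ^ (𝔖.ℓ - j) ≤ K ^ 𝔖.ℓ :=
      (pow_le_pow_left₀ (zero_le_one.trans h.one_le_L) hS.L_le _).trans (pow_le_pow_right₀ hK1 (Nat.sub_le _ _))
    calc p.L0 * p.L ^ (𝔖.ℓ - j) ≤ K * K ^ 𝔖.ℓ := mul_le_mul hS.L0_le h1 (pow_nonneg (zero_le_one.trans h.one_le_L) _) hK0.le
      _ = K ^ (𝔖.ℓ + 1) := by ring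
  have hc2 : p.ϖ0 ^ (p.q / 2 - 1) ≤ K ^ (p.q / 2 - 1) := Real.rpow_le_rpow hϖ0 hS.ϖ0_le hq2
  have h2q : (0:ℝ) ≤ 2 ^ p.q := Real.rpow_nonneg (by norm_num) _
  have hr1 : 0 ≤ (w ^ (j + 1)) ^ p.q * A ^ (-p.q) := mul_nonneg (Real.rpow_nonneg hV0.le _) (Real.rpow_nonneg hA0.le _)
  calc 2 ^ p.q * p.L0 * p.L ^ (𝔖.ℓ - j) * p.ϖ0 ^ (p.q / 2 - 1) * ((w ^ (j + 1)) ^ p.q * A ^ (-p.q)) * 𝔖.bud p.q j a (𝔖.b j)
      = 2 ^ p.q * ((p.L0 * p.L ^ (𝔖.ℓ - j)) * p.ϖ0 ^ (p.q / 2 - 1)) * (((w ^ (j + 1)) ^ p.q * A ^ (-p.q)) * 𝔖.bud p.q j a (𝔖.b j)) := by ring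
    _ ≤ 2 ^ p.q * (K ^ (𝔖.ℓ + 1) * K ^ (p.q / 2 - 1)) * (((w ^ (j + 1)) ^ p.q * A ^ (-p.q)) * 𝔖.bud p.q j a (𝔖.b j)) :=
        mul_le_mul_of_nonneg_right (mul_le_mul_of_nonneg_left (mul_le_mul hc1 hc2 (Real.rpow_nonneg hϖ0 _) (by positivity)) h2q) (mul_nonneg hr1 hbud)
    _ = 2 ^ p.q * K ^ (𝔖.ℓ + 1) * K ^ (p.q / 2 - 1) * (w ^ (j + 1)) ^ p.q * A ^ (-p.q) * 𝔖.bud p.q j a (𝔖.b j) := by ring

/-- L-SEL-C4, (f:Qsat), lower half.   PLAN: `Yf ⊆ {z | A/(4N)^{j+1} ≤ ‖Ev j (res (S j) (fld S j)) z‖}` (`hI.high`; `A/(4N)^{j+1} ≤ A/(4N)^j/(2N)`), `tsl_discard_num` (`tsl_adm_res`, `tsl_adm_fld`; `hI.ratio`, `hI.r_le`),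
`hS.balance`, `hI.card_le`, `A^q A^{-q} = 1`; the constant `K (2N)^{ℓ+1} 2^q K^{ℓ+1} K^{q/2-1} ((4N)^{j+1})^q ≤` LHS of `hnum.big` `≤ W`. -/
theorem tsl_le_bud (h : 𝔖.Ok p) (hS : 𝔖.SelHyp p A K X) (hKX : K ≤ X) (hnum : TslNum 𝔖.ℓ p.q K X W p.Rm p.η N)
    {S : ∀ i, Finset (𝔖.C i)} {r : ℕ → ℝ} {Yf : Finset 𝔖.Y} (hI : 𝔖.TslInv p A X G N 𝔖.ℓ S r Yf) (j : ℕ) (hj : j ≤ 𝔖.ℓ) :
    𝔖.D ≤ W * 𝔖.bud p.q j (𝔖.resA (S j) (𝔖.am S j)) (𝔖.b j) := by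
  have hq := h.q_gt
  have hq0 : p.q ≠ 0 := by linarith
  have hA1 := hS.one_le_A
  have hA0 : 0 < A := by linarith
  have hK2 := hS.two_le_K
  have hK0 : 0 < K := by linarith
  have hX3 := hS.three_le_X
  have hX0 : 0 < X := by linarith
  have hN1 : (1 : ℝ) ≤ N := by exact_mod_cast hnum.one_le_N
  have hN0 : (0 : ℝ) < N := by linarith
  have hadm := tsl_adm_fld h S j hj
  have hadm' := tsl_adm_res h hadm (S j)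
  have hB0 : 0 ≤ 𝔖.bud p.q j (𝔖.resA (S j) (𝔖.am S j)) (𝔖.b j) :=
    tsl_bud_nonneg h p.q j (fun T => tsl_adm_nonneg h hadm' T) (h.b_nonneg j)
  have hρ : ∀ T, 𝔖.resA (S j) (𝔖.am S j) T ≤ 2 * X ^ (2 * j) * 𝔖.b j T := by
    intro T
    have hb := h.b_nonneg j T
    unfold resA
    split_ifs with hT
    · refine (hI.ratio j hj T hT).2.2.trans ?_
      exact mul_le_mul_of_nonneg_right (mul_le_mul_of_nonneg_left (hI.r_le j hj) (by norm_num)) hb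
    · positivity
  have hdisc := tsl_discard_num h hS hKX hnum j hj _ _ hadm' hρ
  have hsub : Yf ⊆ Finset.univ.filter fun z => A / (4 * (N : ℝ)) ^ (j + 1) ≤ ‖𝔖.Ev j (𝔖.res (S j) (𝔖.fld S j)) z‖ := by
    intro z hz
    rw [Finset.mem_filter]
    refine ⟨Finset.mem_univ z, le_trans ?_ (hI.high j hj z hz)⟩
    rw [pow_succ, ← div_div]
    apply div_le_div_of_nonneg_left (by positivity) (by positivity)
    linarith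
  have hcard : (Yf.card : ℝ) ≤ 2 ^ p.q * K ^ (𝔖.ℓ + 1) * K ^ (p.q / 2 - 1) * ((4 * (N : ℝ)) ^ (j + 1)) ^ p.q * A ^ (-p.q) *
      𝔖.bud p.q j (𝔖.resA (S j) (𝔖.am S j)) (𝔖.b j) :=
    le_trans (by exact_mod_cast Finset.card_le_card hsub) hdisc
  have hAA : A ^ (-p.q) * A ^ p.q = 1 := by
    rw [← Real.rpow_add hA0]
    simp
  have hAq : 0 ≤ A ^ p.q := Real.rpow_nonneg hA0.le _
  have g2 : (0 : ℝ) ≤ (2 : ℝ) ^ p.q := by positivity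
  have g3 : (0 : ℝ) ≤ K ^ (p.q / 2 - 1) := Real.rpow_nonneg hK0.le _
  have f1 : (2 : ℝ) ^ p.q ≤ 4 ^ p.q := Real.rpow_le_rpow (by norm_num) (by norm_num) (by linarith)
  have f2 : ((4 * (N : ℝ)) ^ (j + 1)) ^ p.q ≤ ((4 * (N : ℝ)) ^ (𝔖.ℓ + 1)) ^ p.q :=
    Real.rpow_le_rpow (by positivity) (pow_le_pow_right₀ (by linarith) (by omega)) (by linarith)
  have g4 : (0 : ℝ) ≤ ((4 * (N : ℝ)) ^ (j + 1)) ^ p.q := Real.rpow_nonneg (by positivity) _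
  calc 𝔖.D ≤ K * (Fintype.card 𝔖.Y * A ^ p.q) := hS.balance
    _ ≤ K * ((2 * (N : ℝ)) ^ (𝔖.ℓ + 1) * Yf.card * A ^ p.q) := by
        refine mul_le_mul_of_nonneg_left (mul_le_mul_of_nonneg_right hI.card_le hAq) hK0.le
    _ ≤ K * ((2 * (N : ℝ)) ^ (𝔖.ℓ + 1) * (2 ^ p.q * K ^ (𝔖.ℓ + 1) * K ^ (p.q / 2 - 1) * ((4 * (N : ℝ)) ^ (j + 1)) ^ p.q * A ^ (-p.q) *
          𝔖.bud p.q j (𝔖.resA (S j) (𝔖.am S j)) (𝔖.b j)) * A ^ p.q) := by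
        refine mul_le_mul_of_nonneg_left (mul_le_mul_of_nonneg_right (mul_le_mul_of_nonneg_left hcard (by positivity)) hAq) hK0.le
    _ = 2 * (N : ℝ) * (2 ^ p.q * K ^ (𝔖.ℓ + 2) * K ^ (p.q / 2 - 1) * ((4 * (N : ℝ)) ^ (j + 1)) ^ p.q * (2 * (N : ℝ)) ^ 𝔖.ℓ) * (A ^ (-p.q) * A ^ p.q) *
          𝔖.bud p.q j (𝔖.resA (S j) (𝔖.am S j)) (𝔖.b j) := by ring
    _ ≤ W * 𝔖.bud p.q j (𝔖.resA (S j) (𝔖.am S j)) (𝔖.b j) := by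
        rw [hAA, mul_one]
        refine mul_le_mul_of_nonneg_right (le_trans ?_ hnum.big) hB0
        refine mul_le_mul_of_nonneg_left ?_ (by positivity)
        refine mul_le_mul_of_nonneg_right ?_ (by positivity)
        refine mul_le_mul ?_ f2 g4 (by positivity)
        refine mul_le_mul_of_nonneg_right ?_ g3
        exact mul_le_mul_of_nonneg_right f1 (by positivity)

/-! ## 3. The iteration -/

/-- `1 ≤ W` -/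
theorem tsl_base_one_le_W {ℓ N : ℕ} {q K X W Rm η : ℝ} (hq : 2 < q) (hK : 2 ≤ K) (hnum : TslNum ℓ q K X W Rm η N) : 1 ≤ W := by
  have hN1 : (1 : ℝ) ≤ N := by exact_mod_cast hnum.one_le_N
  have hK1 : 1 ≤ K := by linarith
  have b1 : (1 : ℝ) ≤ 4 ^ q := Real.one_le_rpow (by norm_num) (by linarith)
  have b2 : 1 ≤ K ^ (ℓ + 2) := one_le_pow₀ hK1
  have b3 : 1 ≤ K ^ (q / 2 - 1) := Real.one_le_rpow hK1 (by linarith)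
  have b4 : 1 ≤ ((4 * (N : ℝ)) ^ (ℓ + 1)) ^ q := Real.one_le_rpow (one_le_pow₀ (by linarith)) (by linarith)
  have b5 : (1 : ℝ) ≤ (2 * (N : ℝ)) ^ ℓ := one_le_pow₀ (by linarith)
  have b6 : (1 : ℝ) ≤ 2 * (N : ℝ) := by linarith
  refine le_trans ?_ hnum.big
  exact one_le_mul_of_one_le_of_one_le b6 (one_le_mul_of_one_le_of_one_le (one_le_mul_of_one_le_of_one_le
    (one_le_mul_of_one_le_of_one_le (one_le_mul_of_one_le_of_one_le b1 b2) b3) b4) b5)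

/-- the numerics of `hbig` at the leaves -/
theorem tsl_base_num {ℓ N : ℕ} {q K X W Rm η ϖ G A y : ℝ} (hq : 2 < q) (hK : 2 ≤ K) (hnum : TslNum ℓ q K X W Rm η N)
    (hϖ : 1 ≤ ϖ) (hG : ϖ * W ≤ G) (hG0 : 0 < G) (hA : 0 < A) (hy : 0 ≤ y) :
    2 * (N : ℝ) * ((2 ^ q * K ^ (ℓ + 1) * K ^ (q / 2 - 1) * ((4 * (N : ℝ)) ^ (0 + 1)) ^ q * A ^ (-q)) * (2 ^ q * ϖ * y * A ^ q / G)) ≤ y := by
  have hN1 : (1 : ℝ) ≤ N := by exact_mod_cast hnum.one_le_N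
  have hK1 : 1 ≤ K := by linarith
  have h4N : 1 ≤ 4 * (N : ℝ) := by linarith
  have h2N : 1 ≤ 2 * (N : ℝ) := by linarith
  have hAA : A ^ (-q) * A ^ q = 1 := by
    rw [← Real.rpow_add hA]
    simp
  have h44 : (2 : ℝ) ^ q * 2 ^ q = 4 ^ q := by
    rw [← Real.mul_rpow (by norm_num) (by norm_num)]
    norm_num
  have hKq : 0 < K ^ (q / 2 - 1) := Real.rpow_pos_of_pos (by linarith) _
  have h4q : (0 : ℝ) < 4 ^ q := Real.rpow_pos_of_pos (by norm_num) _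
  have a1 : K ^ (ℓ + 1) ≤ K ^ (ℓ + 2) := pow_le_pow_right₀ hK1 (by omega)
  have a2 : ((4 * (N : ℝ)) ^ (0 + 1)) ^ q ≤ ((4 * (N : ℝ)) ^ (ℓ + 1)) ^ q :=
    Real.rpow_le_rpow (by positivity) (pow_le_pow_right₀ h4N (by omega)) (by linarith)
  have a3 : (1 : ℝ) ≤ (2 * (N : ℝ)) ^ ℓ := one_le_pow₀ h2N
  have a20 : 0 < ((4 * (N : ℝ)) ^ (0 + 1)) ^ q := Real.rpow_pos_of_pos (by positivity) _
  have a4 : 4 ^ q * K ^ (ℓ + 1) * K ^ (q / 2 - 1) * ((4 * (N : ℝ)) ^ (0 + 1)) ^ q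
      ≤ 4 ^ q * K ^ (ℓ + 2) * K ^ (q / 2 - 1) * ((4 * (N : ℝ)) ^ (ℓ + 1)) ^ q * (2 * (N : ℝ)) ^ ℓ := by
    calc 4 ^ q * K ^ (ℓ + 1) * K ^ (q / 2 - 1) * ((4 * (N : ℝ)) ^ (0 + 1)) ^ q
        ≤ 4 ^ q * K ^ (ℓ + 2) * K ^ (q / 2 - 1) * ((4 * (N : ℝ)) ^ (ℓ + 1)) ^ q := by
          refine mul_le_mul ?_ a2 a20.le (by positivity)
          exact mul_le_mul_of_nonneg_right (mul_le_mul_of_nonneg_left a1 h4q.le) hKq.le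
      _ ≤ 4 ^ q * K ^ (ℓ + 2) * K ^ (q / 2 - 1) * ((4 * (N : ℝ)) ^ (ℓ + 1)) ^ q * (2 * (N : ℝ)) ^ ℓ :=
          le_mul_of_one_le_right (by positivity) a3
  have a5 : 2 * (N : ℝ) * (4 ^ q * K ^ (ℓ + 1) * K ^ (q / 2 - 1) * ((4 * (N : ℝ)) ^ (0 + 1)) ^ q) ≤ W :=
    (mul_le_mul_of_nonneg_left a4 (by positivity)).trans hnum.big
  have a6 : 2 * (N : ℝ) * (4 ^ q * K ^ (ℓ + 1) * K ^ (q / 2 - 1) * ((4 * (N : ℝ)) ^ (0 + 1)) ^ q) * ϖ ≤ G := by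
    refine le_trans ?_ hG
    rw [mul_comm ϖ W]
    exact mul_le_mul_of_nonneg_right a5 (by linarith)
  calc 2 * (N : ℝ) * ((2 ^ q * K ^ (ℓ + 1) * K ^ (q / 2 - 1) * ((4 * (N : ℝ)) ^ (0 + 1)) ^ q * A ^ (-q)) * (2 ^ q * ϖ * y * A ^ q / G))
      = (2 * (N : ℝ) * ((2 ^ q * 2 ^ q) * K ^ (ℓ + 1) * K ^ (q / 2 - 1) * ((4 * (N : ℝ)) ^ (0 + 1)) ^ q) * ϖ) * (A ^ (-q) * A ^ q) * y / G := by
        ring
    _ = (2 * (N : ℝ) * (4 ^ q * K ^ (ℓ + 1) * K ^ (q / 2 - 1) * ((4 * (N : ℝ)) ^ (0 + 1)) ^ q) * ϖ) * y / G := by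
        rw [h44, hAA, mul_one]
    _ ≤ G * y / G := div_le_div_of_nonneg_right (mul_le_mul_of_nonneg_right a6 hy) hG0.le
    _ = y := by field_simp

/-- L-SEL-C5, **the leaves**.   PLAN: `tsl_stage` at `i = 0`, `g = g0`, `a = b 0`, `ρ₀ = 1`, `θ = A`, `Y₀ = univ`, the `N` of the statement.   `htop`: `b < 2^N b`.   `hsmall`: on `tslZ` `b_T = 0`: `h.cauchy_root` with the amplitudes `resA Z (b 0)`, `sq = 0`.
`hdisc`: `tsl_discard_num` at `j = 0` (`A / (4N)^{0+1} = A / (4N)`), `Cd = 2^q K^{ℓ+1} K^{q/2-1} ((4N)^1)^q A^{-q}`.   `hbig`: `A^{-q} A^q = 1`, `hnum.big`, `hG` (`0 < G`: `1 ≤ ϖ1`, `1 ≤ W` by `tsl_num_cons`).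
`m = 0`: `Y₁ ≠ ∅` (`hS.nonempty`), `tsl_mask_nonempty`, `2^m b_T ≤ b_T`.   `S = fun i => if i = 0 then M else univ` (use `Function.update (fun _ => Finset.univ) 0 M`), `r = fun _ => 1`. -/
theorem tsl_base (h : 𝔖.Ok p) (hS : 𝔖.SelHyp p A K X) (hKX : K ≤ X) (hnum : TslNum 𝔖.ℓ p.q K X W p.Rm p.η N) (hG : p.ϖ1 * W ≤ G) :
    ∃ (S : ∀ i, Finset (𝔖.C i)) (r : ℕ → ℝ) (Y0 : Finset 𝔖.Y), 𝔖.TslInv p A X G N 0 S r Y0 := by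
  have hA1 := hS.one_le_A
  have hA : 0 < A := by linarith
  have hX := hS.three_le_X
  have hX1 : 1 ≤ X := by linarith
  have hW1 : 1 ≤ W := tsl_base_one_le_W h.q_gt hS.two_le_K hnum
  have hG0 : 0 < G := by
    have h1 : 1 ≤ p.ϖ1 * W := by
      have := h.one_le_ϖ1
      nlinarith
    linarith
  have hN := hnum.one_le_N
  have hN1 : (1 : ℝ) ≤ N := by exact_mod_cast hN
  have hK0 : 0 < K := by linarith [hS.two_le_K]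
  obtain ⟨Cd, hCd⟩ : ∃ Cd : ℝ, Cd = 2 ^ p.q * K ^ (𝔖.ℓ + 1) * K ^ (p.q / 2 - 1) * ((4 * (N : ℝ)) ^ (0 + 1)) ^ p.q * A ^ (-p.q) := ⟨_, rfl⟩
  have hCd0 : 0 ≤ Cd := by
    rw [hCd]
    positivity
  have htop : ∀ T, 0 < 𝔖.b 0 T → 𝔖.b 0 T < 2 ^ N * 1 * 𝔖.b 0 T := by
    intro T hT
    have h2 : (2 : ℝ) ≤ 2 ^ N := by
      calc (2 : ℝ) = 2 ^ 1 := (pow_one 2).symm
        _ ≤ 2 ^ N := pow_le_pow_right₀ (by norm_num) hN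
    nlinarith
  have hsmall : ∀ z, ‖𝔖.Ev 0 (𝔖.res (𝔖.tslZ 0 (𝔖.b 0) 1) 𝔖.g0) z‖ ≤ A / 4 := by
    intro z
    have h1 := h.cauchy_root 0 (Nat.zero_le _) _ _ (tsl_adm_res h h.leaf (𝔖.tslZ 0 (𝔖.b 0) 1)) z
    have h2 : 𝔖.sq 0 (𝔖.resA (𝔖.tslZ 0 (𝔖.b 0) 1) (𝔖.b 0)) z = 0 := by
      unfold sq
      refine Finset.sum_eq_zero fun T _ => ?_
      have h3 : 𝔖.resA (𝔖.tslZ 0 (𝔖.b 0) 1) (𝔖.b 0) T = 0 := by
        unfold resA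
        split_ifs with hT
        · unfold tslZ at hT
          rw [Finset.mem_filter] at hT
          rcases hT.2 with h0 | h0
          · exact h0
          · rw [one_mul] at h0
            exact absurd h0 (lt_irrefl _)
        · rfl
      rw [h3]
      ring
    rw [h2, mul_zero] at h1
    have h4 : ‖𝔖.Ev 0 (𝔖.res (𝔖.tslZ 0 (𝔖.b 0) 1) 𝔖.g0) z‖ = 0 :=
      pow_eq_zero_iff (two_ne_zero) |>.1 (le_antisymm h1 (sq_nonneg _))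
    rw [h4]
    positivity
  have hdisc : ∀ B : Finset (𝔖.C 0), ((Finset.univ.filter fun z => A / (4 * N) ≤ ‖𝔖.Ev 0 (𝔖.res B 𝔖.g0) z‖).card : ℝ)
      ≤ Cd * 𝔖.bud p.q 0 (𝔖.resA B (𝔖.b 0)) (𝔖.b 0) := by
    intro B
    have h1 := tsl_discard_num h hS hKX hnum 0 (Nat.zero_le _) (𝔖.res B 𝔖.g0) (𝔖.resA B (𝔖.b 0)) (tsl_adm_res h h.leaf B)
      (fun T => by
        have hb := h.b_nonneg 0 T
        unfold resA
        split_ifs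
        · simp only [mul_zero, pow_zero, mul_one]
          linarith
        · simp only [mul_zero, pow_zero, mul_one]
          linarith)
    rw [← hCd] at h1
    rw [zero_add, pow_one] at h1
    exact h1
  have hbig : 2 * (N : ℝ) * (Cd * (2 ^ p.q * p.ϖ1 * Fintype.card 𝔖.Y * A ^ p.q / G)) ≤ (Finset.univ : Finset 𝔖.Y).card := by
    rw [hCd, Finset.card_univ]
    exact tsl_base_num h.q_gt hS.two_le_K hnum h.one_le_ϖ1 hG hG0 hA (Nat.cast_nonneg _)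
  obtain ⟨M, m, Y₁, -, -, hcard, hM, hhi⟩ := tsl_stage h 0 (Nat.zero_le _) 𝔖.g0 (𝔖.b 0) h.leaf A G 1 A Cd N Finset.univ hA hG0
    one_pos hN hCd0 htop hsmall (fun z _ => hS.high z) hdisc hbig
  rw [Finset.card_univ] at hcard
  -- `m = 0`
  have hY1 : 0 < Y₁.card := by
    by_contra hc
    have h0 : Y₁.card = 0 := by omega
    rw [h0, Nat.cast_zero, mul_zero] at hcard
    have h1 : 0 < Fintype.card 𝔖.Y := Fintype.card_pos_iff.2 hS.nonempty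
    have h2 : (0 : ℝ) < Fintype.card 𝔖.Y := by exact_mod_cast h1
    linarith
  obtain ⟨z₀, hz₀⟩ := Finset.card_pos.1 hY1
  have hpos : 0 < A / (2 * N) := by positivity
  obtain ⟨T₀, hT₀⟩ := tsl_mask_nonempty h 0 M 𝔖.g0 z₀ (hpos.trans_le (hhi z₀ hz₀))
  have hm : m = 0 := by
    obtain ⟨hb, h1, -, -⟩ := hM T₀ hT₀
    by_contra hm
    have h2 : (2 : ℝ) ≤ 2 ^ m := by
      calc (2 : ℝ) = 2 ^ 1 := (pow_one 2).symm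
        _ ≤ 2 ^ m := pow_le_pow_right₀ (by norm_num) (Nat.one_le_iff_ne_zero.2 hm)
    nlinarith
  subst hm
  have hSeq : Function.update (fun i => (Finset.univ : Finset (𝔖.C i))) 0 M 0 = M := Function.update_self _ _ _
  refine ⟨Function.update (fun i => (Finset.univ : Finset (𝔖.C i))) 0 M, fun _ => 1, Y₁, fun _ => one_pos, rfl,
    fun j _ => one_le_pow₀ hX1, ?_, ?_, ?_, ?_⟩
  · intro j hj T hT
    obtain rfl : j = 0 := Nat.le_zero.1 hj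
    rw [hSeq] at hT
    obtain ⟨hb, -, -, -⟩ := hM T hT
    have e : 𝔖.am (Function.update (fun i => (Finset.univ : Finset (𝔖.C i))) 0 M) 0 T = 𝔖.b 0 T := rfl
    rw [e]
    exact ⟨hb, by linarith, by linarith⟩
  · intro j hj T hT
    obtain rfl : j = 0 := Nat.le_zero.1 hj
    rw [hSeq] at hT
    obtain ⟨-, -, -, ho⟩ := hM T hT
    rw [pow_zero, one_mul] at ho
    exact ho
  · intro j hj z hz
    obtain rfl : j = 0 := Nat.le_zero.1 hj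
    rw [hSeq, pow_zero, div_one]
    exact hhi z hz
  · rw [zero_add, pow_one]
    exact hcard

/-- the numerics of the junk error -/
theorem tsl_next_num {ℓ n N : ℕ} {X η A ϖ ρ : ℝ} (hN : 1 ≤ N) (hX : 3 ≤ X) (hA : 1 ≤ A) (hη : 0 ≤ η) (hn : n + 1 ≤ ℓ)
    (heta : η * (ℓ + 1) * ((4 * (N : ℝ)) ^ (ℓ + 2) * X ^ (3 * ℓ + 3)) ≤ 1) (hρ0 : 0 ≤ ρ) (hρ : ρ ≤ X ^ (2 * n))
    (hϖ0 : 0 ≤ ϖ) (hϖ : ϖ ≤ X) : η ^ 2 * ((2 * ρ) ^ 2 * ϖ) ≤ (A / (4 * (N : ℝ)) ^ n / (4 * N)) ^ 2 := by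
  have hX1 : 1 ≤ X := by linarith
  have hX0 : 0 < X := by linarith
  have hN1 : (1 : ℝ) ≤ N := by exact_mod_cast hN
  have h4N : 1 ≤ 4 * (N : ℝ) := by linarith
  have e1 : (2 * ρ) ^ 2 * ϖ ≤ (2 * X ^ (2 * n + 1)) ^ 2 := by
    calc (2 * ρ) ^ 2 * ϖ ≤ (2 * X ^ (2 * n)) ^ 2 * X :=
          mul_le_mul (pow_le_pow_left₀ (by positivity) (by linarith) 2) hϖ hϖ0 (by positivity)
      _ ≤ (2 * X ^ (2 * n)) ^ 2 * X ^ 2 := mul_le_mul_of_nonneg_left (by nlinarith) (by positivity)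
      _ = (2 * X ^ (2 * n + 1)) ^ 2 := by ring
  have e2 : 2 * X ^ (2 * n + 1) * ((4 * (N : ℝ)) ^ n * (4 * N)) ≤ (4 * (N : ℝ)) ^ (ℓ + 2) * X ^ (3 * ℓ + 3) := by
    have a1 : 2 * X ^ (2 * n + 1) ≤ X ^ (3 * ℓ + 3) := by
      calc 2 * X ^ (2 * n + 1) ≤ X * X ^ (2 * n + 1) := mul_le_mul_of_nonneg_right (by linarith) (by positivity)
        _ = X ^ (2 * n + 2) := by ring
        _ ≤ X ^ (3 * ℓ + 3) := pow_le_pow_right₀ hX1 (by omega)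
    have a2 : (4 * (N : ℝ)) ^ n * (4 * N) ≤ (4 * (N : ℝ)) ^ (ℓ + 2) := by
      calc (4 * (N : ℝ)) ^ n * (4 * N) = (4 * (N : ℝ)) ^ (n + 1) := by ring
        _ ≤ (4 * (N : ℝ)) ^ (ℓ + 2) := pow_le_pow_right₀ h4N (by omega)
    calc 2 * X ^ (2 * n + 1) * ((4 * (N : ℝ)) ^ n * (4 * N)) ≤ X ^ (3 * ℓ + 3) * (4 * (N : ℝ)) ^ (ℓ + 2) :=
          mul_le_mul a1 a2 (by positivity) (by positivity)
      _ = (4 * (N : ℝ)) ^ (ℓ + 2) * X ^ (3 * ℓ + 3) := by ring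
  have e3 : η * ((4 * (N : ℝ)) ^ (ℓ + 2) * X ^ (3 * ℓ + 3)) ≤ 1 := by
    refine le_trans ?_ heta
    have h1 : η ≤ η * ((ℓ : ℝ) + 1) := le_mul_of_one_le_right hη (by linarith [(Nat.cast_nonneg ℓ : (0 : ℝ) ≤ ℓ)])
    exact mul_le_mul_of_nonneg_right h1 (by positivity)
  have e4 : η * (2 * X ^ (2 * n + 1)) ≤ A / (4 * (N : ℝ)) ^ n / (4 * N) := by
    rw [div_div, le_div_iff₀ (by positivity)]
    calc η * (2 * X ^ (2 * n + 1)) * ((4 * (N : ℝ)) ^ n * (4 * N))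
        = η * (2 * X ^ (2 * n + 1) * ((4 * (N : ℝ)) ^ n * (4 * N))) := by ring
      _ ≤ η * ((4 * (N : ℝ)) ^ (ℓ + 2) * X ^ (3 * ℓ + 3)) := mul_le_mul_of_nonneg_left e2 hη
      _ ≤ 1 := e3
      _ ≤ A := hA
  calc η ^ 2 * ((2 * ρ) ^ 2 * ϖ) ≤ η ^ 2 * (2 * X ^ (2 * n + 1)) ^ 2 := mul_le_mul_of_nonneg_left e1 (sq_nonneg _)
    _ = (η * (2 * X ^ (2 * n + 1))) ^ 2 := by ring
    _ ≤ (A / (4 * (N : ℝ)) ^ n / (4 * N)) ^ 2 := pow_le_pow_left₀ (by positivity) e4 2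

/-- L-SEL-C6a, **the input of the stage `n + 1`**: admissible, ratio `≤ X^{2(n+1)}`, high on `Yn`.
PLAN: `fld S (n+1) = asm n (res (S n) (fld S n))`, `am S (n+1) = amp n (..)` (`rfl`).   Ratio: `tsl_step_ratio` with `R = (2 r_n)²` (`tsl_sel_sq`), `Γ n ≤ X`, `r_n ≤ X^{2n}`, `4 X ≤ X⁴`; `tsl_le_of_sq` or `abs_le_of_sq_le_sq'`.
High: `h.junk n`: error² `≤ η² sq n (resA ..) z ≤ η² (2 r_n)² ϖ0 ≤ η² 4 X^{4n+1}` (`tsl_sq_le`, `h.sq_le`) `≤ (A/(4N)^n/(4N))²` by `hnum.eta`, `1 ≤ A`;  `A/(4N)^n/(2N) - A/(4N)^n/(4N) = A/(4N)^{n+1}`. -/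
theorem tsl_next (h : 𝔖.Ok p) (hS : 𝔖.SelHyp p A K X) (hKX : K ≤ X) (hnum : TslNum 𝔖.ℓ p.q K X W p.Rm p.η N) (n : ℕ) (hn : n + 1 ≤ 𝔖.ℓ)
    {S : ∀ i, Finset (𝔖.C i)} {r : ℕ → ℝ} {Yn : Finset 𝔖.Y} (hI : 𝔖.TslInv p A X G N n S r Yn) :
    (∀ T, 𝔖.am S (n + 1) T ≤ X ^ (2 * (n + 1)) * 𝔖.b (n + 1) T) ∧ ∀ z ∈ Yn, A / (4 * (N : ℝ)) ^ (n + 1) ≤ ‖𝔖.Ev (n + 1) (𝔖.fld S (n + 1)) z‖ := by
  have hnl : n < 𝔖.ℓ := by omega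
  have hX := hS.three_le_X
  have hX1 : 1 ≤ X := by linarith
  have hX0 : 0 < X := by linarith
  have hfa : 𝔖.Adm n (𝔖.fld S n) (𝔖.am S n) := tsl_adm_fld h S n hnl.le
  have hadm : 𝔖.Adm n (𝔖.res (S n) (𝔖.fld S n)) (𝔖.resA (S n) (𝔖.am S n)) := tsl_adm_res h hfa (S n)
  have hsq : ∀ T, 𝔖.resA (S n) (𝔖.am S n) T ^ 2 ≤ (2 * r n) ^ 2 * 𝔖.b n T ^ 2 :=
    tsl_sel_sq S n (2 * r n) fun T hT => ⟨tsl_adm_nonneg h hfa T, (hI.ratio n le_rfl T hT).2.2⟩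
  have hr0 : 0 < r n := hI.r_pos n
  have hrle : r n ≤ X ^ (2 * n) := hI.r_le n le_rfl
  constructor
  · intro T
    have h1 := tsl_step_ratio h n hnl hadm (sq_nonneg (2 * r n)) hsq T
    have hΓ : p.Γ n ≤ X := hS.Γ_le n hnl
    have hΓ0 : 0 ≤ p.Γ n := zero_le_one.trans (h.one_le_Γ n)
    have h2 : (2 * r n) ^ 2 * p.Γ n ≤ (X ^ (2 * (n + 1))) ^ 2 := by
      calc (2 * r n) ^ 2 * p.Γ n ≤ (2 * X ^ (2 * n)) ^ 2 * X :=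
            mul_le_mul (pow_le_pow_left₀ (by positivity) (by linarith) 2) hΓ hΓ0 (by positivity)
        _ = (X ^ (2 * n)) ^ 2 * (4 * X) := by ring
        _ ≤ (X ^ (2 * n)) ^ 2 * X ^ 4 := by
            refine mul_le_mul_of_nonneg_left ?_ (by positivity)
            have : (27 : ℝ) ≤ X ^ 3 := by
              calc (27 : ℝ) = 3 ^ 3 := by norm_num
                _ ≤ X ^ 3 := pow_le_pow_left₀ (by norm_num) hX 3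
            nlinarith
        _ = (X ^ (2 * (n + 1))) ^ 2 := by ring
    have h3 : 𝔖.amp n (𝔖.res (S n) (𝔖.fld S n)) T ^ 2 ≤ (X ^ (2 * (n + 1)) * 𝔖.b (n + 1) T) ^ 2 := by
      rw [mul_pow]
      exact h1.trans (mul_le_mul_of_nonneg_right h2 (sq_nonneg _))
    exact (pow_le_pow_iff_left₀ (h.amp_nonneg n _ T) (mul_nonneg (by positivity) (h.b_nonneg (n + 1) T)) two_ne_zero).1 h3
  · intro z hz
    have hN1 : (1 : ℝ) ≤ N := by exact_mod_cast hnum.one_le_N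
    have j1 := h.junk n hnl _ _ hadm z
    have j2 : 𝔖.sq n (𝔖.resA (S n) (𝔖.am S n)) z ≤ (2 * r n) ^ 2 * p.ϖ0 :=
      (tsl_sq_le h n hsq z).trans (mul_le_mul_of_nonneg_left (h.sq_le n hnl.le z) (sq_nonneg _))
    have j3 := tsl_next_num hnum.one_le_N hX hS.one_le_A h.η_nonneg hn hnum.eta hr0.le hrle
      (zero_le_one.trans h.one_le_ϖ0) (hS.ϖ0_le.trans hKX)
    have j4 : ‖𝔖.Ev n (𝔖.res (S n) (𝔖.fld S n)) z - 𝔖.Ev (n + 1) (𝔖.asm n (𝔖.res (S n) (𝔖.fld S n))) z‖ ^ 2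
        ≤ (A / (4 * (N : ℝ)) ^ n / (4 * N)) ^ 2 :=
      (j1.trans (mul_le_mul_of_nonneg_left j2 (sq_nonneg _))).trans j3
    have hA0 : 0 < A := by linarith [hS.one_le_A]
    have j5 : ‖𝔖.Ev n (𝔖.res (S n) (𝔖.fld S n)) z - 𝔖.Ev (n + 1) (𝔖.asm n (𝔖.res (S n) (𝔖.fld S n))) z‖
        ≤ A / (4 * (N : ℝ)) ^ n / (4 * N) :=
      (pow_le_pow_iff_left₀ (norm_nonneg _) (by positivity) two_ne_zero).1 j4
    have j6 := hI.high n le_rfl z hz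
    have j7 := norm_sub_norm_le (𝔖.Ev n (𝔖.res (S n) (𝔖.fld S n)) z) (𝔖.Ev (n + 1) (𝔖.asm n (𝔖.res (S n) (𝔖.fld S n))) z)
    have e1 : A / (4 * (N : ℝ)) ^ (n + 1) = A / (4 * (N : ℝ)) ^ n / (4 * N) := by
      rw [pow_succ, div_div]
    have e2 : A / (4 * (N : ℝ)) ^ n / (2 * N) = 2 * (A / (4 * (N : ℝ)) ^ n / (4 * N)) := by
      field_simp
      ring
    have e3 : 𝔖.fld S (n + 1) = 𝔖.asm n (𝔖.res (S n) (𝔖.fld S n)) := rfl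
    rw [e1, e3]
    rw [e2] at j6
    linarith

theorem tsl_C6b_W {ℓ : ℕ} {q K X W Rm η : ℝ} {N : ℕ} (hq : 2 < q) (hK : 2 ≤ K) (hnum : TslNum ℓ q K X W Rm η N) : 1 ≤ W := by
  have hN1 : (1:ℝ) ≤ N := by exact_mod_cast hnum.one_le_N
  have hK1 : (1:ℝ) ≤ K := by linarith
  refine le_trans ?_ hnum.big
  have h1 : (1:ℝ) ≤ 2 * (N : ℝ) := by linarith
  have h2 : (1:ℝ) ≤ 4 ^ q := Real.one_le_rpow (by norm_num) (by linarith)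
  have h3 : (1:ℝ) ≤ K ^ (ℓ + 2) := one_le_pow₀ hK1
  have h4 : (1:ℝ) ≤ K ^ (q / 2 - 1) := Real.one_le_rpow hK1 (by linarith)
  have h5 : (1:ℝ) ≤ ((4 * (N : ℝ)) ^ (ℓ + 1)) ^ q := Real.one_le_rpow (one_le_pow₀ (by linarith)) (by linarith)
  have h6 : (1:ℝ) ≤ (2 * (N : ℝ)) ^ ℓ := one_le_pow₀ h1
  exact one_le_mul_of_one_le_of_one_le h1 (one_le_mul_of_one_le_of_one_le (one_le_mul_of_one_le_of_one_le (one_le_mul_of_one_le_of_one_le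
    (one_le_mul_of_one_le_of_one_le h2 h3) h4) h5) h6)

/-- the numeric half of `hbig` -/
theorem tsl_C6b_big {ℓ : ℕ} {q K X W Rm η G ϖ A y yn : ℝ} {N : ℕ} (hq : 2 < q) (hK : 2 ≤ K) (hnum : TslNum ℓ q K X W Rm η N) (hϖ : 1 ≤ ϖ) (hG : ϖ * W ≤ G) (hA : 0 < A)
    {k : ℕ} (hk : k ≤ ℓ) (hyn : 0 ≤ yn) (hy : y ≤ (2 * (N : ℝ)) ^ k * yn) :
    2 * (N : ℝ) * (2 ^ q * K ^ (ℓ + 1) * K ^ (q / 2 - 1) * ((4 * (N : ℝ)) ^ (k + 1)) ^ q * A ^ (-q) * (2 ^ q * ϖ * y * A ^ q / G)) ≤ yn := by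
  have hN1 : (1:ℝ) ≤ N := by exact_mod_cast hnum.one_le_N
  have hK1 : (1:ℝ) ≤ K := by linarith
  have hK0 : (0:ℝ) < K := by linarith
  have hW1 : 1 ≤ W := tsl_C6b_W hq hK hnum
  have hG0 : 0 < G := lt_of_lt_of_le (by positivity) hG
  have hbig := hnum.big
  obtain ⟨w, hw⟩ : ∃ w : ℝ, w = 4 * (N : ℝ) := ⟨_, rfl⟩
  obtain ⟨v, hv⟩ : ∃ v : ℝ, v = 2 * (N : ℝ) := ⟨_, rfl⟩
  rw [← hw, ← hv] at hbig
  rw [← hw, ← hv]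
  rw [← hv] at hy
  have hw1 : (1:ℝ) ≤ w := by rw [hw]; linarith
  have hv1 : (1:ℝ) ≤ v := by rw [hv]; linarith
  have hAA : A ^ (-q) * A ^ q = 1 := by rw [← Real.rpow_add hA]; simp
  have h44 : (2:ℝ) ^ q * 2 ^ q = 4 ^ q := by rw [← Real.mul_rpow (by norm_num) (by norm_num)]; norm_num
  have hKq : 0 ≤ K ^ (q / 2 - 1) := Real.rpow_nonneg hK0.le _
  have h4q : (0:ℝ) ≤ 4 ^ q := Real.rpow_nonneg (by norm_num) _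
  have hwk : (w ^ (k + 1)) ^ q ≤ (w ^ (ℓ + 1)) ^ q :=
    Real.rpow_le_rpow (by positivity) (pow_le_pow_right₀ hw1 (by omega)) (by linarith)
  have hwk0 : 0 ≤ (w ^ (k + 1)) ^ q := Real.rpow_nonneg (by positivity) _
  have e : v * (2 ^ q * K ^ (ℓ + 1) * K ^ (q / 2 - 1) * (w ^ (k + 1)) ^ q * A ^ (-q) * (2 ^ q * ϖ * y * A ^ q / G))
      = v * ((2 ^ q * 2 ^ q) * K ^ (ℓ + 1) * K ^ (q / 2 - 1) * (w ^ (k + 1)) ^ q) * (A ^ (-q) * A ^ q) * ϖ * y / G := by ring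
  rw [e, hAA, h44, mul_one, div_le_iff₀ hG0]
  have hc0 : 0 ≤ v * (4 ^ q * K ^ (ℓ + 1) * K ^ (q / 2 - 1) * (w ^ (k + 1)) ^ q) * ϖ := by positivity
  calc v * (4 ^ q * K ^ (ℓ + 1) * K ^ (q / 2 - 1) * (w ^ (k + 1)) ^ q) * ϖ * y
      ≤ v * (4 ^ q * K ^ (ℓ + 1) * K ^ (q / 2 - 1) * (w ^ (k + 1)) ^ q) * ϖ * (v ^ k * yn) := mul_le_mul_of_nonneg_left hy hc0
    _ = ϖ * (v * (4 ^ q * K ^ (ℓ + 1) * K ^ (q / 2 - 1) * (w ^ (k + 1)) ^ q * v ^ k)) * yn := by ring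
    _ ≤ ϖ * (v * (4 ^ q * K ^ (ℓ + 2) * K ^ (q / 2 - 1) * (w ^ (ℓ + 1)) ^ q * v ^ ℓ)) * yn := by
        refine mul_le_mul_of_nonneg_right (mul_le_mul_of_nonneg_left (mul_le_mul_of_nonneg_left ?_ (by positivity)) (by positivity)) hyn
        refine mul_le_mul (mul_le_mul (mul_le_mul_of_nonneg_right (mul_le_mul_of_nonneg_left (pow_le_pow_right₀ hK1 (by omega)) h4q) hKq) hwk hwk0 (by positivity))
          (pow_le_pow_right₀ hv1 hk) (by positivity) ?_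
        exact mul_nonneg (by positivity) (Real.rpow_nonneg (by positivity) _)
    _ ≤ ϖ * W * yn := mul_le_mul_of_nonneg_right (mul_le_mul_of_nonneg_left hbig (by positivity)) hyn
    _ ≤ G * yn := mul_le_mul_of_nonneg_right hG hyn
    _ = yn * G := mul_comm _ _

/-- L-SEL-C6b, **the selection at the stage `n + 1`**.   PLAN: `tsl_stage` at `i = n + 1`, `g = fld S (n+1)`, `a = am S (n+1)` (`tsl_adm_fld`), `ρ₀ = 1 / (4 X (4N)^{n+1})`, `θ = A/(4N)^{n+1}`, `Y₀ = Yn`.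
`htop`: `hmax`, `hnum.top` (monotone in the exponents).   `hsmall`: `h.cauchy_root` with `resA Z a`, `a_T² ≤ ρ₀² b_T²` on `Z`, `tsl_sq_le`, `h.sq_le`, `Γr ≤ X A²`, `ϖ0 ≤ X`: `X² A² ρ₀² = (θ/4)²`.
`hdisc`: `tsl_discard_num` at `j = n + 1` (`θ/(4N) = A/(4N)^{n+2}`).   `hbig`: `hcard`, `hnum.big`, `hG`.   `2^m ρ₀ ≤ X^{2(n+1)}`: `Y₁ ≠ ∅` (`hcard`, `hS.nonempty`), `tsl_mask_nonempty`, `hmax`. -/
theorem tsl_pick (h : 𝔖.Ok p) (hS : 𝔖.SelHyp p A K X) (hKX : K ≤ X) (hnum : TslNum 𝔖.ℓ p.q K X W p.Rm p.η N) (hG : p.ϖ1 * W ≤ G) (n : ℕ) (hn : n + 1 ≤ 𝔖.ℓ)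
    (S : ∀ i, Finset (𝔖.C i)) (Yn : Finset 𝔖.Y) (hcard : (Fintype.card 𝔖.Y : ℝ) ≤ (2 * (N : ℝ)) ^ (n + 1) * Yn.card)
    (hmax : ∀ T, 𝔖.am S (n + 1) T ≤ X ^ (2 * (n + 1)) * 𝔖.b (n + 1) T) (hhigh : ∀ z ∈ Yn, A / (4 * (N : ℝ)) ^ (n + 1) ≤ ‖𝔖.Ev (n + 1) (𝔖.fld S (n + 1)) z‖) :
    ∃ (M : Finset (𝔖.C (n + 1))) (r' : ℝ) (Y₁ : Finset 𝔖.Y), 0 < r' ∧ r' ≤ X ^ (2 * (n + 1)) ∧ Y₁ ⊆ Yn ∧ (Yn.card : ℝ) ≤ 2 * N * Y₁.card ∧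
      (∀ T ∈ M, 0 < 𝔖.b (n + 1) T ∧ r' * 𝔖.b (n + 1) T ≤ 𝔖.am S (n + 1) T ∧ 𝔖.am S (n + 1) T ≤ 2 * r' * 𝔖.b (n + 1) T ∧
        (𝔖.occ (n + 1) T : ℝ) ≤ G * (𝔖.vol (n + 1) * (r' / A) ^ p.q)) ∧
      ∀ z ∈ Y₁, A / (4 * (N : ℝ)) ^ (n + 1) / (2 * N) ≤ ‖𝔖.Ev (n + 1) (𝔖.res M (𝔖.fld S (n + 1))) z‖ := by
  have hX1 : (1:ℝ) ≤ X := by linarith [hS.three_le_X]
  have hX0 : (0:ℝ) < X := by linarith
  have hN1 : (1:ℝ) ≤ N := by exact_mod_cast hnum.one_le_N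
  have hN0 : (0:ℝ) < N := by linarith
  have hA1 := hS.one_le_A
  have hA0 : 0 < A := by linarith
  have hK0 : (0:ℝ) < K := by linarith [hS.two_le_K]
  have hW1 : 1 ≤ W := tsl_C6b_W h.q_gt hS.two_le_K hnum
  have hG0 : 0 < G := lt_of_lt_of_le (mul_pos (zero_lt_one.trans_le h.one_le_ϖ1) (zero_lt_one.trans_le hW1)) hG
  have hg : 𝔖.Adm (n + 1) (𝔖.fld S (n + 1)) (𝔖.am S (n + 1)) := tsl_adm_fld h S (n + 1) hn
  have ha0 := tsl_adm_nonneg h hg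
  have hw1 : (1:ℝ) ≤ 4 * (N : ℝ) := by linarith
  have hV0 : 0 < (4 * (N : ℝ)) ^ (n + 1) := by positivity
  have hρ₀ : 0 < 1 / (4 * X * (4 * (N : ℝ)) ^ (n + 1)) := by positivity
  have hϖ0 : 0 ≤ p.ϖ0 := zero_le_one.trans h.one_le_ϖ0
  have hϖX : p.ϖ0 ≤ X := hS.ϖ0_le.trans hKX
  -- top
  have htop : ∀ T, 0 < 𝔖.b (n + 1) T → 𝔖.am S (n + 1) T < 2 ^ N * (1 / (4 * X * (4 * (N : ℝ)) ^ (n + 1))) * 𝔖.b (n + 1) T := by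
    intro T hT
    refine lt_of_le_of_lt (hmax T) (mul_lt_mul_of_pos_right ?_ hT)
    rw [mul_one_div, lt_div_iff₀ (by positivity)]
    refine lt_of_le_of_lt ?_ hnum.top
    calc X ^ (2 * (n + 1)) * (4 * X * (4 * (N : ℝ)) ^ (n + 1)) = 4 * X * (4 * (N : ℝ)) ^ (n + 1) * X ^ (2 * (n + 1)) := by ring
      _ ≤ 4 * X * (4 * (N : ℝ)) ^ 𝔖.ℓ * X ^ (2 * 𝔖.ℓ) :=
          mul_le_mul (mul_le_mul_of_nonneg_left (pow_le_pow_right₀ hw1 hn) (by positivity)) (pow_le_pow_right₀ hX1 (by omega)) (by positivity) (by positivity)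
  -- small
  have hsmall : ∀ z, ‖𝔖.Ev (n + 1) (𝔖.res (𝔖.tslZ (n + 1) (𝔖.am S (n + 1)) (1 / (4 * X * (4 * (N : ℝ)) ^ (n + 1)))) (𝔖.fld S (n + 1))) z‖
      ≤ A / (4 * (N : ℝ)) ^ (n + 1) / 4 := by
    intro z
    have h1 := h.cauchy_root (n + 1) hn _ _ (tsl_adm_res h hg (𝔖.tslZ (n + 1) (𝔖.am S (n + 1)) (1 / (4 * X * (4 * (N : ℝ)) ^ (n + 1))))) z
    have h2 : ∀ T, 𝔖.resA (𝔖.tslZ (n + 1) (𝔖.am S (n + 1)) (1 / (4 * X * (4 * (N : ℝ)) ^ (n + 1)))) (𝔖.am S (n + 1)) T ^ 2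
        ≤ (1 / (4 * X * (4 * (N : ℝ)) ^ (n + 1))) ^ 2 * 𝔖.b (n + 1) T ^ 2 := by
      intro T
      unfold resA
      split_ifs with hT
      · rcases (Finset.mem_filter.1 hT).2 with h0 | h0
        · have : 𝔖.am S (n + 1) T = 0 := le_antisymm (by have := hmax T; rwa [h0, mul_zero] at this) (ha0 T)
          rw [this, h0]; simp
        · exact tsl_sq_of_le (ha0 T) h0.le
      · rw [zero_pow two_ne_zero]; positivity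
    have h3 := tsl_sq_le h (n + 1) h2 z
    have h4 : ‖𝔖.Ev (n + 1) (𝔖.res (𝔖.tslZ (n + 1) (𝔖.am S (n + 1)) (1 / (4 * X * (4 * (N : ℝ)) ^ (n + 1)))) (𝔖.fld S (n + 1))) z‖ ^ 2
        ≤ (A / (4 * (N : ℝ)) ^ (n + 1) / 4) ^ 2 := by
      refine h1.trans ?_
      calc p.Γr (n + 1) * 𝔖.sq (n + 1) (𝔖.resA (𝔖.tslZ (n + 1) (𝔖.am S (n + 1)) (1 / (4 * X * (4 * (N : ℝ)) ^ (n + 1)))) (𝔖.am S (n + 1))) z
          ≤ (X * A ^ 2) * ((1 / (4 * X * (4 * (N : ℝ)) ^ (n + 1))) ^ 2 * X) := by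
            refine mul_le_mul (hS.Γr_le _ hn) (h3.trans (mul_le_mul_of_nonneg_left ((h.sq_le _ hn z).trans hϖX) (sq_nonneg _))) ?_ (by positivity)
            exact Finset.sum_nonneg fun T _ => mul_nonneg (sq_nonneg _) (h.w_nonneg _ T z)
        _ = (A / (4 * (N : ℝ)) ^ (n + 1) / 4) ^ 2 := by field_simp
    exact (abs_le_of_sq_le_sq' h4 (by positivity)).2
  -- discard
  have hdisc : ∀ B : Finset (𝔖.C (n + 1)), ((Finset.univ.filter fun z => A / (4 * (N : ℝ)) ^ (n + 1) / (4 * N) ≤ ‖𝔖.Ev (n + 1) (𝔖.res B (𝔖.fld S (n + 1))) z‖).card : ℝ)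
      ≤ (2 ^ p.q * K ^ (𝔖.ℓ + 1) * K ^ (p.q / 2 - 1) * ((4 * (N : ℝ)) ^ (n + 1 + 1)) ^ p.q * A ^ (-p.q)) * 𝔖.bud p.q (n + 1) (𝔖.resA B (𝔖.am S (n + 1))) (𝔖.b (n + 1)) := by
    intro B
    have e : A / (4 * (N : ℝ)) ^ (n + 1) / (4 * N) = A / (4 * (N : ℝ)) ^ (n + 1 + 1) := by rw [div_div, ← pow_succ]
    rw [e]
    refine tsl_discard_num h hS hKX hnum (n + 1) hn _ _ (tsl_adm_res h hg B) fun T => ?_
    have hb := h.b_nonneg (n + 1) T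
    have hXb : 0 ≤ X ^ (2 * (n + 1)) * 𝔖.b (n + 1) T := by positivity
    unfold resA
    split_ifs
    · have := hmax T
      nlinarith
    · nlinarith
  have hCd : 0 ≤ 2 ^ p.q * K ^ (𝔖.ℓ + 1) * K ^ (p.q / 2 - 1) * ((4 * (N : ℝ)) ^ (n + 1 + 1)) ^ p.q * A ^ (-p.q) := by
    have h1 : (0:ℝ) ≤ 2 ^ p.q := Real.rpow_nonneg (by norm_num) _
    have h2 : 0 ≤ K ^ (p.q / 2 - 1) := Real.rpow_nonneg hK0.le _
    have h3 : 0 ≤ ((4 * (N : ℝ)) ^ (n + 1 + 1)) ^ p.q := Real.rpow_nonneg (by positivity) _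
    have h4 : 0 ≤ A ^ (-p.q) := Real.rpow_nonneg hA0.le _
    positivity
  have hbig := tsl_C6b_big (A := A) h.q_gt hS.two_le_K hnum h.one_le_ϖ1 hG hA0 hn (Nat.cast_nonneg Yn.card) hcard
  obtain ⟨M, m, Y₁, hm, hsub, hc, hM, hz⟩ := tsl_stage h (n + 1) hn _ _ hg A G (1 / (4 * X * (4 * (N : ℝ)) ^ (n + 1))) (A / (4 * (N : ℝ)) ^ (n + 1)) _ N Yn hA0 hG0 hρ₀
    hnum.one_le_N hCd htop hsmall hhigh hdisc hbig
  have hr0 : 0 < 2 ^ m * (1 / (4 * X * (4 * (N : ℝ)) ^ (n + 1))) := by positivity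
  refine ⟨M, 2 ^ m * (1 / (4 * X * (4 * (N : ℝ)) ^ (n + 1))), Y₁, hr0, ?_, hsub, hc, fun T hT => ?_, hz⟩
  · -- nonempty
    have hY : 0 < (Fintype.card 𝔖.Y : ℝ) := by
      have := hS.nonempty
      exact_mod_cast Fintype.card_pos
    have hYn : 0 < (Yn.card : ℝ) := by
      by_contra hcon
      have h0 : (Yn.card : ℝ) = 0 := le_antisymm (not_lt.1 hcon) (Nat.cast_nonneg _)
      rw [h0, mul_zero] at hcard
      linarith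
    have hY1 : Y₁.Nonempty := by
      rw [Finset.nonempty_iff_ne_empty]
      intro h0
      rw [h0, Finset.card_empty, Nat.cast_zero, mul_zero] at hc
      linarith
    obtain ⟨z, hz1⟩ := hY1
    have hpos : 0 < ‖𝔖.Ev (n + 1) (𝔖.res M (𝔖.fld S (n + 1))) z‖ := lt_of_lt_of_le (by positivity) (hz z hz1)
    obtain ⟨T, hT⟩ := tsl_mask_nonempty h _ _ _ _ hpos
    obtain ⟨hb, h1, -, -⟩ := hM T hT
    exact le_of_mul_le_mul_right (h1.trans (hmax T)) hb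
  · obtain ⟨hb, h1, h2, h3⟩ := hM T hT
    exact ⟨hb, h1, h2, h3⟩

/-- L-SEL-C6c, **one step of the iteration**.   PLAN: `tsl_next`, `tsl_pick`; `S' = Function.update S (n+1) M`, `r'' = Function.update r (n+1) r'`; `Function.update_self`, `Function.update_of_ne`;
`fld S' j = fld S j`, `am S' j = am S j` for `j ≤ n + 1` (`tsl_fld_congr`, `tsl_am_congr`: `S' i = S i` for `i < j`).   Cases `j ≤ n` / `j = n + 1` (`Nat.le_succ_iff` / `Nat.lt_or_ge`; `subst`). -/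
theorem tsl_step (h : 𝔖.Ok p) (hS : 𝔖.SelHyp p A K X) (hKX : K ≤ X) (hnum : TslNum 𝔖.ℓ p.q K X W p.Rm p.η N) (hG : p.ϖ1 * W ≤ G) (n : ℕ) (hn : n + 1 ≤ 𝔖.ℓ)
    {S : ∀ i, Finset (𝔖.C i)} {r : ℕ → ℝ} {Yn : Finset 𝔖.Y} (hI : 𝔖.TslInv p A X G N n S r Yn) :
    ∃ (S' : ∀ i, Finset (𝔖.C i)) (r' : ℕ → ℝ) (Y' : Finset 𝔖.Y), 𝔖.TslInv p A X G N (n + 1) S' r' Y' := by
  obtain ⟨hmax, hhigh⟩ := tsl_next h hS hKX hnum n hn hI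
  obtain ⟨M, r', Y₁, hr'0, hr'le, hY₁, hcard, hM, hhi⟩ := tsl_pick h hS hKX hnum hG n hn S Yn hI.card_le hmax hhigh
  have hSne : ∀ j, j ≠ n + 1 → Function.update S (n + 1) M j = S j := fun j hj => Function.update_of_ne hj _ _
  have hSeq : Function.update S (n + 1) M (n + 1) = M := Function.update_self _ _ _
  have hrne : ∀ j, j ≠ n + 1 → Function.update r (n + 1) r' j = r j := fun j hj => Function.update_of_ne hj _ _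
  have hreq : Function.update r (n + 1) r' (n + 1) = r' := Function.update_self _ _ _
  have hfld : ∀ j, j ≤ n + 1 → 𝔖.fld (Function.update S (n + 1) M) j = 𝔖.fld S j :=
    fun j hj => tsl_fld_congr _ _ j fun i hi => hSne i (by omega)
  have ham : ∀ j, j ≤ n + 1 → 𝔖.am (Function.update S (n + 1) M) j = 𝔖.am S j :=
    fun j hj => tsl_am_congr _ _ j fun i hi => hSne i (by omega)
  refine ⟨Function.update S (n + 1) M, Function.update r (n + 1) r', Y₁, ?_, ?_, ?_, ?_, ?_, ?_, ?_⟩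
  · intro j
    by_cases hj : j = n + 1
    · subst hj
      rw [hreq]
      exact hr'0
    · rw [hrne j hj]
      exact hI.r_pos j
  · rw [hrne 0 (by omega)]
    exact hI.r_zero
  · intro j hj
    by_cases hj' : j = n + 1
    · subst hj'
      rw [hreq]
      exact hr'le
    · rw [hrne j hj']
      exact hI.r_le j (by omega)
  · intro j hj T hT
    by_cases hj' : j = n + 1
    · subst hj'
      rw [hSeq] at hT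
      rw [hreq, ham _ le_rfl]
      exact ⟨(hM T hT).1, (hM T hT).2.1, (hM T hT).2.2.1⟩
    · rw [hSne j hj'] at hT
      rw [hrne j hj', ham j hj]
      exact hI.ratio j (by omega) T hT
  · intro j hj T hT
    by_cases hj' : j = n + 1
    · subst hj'
      rw [hSeq] at hT
      rw [hreq]
      exact (hM T hT).2.2.2
    · rw [hSne j hj'] at hT
      rw [hrne j hj']
      exact hI.occ_le j (by omega) T hT
  · intro j hj z hz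
    by_cases hj' : j = n + 1
    · subst hj'
      rw [hSeq, hfld _ le_rfl]
      exact hhi z hz
    · rw [hSne j hj', hfld j hj]
      exact hI.high j (by omega) z (hY₁ hz)
  · have hN0 : (0 : ℝ) ≤ (2 * (N : ℝ)) ^ (n + 1) := by positivity
    calc (Fintype.card 𝔖.Y : ℝ) ≤ (2 * (N : ℝ)) ^ (n + 1) * Yn.card := hI.card_le
      _ ≤ (2 * (N : ℝ)) ^ (n + 1) * (2 * N * Y₁.card) := mul_le_mul_of_nonneg_left hcard hN0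
      _ = (2 * (N : ℝ)) ^ (n + 1 + 1) * Y₁.card := by ring

theorem tsl_iter (h : 𝔖.Ok p) (hS : 𝔖.SelHyp p A K X) (hKX : K ≤ X) (hnum : TslNum 𝔖.ℓ p.q K X W p.Rm p.η N) (hG : p.ϖ1 * W ≤ G) :
    ∀ n, n ≤ 𝔖.ℓ → ∃ (S : ∀ i, Finset (𝔖.C i)) (r : ℕ → ℝ) (Yn : Finset 𝔖.Y), 𝔖.TslInv p A X G N n S r Yn := by
  intro n
  induction n with
  | zero => exact fun _ => tsl_base h hS hKX hnum hG
  | succ n ih =>
    intro hn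
    obtain ⟨S, r, Yn, hI⟩ := ih (Nat.le_of_succ_le hn)
    exact tsl_step h hS hKX hnum hG n hn hI

theorem tsl_c7_prod {a b c d e f : ℝ} (ha : 1 ≤ a) (hb : 1 ≤ b) (hc : 1 ≤ c) (hd : 1 ≤ d) (he : 1 ≤ e) (hf : 1 ≤ f) :
    1 ≤ a * (b * c * d * e * f) ∧ c ≤ a * (b * c * d * e * f) ∧ e ≤ a * (b * c * d * e * f) ∧ a * f ≤ a * (b * c * d * e * f) := by
  have h0 : ∀ x y : ℝ, 1 ≤ x → 1 ≤ y → 1 ≤ x * y := fun x y hx hy => one_le_mul_of_one_le_of_one_le hx hy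
  have hbd : 1 ≤ b * d := h0 _ _ hb hd
  refine ⟨h0 _ _ ha (h0 _ _ (h0 _ _ (h0 _ _ (h0 _ _ hb hc) hd) he) hf), ?_, ?_, ?_⟩
  · have h1 : 1 ≤ a * (b * d * e * f) := h0 _ _ ha (h0 _ _ (h0 _ _ hbd he) hf)
    calc c = 1 * c := (one_mul c).symm
      _ ≤ a * (b * d * e * f) * c := mul_le_mul_of_nonneg_right h1 (by linarith)
      _ = _ := by ring
  · have h1 : 1 ≤ a * (b * c * d * f) := h0 _ _ ha (h0 _ _ (h0 _ _ (h0 _ _ hb hc) hd) hf)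
    calc e = 1 * e := (one_mul e).symm
      _ ≤ a * (b * c * d * f) * e := mul_le_mul_of_nonneg_right h1 (by linarith)
      _ = _ := by ring
  · have h1 : 1 ≤ b * c * d * e := h0 _ _ (h0 _ _ (h0 _ _ hb hc) hd) he
    calc a * f = 1 * (a * f) := (one_mul _).symm
      _ ≤ b * c * d * e * (a * f) := mul_le_mul_of_nonneg_right h1 (by nlinarith)
      _ = _ := by ring

/-- L-SEL-C7a: consequences of `TslNum.big` (`1 ≤` all factors; `x ≤ x ^ q` for `1 ≤ x`, `1 ≤ q`: `Real.self_le_rpow_of_one_le`; `Real.one_le_rpow`) -/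
theorem tsl_num_cons {ℓ : ℕ} {q K X W Rm η : ℝ} {N : ℕ} (hq : 2 < q) (hK : 2 ≤ K) (hnum : TslNum ℓ q K X W Rm η N) :
    1 ≤ W ∧ K ^ ℓ ≤ W ∧ (4 * (N : ℝ)) ^ (ℓ + 1) ≤ W ∧ (2 * (N : ℝ)) ^ (ℓ + 1) ≤ W := by
  have hN : (1 : ℝ) ≤ N := by exact_mod_cast hnum.one_le_N
  have hK1 : 1 ≤ K := by linarith
  have h4 : 1 ≤ (4 * (N : ℝ)) ^ (ℓ + 1) := one_le_pow₀ (by linarith)
  obtain ⟨a1, a2, a3, a4⟩ := tsl_c7_prod (a := 2 * (N : ℝ)) (b := 4 ^ q) (c := K ^ (ℓ + 2)) (d := K ^ (q / 2 - 1))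
    (e := ((4 * (N : ℝ)) ^ (ℓ + 1)) ^ q) (f := (2 * (N : ℝ)) ^ ℓ) (by linarith) (Real.one_le_rpow (by norm_num) (by linarith))
    (one_le_pow₀ hK1) (Real.one_le_rpow hK1 (by linarith)) (Real.one_le_rpow h4 (by linarith)) (one_le_pow₀ (by linarith))
  refine ⟨a1.trans hnum.big, ?_, ?_, ?_⟩
  · exact (pow_le_pow_right₀ hK1 (by omega)).trans (a2.trans hnum.big)
  · exact (Real.self_le_rpow_of_one_le h4 (by linarith)).trans (a3.trans hnum.big)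
  · rw [pow_succ']
    exact a4.trans hnum.big

/-- L-SEL-C7b, **the frozen tree**.   `r_pos, r_zero, ratio, occ_le`: `hI`;  `bud_le`: `tsl_bud_le`, `L^j ≤ K^ℓ ≤ W` (`tsl_num_cons`), `0 ≤ D`;  `le_bud`: `tsl_le_bud`;
`high`: `hI.high`, `(4N)^j (2N) ≤ (4N)^{ℓ+1} ≤ W` (`div_le_iff₀`);  `card_le`: `hI.card_le`, `(2N)^{ℓ+1} ≤ W`. -/
theorem tsl_frozen (h : 𝔖.Ok p) (hS : 𝔖.SelHyp p A K X) (hKX : K ≤ X) (hnum : TslNum 𝔖.ℓ p.q K X W p.Rm p.η N)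
    {S : ∀ i, Finset (𝔖.C i)} {r : ℕ → ℝ} {Yf : Finset 𝔖.Y} (hI : 𝔖.TslInv p A X G N 𝔖.ℓ S r Yf) : 𝔖.Frozen p.q A W G S r Yf := by
  obtain ⟨w1, w2, w3, w4⟩ := tsl_num_cons h.q_gt hS.two_le_K hnum
  have hN : (1 : ℝ) ≤ N := by exact_mod_cast hnum.one_le_N
  have hK1 : 1 ≤ K := by linarith [hS.two_le_K]
  have hD : 0 ≤ 𝔖.D := by
    unfold D en
    exact Finset.sum_nonneg fun T _ => mul_nonneg (h.vol_pos 0).le (sq_nonneg _)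
  refine ⟨hI.r_pos, hI.r_zero, hI.ratio, hI.occ_le, ?_, fun i hi => tsl_le_bud h hS hKX hnum hI i hi, ?_, ?_⟩
  · intro i hi
    refine (tsl_bud_le h S (fun j => 2 * r j) 𝔖.ℓ le_rfl (fun j hj T hT => (hI.ratio j hj T hT).2.2) i hi).trans ?_
    refine mul_le_mul_of_nonneg_right ?_ hD
    calc p.L ^ i ≤ K ^ i := pow_le_pow_left₀ (by linarith [h.one_le_L]) hS.L_le i
      _ ≤ K ^ 𝔖.ℓ := pow_le_pow_right₀ hK1 hi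
      _ ≤ W := w2
  · intro i hi z hz
    have h1 := hI.high i hi z hz
    have hp : 0 < (4 * (N : ℝ)) ^ i := by positivity
    have h2N : 0 < 2 * (N : ℝ) := by linarith
    rw [div_le_iff₀ h2N, div_le_iff₀ hp] at h1
    refine h1.trans ?_
    have h2 : (2 * (N : ℝ)) * (4 * (N : ℝ)) ^ i ≤ W := by
      calc (2 * (N : ℝ)) * (4 * (N : ℝ)) ^ i ≤ (4 * (N : ℝ)) * (4 * (N : ℝ)) ^ i := mul_le_mul_of_nonneg_right (by linarith) hp.le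
        _ = (4 * (N : ℝ)) ^ (i + 1) := (pow_succ' _ _).symm
        _ ≤ (4 * (N : ℝ)) ^ (𝔖.ℓ + 1) := pow_le_pow_right₀ (by linarith) (by omega)
        _ ≤ W := w3
    calc _ = (2 * (N : ℝ)) * (4 * (N : ℝ)) ^ i * ‖𝔖.Ev i (𝔖.res (S i) (𝔖.fld S i)) z‖ := by ring
      _ ≤ _ := mul_le_mul_of_nonneg_right h2 (norm_nonneg _)
  · exact hI.card_le.trans (mul_le_mul_of_nonneg_right w4 (Nat.cast_nonneg _))

end TSys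

/-! ## 4. Numerics -/

theorem tsl_d1_one_le_log {X : ℝ} (hX : 3 ≤ X) : 1 ≤ Real.log X := by
  rw [Real.le_log_iff_exp_le (by linarith)]
  have := Real.exp_one_lt_d9
  linarith

theorem tsl_d1_poly (ℓ : ℕ) : ∃ M₀ : ℕ, ∀ M : ℕ, M₀ ≤ M → (8 * (M : ℝ)) ^ ℓ < 2 ^ M := by
  have h1 := (tendsto_pow_const_div_const_pow_of_one_lt ℓ (by norm_num : (1 : ℝ) < 2)).eventually
    (gt_mem_nhds (show (0 : ℝ) < (1 / 8) ^ ℓ by positivity))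
  obtain ⟨M₀, hM₀⟩ := Filter.eventually_atTop.1 h1
  refine ⟨M₀, fun M hM => ?_⟩
  have h2 := hM₀ M hM
  rw [div_lt_iff₀ (by positivity)] at h2
  calc (8 * (M : ℝ)) ^ ℓ = 8 ^ ℓ * (M : ℝ) ^ ℓ := mul_pow _ _ _
    _ < 8 ^ ℓ * ((1 / 8) ^ ℓ * 2 ^ M) := mul_lt_mul_of_pos_left h2 (by positivity)
    _ = 2 ^ M := by
      rw [← mul_assoc, ← mul_pow]
      norm_num

theorem tsl_d1_exp {X : ℝ} (hX : 3 ≤ X) (ℓ M : ℕ) (hM : 2 + 2 * (2 * (ℓ : ℝ) + 1) * Real.log X ≤ M) :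
    4 * X ^ (2 * ℓ + 1) ≤ 2 ^ M := by
  have hX0 : 0 < X := by linarith
  have hl := tsl_d1_one_le_log hX
  rw [← Real.log_le_log_iff (by positivity) (by positivity), Real.log_mul (by norm_num) (by positivity), Real.log_pow, Real.log_pow,
    show (4 : ℝ) = 2 ^ 2 by norm_num, Real.log_pow]
  have h2 : (1 : ℝ) / 2 ≤ Real.log 2 := by
    have := Real.log_two_gt_d9
    linarith
  push_cast
  have h3 : 0 ≤ (2 * (ℓ : ℝ) + 1) * Real.log X := by positivity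
  nlinarith

/-- L-SEL-D1, **the number of classes**.   PLAN: `N = 2 M`, `M = max M₀ ⌈2 + 2 (2ℓ+1) log X⌉₊`.   (i) `∃ M₀, ∀ M ≥ M₀, (8 M)^ℓ < 2^M` (`tendsto_pow_const_div_const_pow_of_one_lt ℓ (r := 2)` → eventually `M^ℓ / 2^M < 8^{-ℓ}`);
(ii) `4 X^{2ℓ+1} ≤ 2^M`: `2^M = exp (M log 2)`, `1/2 ≤ log 2` (`Real.log_two_gt_d9`), `X^{2ℓ+1} = exp ((2ℓ+1) log X)`;  `2^N = 2^M 2^M`.   `N ≤ 2 M₀ + 6 + 4 (2ℓ+1) log X ≤ c₂ log X` as `1 ≤ log X` (`X ≥ 3 > e`: `Real.exp_one_lt_d9`, `Real.lt_log_iff_exp_lt`). -/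
theorem tsl_num_N (ℓ : ℕ) : ∃ c₂ : ℕ, ∀ X : ℝ, 3 ≤ X → ∃ N : ℕ, 1 ≤ N ∧ (N : ℝ) ≤ c₂ * Real.log X ∧ 4 * X * (4 * (N : ℝ)) ^ ℓ * X ^ (2 * ℓ) < 2 ^ N := by
  obtain ⟨M₀, hM₀⟩ := tsl_d1_poly ℓ
  refine ⟨2 * M₀ + 6 + 4 * (2 * ℓ + 1), fun X hX => ?_⟩
  have hX0 : 0 < X := by linarith
  have hl := tsl_d1_one_le_log hX
  obtain ⟨y, hy⟩ : ∃ y : ℝ, y = 2 + 2 * (2 * (ℓ : ℝ) + 1) * Real.log X := ⟨_, rfl⟩
  have hy0 : 2 ≤ y := by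
    rw [hy]
    have : 0 ≤ 2 * (2 * (ℓ : ℝ) + 1) * Real.log X := by positivity
    linarith
  obtain ⟨M, hM⟩ : ∃ M : ℕ, M = max M₀ ⌈y⌉₊ := ⟨_, rfl⟩
  have hM1 : M₀ ≤ M := hM ▸ le_max_left _ _
  have hM2 : y ≤ M := (Nat.le_ceil y).trans (by exact_mod_cast hM ▸ le_max_right _ _)
  have hM3 : (M : ℝ) ≤ M₀ + (y + 1) := by
    have h1 : (⌈y⌉₊ : ℝ) < y + 1 := Nat.ceil_lt_add_one (by linarith)
    have h2 : M ≤ M₀ + ⌈y⌉₊ := by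
      rw [hM]
      exact max_le (Nat.le_add_right _ _) (Nat.le_add_left _ _)
    have h3 : (M : ℝ) ≤ (M₀ : ℝ) + (⌈y⌉₊ : ℝ) := by exact_mod_cast h2
    linarith
  refine ⟨2 * M, ?_, ?_, ?_⟩
  · have : (2 : ℝ) ≤ M := hy0.trans hM2
    have h2 : 2 ≤ M := by exact_mod_cast this
    omega
  · push_cast
    have h0 : (0 : ℝ) ≤ (M₀ : ℝ) := Nat.cast_nonneg _
    rw [hy] at hM3
    have h4 : (2 * (M₀ : ℝ) + 6) ≤ (2 * (M₀ : ℝ) + 6) * Real.log X := le_mul_of_one_le_right (by positivity) hl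
    nlinarith
  · have ha := tsl_d1_exp hX ℓ M (hy ▸ hM2)
    have hb := hM₀ M hM1
    have e1 : 4 * X * (4 * ((2 * M : ℕ) : ℝ)) ^ ℓ * X ^ (2 * ℓ) = 4 * X ^ (2 * ℓ + 1) * (8 * (M : ℝ)) ^ ℓ := by
      push_cast
      rw [show 4 * (2 * (M : ℝ)) = 8 * (M : ℝ) by ring]
      ring
    rw [e1, two_mul M, pow_add 2 M M]
    calc 4 * X ^ (2 * ℓ + 1) * (8 * (M : ℝ)) ^ ℓ < 4 * X ^ (2 * ℓ + 1) * 2 ^ M := mul_lt_mul_of_pos_left hb (by positivity)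
      _ ≤ 2 ^ M * 2 ^ M := mul_le_mul_of_nonneg_right ha (by positivity)

theorem tsl_d2_rpow_le {x q : ℝ} {Q : ℕ} (hx : 1 ≤ x) (hq : q ≤ Q) : x ^ q ≤ x ^ Q := by
  calc x ^ q ≤ x ^ (Q : ℝ) := Real.rpow_le_rpow_of_exponent_le hx hq
    _ = x ^ Q := Real.rpow_natCast x Q

theorem tsl_d2_cast_le_pow (n : ℕ) {b : ℝ} (hb : 2 ≤ b) : (n : ℝ) ≤ b ^ n := by
  have h1 : n ≤ 2 ^ n := Nat.lt_two_pow_self.le
  have h2 : (n : ℝ) ≤ (2 : ℝ) ^ n := by exact_mod_cast h1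
  exact h2.trans (pow_le_pow_left₀ (by norm_num) hb n)

theorem tsl_d2_four_N {c₂ N : ℕ} {lam b : ℝ} (hN : (N : ℝ) ≤ c₂ * lam) (hl0 : 0 ≤ lam) (hl : lam ≤ b) (hb : 2 ≤ b) :
    4 * (N : ℝ) ≤ b ^ (c₂ + 3) := by
  have h4 : (4 : ℝ) ≤ b ^ 2 := by nlinarith
  have hc := tsl_d2_cast_le_pow c₂ hb
  have hb0 : 0 ≤ b := by linarith
  calc 4 * (N : ℝ) ≤ 4 * (c₂ * lam) := by linarith
    _ ≤ b ^ 2 * (b ^ c₂ * b) := by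
      refine mul_le_mul h4 (mul_le_mul hc hl hl0 (by positivity)) (by positivity) (by positivity)
    _ = b ^ (c₂ + 3) := by ring

/-- L-SEL-D2, **the numerics of the selection**.   PLAN: `c₂`, `N` from `tsl_num_N`; `Q = ⌈q⌉₊`.   `c₂ ≤ 2^{c₂} ≤ K^{c₂}, X^{c₂}`; `4 ≤ K²`, `4 ≤ X²`; `log X ≤ X`; `1 ≤ log X`.   With `B = K log X ≥ 2`: `4 N ≤ B^{c₂+2}`, `K ≤ B`;
`x^q ≤ x^Q`, `K^{q/2-1} ≤ K^Q` (`Real.rpow_le_rpow_of_exponent_le`, `Real.rpow_natCast`, `Nat.le_ceil`), so LHS of `big` `≤ B^{e}` with an explicit `e = e(ℓ, Q, c₂)`; `4 N ≤ X^{c₂+3}`, LHS of `rm` `≤ X^{e'}`; `ℓ + 1 ≤ 2^{ℓ+1} ≤ X^{ℓ+1}`.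
`c = max` of the exponents; `pow_le_pow_right₀`. -/
theorem tsl_num (q : ℝ) (hq : 2 < q) (ℓ : ℕ) : ∃ c : ℕ, ∀ K X Rm η : ℝ, 2 ≤ K → 3 ≤ X → K ≤ X → 0 ≤ η →
    X ^ c ≤ Rm → η * X ^ c ≤ 1 → ∃ N : ℕ, TslNum ℓ q K X ((K * Real.log X) ^ c) Rm η N := by
  obtain ⟨c₂, hc₂⟩ := tsl_num_N ℓ
  obtain ⟨Q, hQ⟩ : ∃ Q : ℕ, Q = ⌈q⌉₊ := ⟨_, rfl⟩
  have hqQ : q ≤ Q := hQ ▸ Nat.le_ceil q
  obtain ⟨m, hm⟩ : ∃ m : ℕ, m = c₂ + 3 := ⟨_, rfl⟩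
  obtain ⟨e, he⟩ : ∃ e : ℕ, e = m + (2 * Q + (ℓ + 2) + Q + m * (ℓ + 1) * Q + m * ℓ) := ⟨_, rfl⟩
  obtain ⟨e', he'⟩ : ∃ e' : ℕ, e' = m * (ℓ + 2) + (3 * ℓ + 3) := ⟨_, rfl⟩
  refine ⟨e + (e' + (ℓ + 1)), ?_⟩
  intro K X Rm η hK hX hKX hη hRm hηX
  obtain ⟨N, hN1, hNle, htop⟩ := hc₂ X hX
  have hX0 : 0 < X := by linarith
  have hX1 : 1 ≤ X := by linarith
  have hl1 : 1 ≤ Real.log X := by
    rw [Real.le_log_iff_exp_le hX0]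
    have := Real.exp_one_lt_d9
    linarith
  have hlX : Real.log X ≤ X := (Real.log_le_sub_one_of_pos hX0).trans (by linarith)
  obtain ⟨B, hB⟩ : ∃ B : ℝ, B = K * Real.log X := ⟨_, rfl⟩
  have hKB : K ≤ B := by
    rw [hB]
    exact le_mul_of_one_le_right (by linarith) hl1
  have hlB : Real.log X ≤ B := by
    rw [hB]
    exact le_mul_of_one_le_left (by linarith) (by linarith)
  have hB2 : 2 ≤ B := hK.trans hKB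
  have hB1 : 1 ≤ B := by linarith
  have hN1' : (1 : ℝ) ≤ N := by exact_mod_cast hN1
  have h4B : 4 * (N : ℝ) ≤ B ^ m := hm ▸ tsl_d2_four_N hNle (by linarith) hlB hB2
  have h4X : 4 * (N : ℝ) ≤ X ^ m := hm ▸ tsl_d2_four_N hNle (by linarith) hlX (by linarith)
  have h2B : 2 * (N : ℝ) ≤ B ^ m := le_trans (by linarith) h4B
  have h41 : 1 ≤ 4 * (N : ℝ) := by linarith
  have hrm0 : (4 * (N : ℝ)) ^ (ℓ + 2) * X ^ (3 * ℓ + 3) ≤ X ^ e' := by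
    calc (4 * (N : ℝ)) ^ (ℓ + 2) * X ^ (3 * ℓ + 3) ≤ (X ^ m) ^ (ℓ + 2) * X ^ (3 * ℓ + 3) :=
          mul_le_mul_of_nonneg_right (pow_le_pow_left₀ (by linarith) h4X _) (by positivity)
      _ = X ^ e' := by rw [he', ← pow_mul, ← pow_add]
  refine ⟨N, hN1, htop, ?_, ?_, ?_⟩
  · exact hrm0.trans ((pow_le_pow_right₀ hX1 (by omega)).trans hRm)
  · have h1 : ((ℓ : ℝ) + 1) ≤ X ^ (ℓ + 1) := by
      have := tsl_d2_cast_le_pow (ℓ + 1) (b := X) (by linarith)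
      push_cast at this
      exact this
    calc η * (ℓ + 1) * ((4 * (N : ℝ)) ^ (ℓ + 2) * X ^ (3 * ℓ + 3)) ≤ η * X ^ (ℓ + 1) * X ^ e' := by
          refine mul_le_mul (mul_le_mul_of_nonneg_left h1 hη) hrm0 (by positivity) (by positivity)
      _ = η * X ^ (e' + (ℓ + 1)) := by rw [pow_add]; ring
      _ ≤ η * X ^ (e + (e' + (ℓ + 1))) := mul_le_mul_of_nonneg_left (pow_le_pow_right₀ hX1 (by omega)) hη
      _ ≤ 1 := hηX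
  · rw [← hB]
    have f1 : (4 : ℝ) ^ q ≤ B ^ (2 * Q) := by
      calc (4 : ℝ) ^ q ≤ 4 ^ Q := tsl_d2_rpow_le (by norm_num) hqQ
        _ ≤ (B ^ 2) ^ Q := pow_le_pow_left₀ (by norm_num) (by nlinarith) _
        _ = B ^ (2 * Q) := by rw [← pow_mul]
    have f2 : K ^ (ℓ + 2) ≤ B ^ (ℓ + 2) := pow_le_pow_left₀ (by linarith) hKB _
    have f3 : K ^ (q / 2 - 1) ≤ B ^ Q := by
      calc K ^ (q / 2 - 1) ≤ K ^ Q := tsl_d2_rpow_le (by linarith) (le_trans (by linarith) hqQ)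
        _ ≤ B ^ Q := pow_le_pow_left₀ (by linarith) hKB _
    have f4 : ((4 * (N : ℝ)) ^ (ℓ + 1)) ^ q ≤ B ^ (m * (ℓ + 1) * Q) := by
      calc ((4 * (N : ℝ)) ^ (ℓ + 1)) ^ q ≤ ((4 * (N : ℝ)) ^ (ℓ + 1)) ^ Q := tsl_d2_rpow_le (one_le_pow₀ h41) hqQ
        _ ≤ ((B ^ m) ^ (ℓ + 1)) ^ Q := pow_le_pow_left₀ (by positivity) (pow_le_pow_left₀ (by linarith) h4B _) _
        _ = B ^ (m * (ℓ + 1) * Q) := by rw [← pow_mul, ← pow_mul, mul_assoc]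
    have f5 : (2 * (N : ℝ)) ^ ℓ ≤ B ^ (m * ℓ) := by
      calc (2 * (N : ℝ)) ^ ℓ ≤ (B ^ m) ^ ℓ := pow_le_pow_left₀ (by linarith) h2B _
        _ = B ^ (m * ℓ) := by rw [← pow_mul]
    have g1 : (0 : ℝ) ≤ (4 : ℝ) ^ q := by positivity
    have g3 : (0 : ℝ) ≤ K ^ (q / 2 - 1) := Real.rpow_nonneg (by linarith) _
    have g4 : (0 : ℝ) ≤ ((4 * (N : ℝ)) ^ (ℓ + 1)) ^ q := Real.rpow_nonneg (by positivity) _
    have hK0 : 0 ≤ K := by linarith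
    calc 2 * (N : ℝ) * (4 ^ q * K ^ (ℓ + 2) * K ^ (q / 2 - 1) * ((4 * (N : ℝ)) ^ (ℓ + 1)) ^ q * (2 * (N : ℝ)) ^ ℓ)
        ≤ B ^ m * (B ^ (2 * Q) * B ^ (ℓ + 2) * B ^ Q * B ^ (m * (ℓ + 1) * Q) * B ^ (m * ℓ)) := by
          refine mul_le_mul h2B ?_ (by positivity) (by positivity)
          refine mul_le_mul ?_ f5 (by positivity) (by positivity)
          refine mul_le_mul ?_ f4 g4 (by positivity)
          refine mul_le_mul ?_ f3 g3 (by positivity)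
          exact mul_le_mul f1 f2 (by positivity) (by positivity)
      _ = B ^ e := by rw [he]; simp only [pow_add]
      _ ≤ B ^ (e + (e' + (ℓ + 1))) := pow_le_pow_right₀ hB1 (by omega)

/-- **U3, finite-grid selection** (`f:selection`). -/
theorem tsl_select (q : ℝ) (hq : 2 < q) (ℓ : ℕ) : ∃ c : ℕ, ∀ (𝔖 : TSys) (p : TPar) (A K X G : ℝ), 𝔖.ℓ = ℓ → p.q = q → 𝔖.Ok p → 𝔖.SelHyp p A K X → K ≤ X →
    p.ϖ1 * (K * Real.log X) ^ c ≤ G → X ^ c ≤ p.Rm → p.η * X ^ c ≤ 1 →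
    ∃ (S : ∀ i, Finset (𝔖.C i)) (r : ℕ → ℝ) (Yf : Finset 𝔖.Y), 𝔖.Frozen q A ((K * Real.log X) ^ c) G S r Yf := by
  obtain ⟨c, H⟩ := tsl_num q hq ℓ
  refine ⟨c, ?_⟩
  intro 𝔖 p A K X G hℓ hpq h hS hKX hG hRm hη
  obtain ⟨N, hnum⟩ := H K X p.Rm p.η hS.two_le_K hS.three_le_X hKX h.η_nonneg hRm hη
  subst hℓ
  subst hpq
  obtain ⟨S, r, Yf, hI⟩ := TSys.tsl_iter h hS hKX hnum hG 𝔖.ℓ le_rfl
  exact ⟨S, r, Yf, TSys.tsl_frozen h hS hKX hnum hI⟩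

end

end Claimed.Agent.R257.FR2
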