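import Claimed.Agent.R257.FR2.SelC
import Claimed.Agent.R257.FR2.Prof

/-!
# ROW 257, package FR2, file 2: EXPORT CONTRACTS of units SEL (U1-U3, `f:selection`) and PROF (U4, finite half of `f:profiles`)      (captain helper41)

Paper-free; everything is a consequence of `TSys.Ok`.   Paper: H `frame.tex` l.600-754.   The constant `c` depends only on `q` and on the number of layers.
THE STATEMENTS BELOW ARE THE INTERFACE to PATH, ANG, U5, FR3: their architects (SEL: helper57, PROF: helper94) may strengthen conclusions / repair hypotheses, but tell helper41 at once.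
Proofs go to `FR2/Sel*.lean`, `FR2/Prof*.lean` (import this file's `Sys`, then this file cites them: move the statements if convenient).

PLAN of `ts_discard` (l.632-660): propagate the error family through the masks with `hier` (reference weights, `dom`, `eh_le`; `bud` decreases under `resA`), keep `a ≤ ρ_d b` with `cauchy` (`ρ_{d+1}² = Γ ρ_d²`),
positivity `a_T ≠ 0 → 0 < b_T` by the same induction, then `root` with `ϖ = ϖ0` (`sq_le`).
PLAN of `ts_select` (l.662-705), stage `i` (from `i = 0` upwards), current threshold `A_i`, current witnesses `Y_i`: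
 (0) `Ev i (res S_i g_i)` is `≥ A_i` on `Y_i`; `g_{i+1} = asm i (res S_i g_i)`; `junk`: `Ev (i+1) g_{i+1}` is `≥ A_i - η…`.
 (1) classes of `ρ_T = a_T / b_T`: `ρ_T < ρ_min` (negligible: `cauchy_root`, `sq_le`), dyadic classes `[2^m ρ_min, 2^{m+1} ρ_min)`, `m < N`, none above `ρ_max = 2 √Γ r_i` (`cauchy`, `dom`).
 (2) in every class delete the cells with `occ > G |T| (r/A)^q`: `∑_bad b² ≤ ϖ1 |Y| / (G M)` (`inc_le`, double counting), budget `≤ 2^q ϖ1 |Y| A^q / G`, `ts_discard` (full masks above).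
 (3) pigeonhole a class: `A_{i+1} = A_i / (4N)`, `|Y_{i+1}| ≥ |Y_i| / (2N)`.
 (4) `bud_le`: `hier` along the tree; `le_bud`: `ts_discard` for the whole selected field + `balance`.
-/

set_option autoImplicit false

namespace Claimed.Agent.R257.FR2

open scoped BigOperators Classical

noncomputable section

namespace TSys

variable (𝔖 : TSys)

/- `GamProd p i` = product of the Cauchy constants of the steps `i, …, ℓ - 1`: now in `FR2/SelA.lean` -/

/-- **U1, the discard estimate** (f:discard): an error family `g` of height `i` (actual amplitudes `a ≤ ρ b`), propagated through ANY fixed masks `S` above it, is `≥ θ` at few witnesses. -/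
theorem ts_discard (p : TPar) (h : 𝔖.Ok p) (S : ∀ i, Finset (𝔖.C i)) (i d : ℕ) (hid : i + d = 𝔖.ℓ) (g : 𝔖.C i → 𝔖.F) (a : 𝔖.C i → ℝ) (hg : 𝔖.Adm i g a)
    (ρ θ : ℝ) (hθ : 0 < θ) (hρ : ∀ T, a T ≤ ρ * 𝔖.b i T) (hR : ρ ^ 2 * 𝔖.GamProd p i * p.Γr 𝔖.ℓ * p.ϖ0 ≤ (p.Rm * θ) ^ 2) :
    ((Finset.univ.filter fun z => θ ≤ ‖𝔖.Ev (i + d) (𝔖.res (S (i + d)) (𝔖.prop S i g d)) z‖).card : ℝ)
      ≤ p.L0 * p.L ^ d * p.ϖ0 ^ (p.q / 2 - 1) * θ ^ (-p.q) * 𝔖.bud p.q i a (𝔖.b i) :=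
  tsl_discard h S i d hid g a hg ρ θ hθ hρ hR

/-- **U1', the discard estimate before the upper layers are assembled**: the root field `Ev i g` of the family itself (all cells of the upper layers retained, `junk`). -/
theorem ts_discard_now (p : TPar) (h : 𝔖.Ok p) (i : ℕ) (hi : i ≤ 𝔖.ℓ) (g : 𝔖.C i → 𝔖.F) (a : 𝔖.C i → ℝ) (hg : 𝔖.Adm i g a)
    (ρ θ : ℝ) (hθ : 0 < θ) (hρ : ∀ T, a T ≤ ρ * 𝔖.b i T) (hR : ρ ^ 2 * 𝔖.GamProd p i * p.Γr 𝔖.ℓ * p.ϖ0 ≤ (p.Rm * θ / 2) ^ 2)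
    (hη : (p.η * 𝔖.ℓ) ^ 2 * (ρ ^ 2 * 𝔖.GamProd p i * p.ϖ0) ≤ (θ / 2) ^ 2) :
    ((Finset.univ.filter fun z => θ ≤ ‖𝔖.Ev i g z‖).card : ℝ)
      ≤ 2 ^ p.q * p.L0 * p.L ^ (𝔖.ℓ - i) * p.ϖ0 ^ (p.q / 2 - 1) * θ ^ (-p.q) * 𝔖.bud p.q i a (𝔖.b i) :=
  tsl_discard_now h i hi g a hg ρ θ hθ hρ hR hη

end TSys

/-- **U3, finite-grid selection** (`f:selection`).   ORDER OF THE TOLERANCES (acyclic): norm losses `K` → loss `(K log X)^c` of the frozen tree (thresholds, witnesses, budgets: INDEPENDENT of `ϖ1`, `G`)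
→ lower bound of the path mass (PATH) → distance cut-off in `inc` (`εf` small against that bound) → `ϖ1` → occupancy cut-off `G ≥ ϖ1 (K log X)^c`.
REPAIRED (helper57): hypothesis `K ≤ X` ADDED (`Rm ≥ X^c` must beat `√ϖ0 ≤ √K` in the range condition of `root`).   Proof: `FR2/SelA, SelB, SelC.lean`. -/
theorem ts_select (q : ℝ) (hq : 2 < q) (ℓ : ℕ) : ∃ c : ℕ, ∀ (𝔖 : TSys) (p : TPar) (A K X G : ℝ), 𝔖.ℓ = ℓ → p.q = q → 𝔖.Ok p → 𝔖.SelHyp p A K X → K ≤ X →
    p.ϖ1 * (K * Real.log X) ^ c ≤ G → X ^ c ≤ p.Rm → p.η * X ^ c ≤ 1 →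
    ∃ (S : ∀ i, Finset (𝔖.C i)) (r : ℕ → ℝ) (Yf : Finset 𝔖.Y), 𝔖.Frozen q A ((K * Real.log X) ^ c) G S r Yf :=
  tsl_select q hq ℓ

/-! The finite half of `f:profiles` and (f:Esat), (f:Bcharge) are PROVED in `FR2/Prof.lean` (helper94), statements verbatim: `TSys.ts_en_le`, `TSys.ts_le_en`, `TSys.ts_bcharge`, `TSys.ts_prof_cauchy`, `TSys.ts_prof_mono`, `TSys.ts_prof_root`, `TSys.ts_prof_sample`. -/

end

end Claimed.Agent.R257.FR2
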