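import Mathlib

/-!
# ROW 257 (S0497), package FR2 (H `frame.tex` l.578-1139), file 1: THE ABSTRACT LAYERED PACKET SYSTEM      (captain + architect helper41)

Paper-free.  Mathlib only.  NOTHING is sorried in this file (definitions + trivial API).

DESIGN.  The "finite scale tree with frozen masks and fresh amplitudes" of the paper is NOT formalised as a tree of functions.  All of `f:selection`, `f:profiles`, `f:paths`, `f:angular` use only
ONE-STEP facts about the operator "assemble the child packets of a parent cap, localise on the parent grid, take the weighted supremum as new amplitude" (`p:hierarchy`, `p:weighted`, `p:convolution`, `p:near-cauchy`).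
`TSys` = the data of such a system for ONE field, `TSys.Ok` = the one-step facts with EXPLICIT constants.   No `ε`, no limits, no `Λ^{o(1)}` here: all losses are explicit real parameters;
limits are taken only in unit U5 / package FR3.   The instance (concrete packets) is unit INST (with PK2, FR1).

HEIGHTS.  `i = 0` = the LEAVES (finest frequency resolution, largest physical cells: scale `h` or `K₀`); `i + 1` = the parents of height `i`; `i = ℓ` = the coarsest layer of the grid (next to the root / to the gap edge).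
(The paper's parameter `s` DECREASES when the height increases.)   Heights `> ℓ` are junk.
* `C i`         the cells (cap + native lattice cell) of height `i` in a finite window around the witnesses;   at the transition height: only the ORIGINAL retained transition masks.
* `Y`           the witnesses (distinct unit cubes).
* `F`           the fields (functions on space-time); a FAMILY of height `i` is `g : C i → F`; restriction to a mask `S` = `res S g`.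
* `Pk i T a f`  "`f` is a packet of the class at height `i` in the cell `T` with amplitude `≤ a`".
* `asm i g T`   the output packet `χ_T · ∑_{T' in the cap of T} g T'`;   `amp i g T` its FRESH amplitude (weighted supremum of the pre-cutoff field).
* `ev i T f z`  the contribution of the packet `f` of the cell `T` to the root field at the witness `z` (through the fixed transition masks if `i` is below the transition height).
* `w i T z`     the positive kernel from height `i` to the root (`w_T(z)`; two-step kernel through the transition masks below the transition height).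
* `wh T z`      the kernel of the top layer with the larger fixed order `Q` (`wh ≤ w ℓ`): the root count holds with it.
* `e i T' T`    the sampling weight `w_{T'}(z_T)` (order `P`; `0` if the caps are not nested);  `eh ≤ e` the same with the larger fixed order `Q` (edge reserve, macro weights).
* `b i T`       the REFERENCE weights (full descendant squares / clipped at and above the transition);  `b 0` = the input sizes of the leaves.
* `inc i z T`   "`z` is an eligible witness in the prescribed enlargement of `T`".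
-/

set_option autoImplicit false

namespace Claimed.Agent.R257.FR2

open scoped BigOperators Classical

noncomputable section

/-- the data of a layered packet system (one field) -/
structure TSys where
  ℓ : ℕ
  C : ℕ → Type
  fC : ∀ i, Fintype (C i)
  Y : Type
  fY : Fintype Y
  F : Type
  aF : AddCommGroup F
  vol : ℕ → ℝ
  Pk : ∀ i, C i → ℝ → F → Prop
  asm : ∀ i, (C i → F) → C (i + 1) → F
  amp : ∀ i, (C i → F) → C (i + 1) → ℝ
  ev : ∀ i, C i → F → Y → ℂ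
  w : ∀ i, C i → Y → ℝ
  wh : C ℓ → Y → ℝ
  e : ∀ i, C i → C (i + 1) → ℝ
  eh : ∀ i, C i → C (i + 1) → ℝ
  b : ∀ i, C i → ℝ
  inc : ∀ i, Y → C i → Prop
  g0 : C 0 → F

attribute [instance] TSys.fC TSys.fY TSys.aF

/-- the explicit constants of a system -/
structure TPar where
  /-- the critical exponent `q = 2(k+2)/k` -/
  q : ℝ
  /-- loss of one hierarchy step, `C_ε (κ'/κ)^ε` -/
  L : ℝ
  /-- Cauchy constant of the step `i → i+1`, `C (κ_i/κ_{i+1})^k` -/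
  Γ : ℕ → ℝ
  /-- Cauchy constant from height `i` to the root, `C κ_i^k` -/
  Γr : ℕ → ℝ
  /-- `L²` orthogonality constant of one step -/
  Γ2 : ℝ
  /-- smallness of the part of the partition of unity outside the window -/
  η : ℝ
  /-- loss of the root count -/
  L0 : ℝ
  /-- range of the near-Cauchy parameter in which the root count holds with the loss `L0` -/
  Rm : ℝ
  /-- bound of the reference square function at the witnesses -/
  ϖ0 : ℝ
  /-- bound of the reference squares of the cells incident to a witness -/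
  ϖ1 : ℝ

namespace TSys

variable (𝔖 : TSys)

/-- restriction of a family to a mask -/
def res {i : ℕ} (S : Finset (𝔖.C i)) (g : 𝔖.C i → 𝔖.F) : 𝔖.C i → 𝔖.F := fun T => if T ∈ S then g T else 0

/-- restriction of amplitudes / weights to a mask -/
def resA {i : ℕ} (S : Finset (𝔖.C i)) (a : 𝔖.C i → ℝ) : 𝔖.C i → ℝ := fun T => if T ∈ S then a T else 0

/-- the root field of a family -/
def Ev (i : ℕ) (g : 𝔖.C i → 𝔖.F) (z : 𝔖.Y) : ℂ := ∑ T, 𝔖.ev i T (g T) z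

/-- `g` is a family of packets with amplitudes `≤ a` -/
def Adm (i : ℕ) (g : 𝔖.C i → 𝔖.F) (a : 𝔖.C i → ℝ) : Prop := ∀ T, 𝔖.Pk i T (a T) (g T)

/-- the weighted `p`-budget `∑_T |T| a_T^p b_T^{2-p}` -/
def bud (p : ℝ) (i : ℕ) (a b : 𝔖.C i → ℝ) : ℝ := ∑ T, 𝔖.vol i * a T ^ p * b T ^ (2 - p)

/-- the energy `∑_T |T| a_T^2` -/
def en (i : ℕ) (a : 𝔖.C i → ℝ) : ℝ := ∑ T, 𝔖.vol i * a T ^ 2

/-- the square function at a witness, `∑_T a_T^2 w_T(z)` -/
def sq (i : ℕ) (a : 𝔖.C i → ℝ) (z : 𝔖.Y) : ℝ := ∑ T, a T ^ 2 * 𝔖.w i T z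

/-- the energy parameter of the leaves, `D = |T| ∑ s_T^2` -/
def D : ℝ := 𝔖.en 0 (𝔖.b 0)

/-- number of eligible witnesses of a cell -/
def occ (i : ℕ) (T : 𝔖.C i) : ℕ := (Finset.univ.filter fun z => 𝔖.inc i z T).card

/-- the families of the tree with the masks `S` (the family of height `i + 1` depends on `S 0, …, S i`; it is NOT yet restricted to `S (i+1)`) -/
def fld (S : ∀ i, Finset (𝔖.C i)) : ∀ i, 𝔖.C i → 𝔖.F
  | 0 => 𝔖.g0
  | i + 1 => 𝔖.asm i (𝔖.res (S i) (fld S i))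

/-- the actual (fresh) amplitudes of the tree with the masks `S` -/
def am (S : ∀ i, Finset (𝔖.C i)) : ∀ i, 𝔖.C i → ℝ
  | 0 => 𝔖.b 0
  | i + 1 => 𝔖.amp i (𝔖.res (S i) (𝔖.fld S i))

/-- propagation of a family `g` of height `i` through the masks `S (i+1), S (i+2), …`:  `prop S i g d` has height `i + d` and is not yet restricted to `S (i+d)` -/
def prop (S : ∀ i, Finset (𝔖.C i)) (i : ℕ) (g : 𝔖.C i → 𝔖.F) : ∀ d, 𝔖.C (i + d) → 𝔖.F
  | 0 => g
  | d + 1 => 𝔖.asm (i + d) (if d = 0 then prop S i g d else 𝔖.res (S (i + d)) (prop S i g d))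

/-- **the one-step facts** -/
structure Ok (p : TPar) : Prop where
  q_gt : 2 < p.q
  vol_pos : ∀ i, 0 < 𝔖.vol i
  w_nonneg : ∀ i T z, 0 ≤ 𝔖.w i T z
  wh_nonneg : ∀ T z, 0 ≤ 𝔖.wh T z
  wh_le : ∀ T z, 𝔖.wh T z ≤ 𝔖.w 𝔖.ℓ T z
  eh_nonneg : ∀ i T' T, 0 ≤ 𝔖.eh i T' T
  eh_le : ∀ i T' T, 𝔖.eh i T' T ≤ 𝔖.e i T' T
  b_nonneg : ∀ i T, 0 ≤ 𝔖.b i T
  one_le_L : 1 ≤ p.L
  one_le_L0 : 1 ≤ p.L0
  one_le_Γ : ∀ i, 1 ≤ p.Γ i
  one_le_Γr : ∀ i, 1 ≤ p.Γr i
  one_le_Γ2 : 1 ≤ p.Γ2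
  η_nonneg : 0 ≤ p.η
  one_le_ϖ0 : 1 ≤ p.ϖ0
  one_le_ϖ1 : 1 ≤ p.ϖ1
  /-- the packet class is a symmetric convex cone -/
  pk_nonneg : ∀ i T a f, 𝔖.Pk i T a f → 0 ≤ a
  pk_zero : ∀ i T, 𝔖.Pk i T 0 0
  pk_mono : ∀ i T a a' f, 𝔖.Pk i T a f → a ≤ a' → 𝔖.Pk i T a' f
  pk_add : ∀ i T a a' f f', 𝔖.Pk i T a f → 𝔖.Pk i T a' f' → 𝔖.Pk i T (a + a') (f + f')
  pk_neg : ∀ i T a f, 𝔖.Pk i T a f → 𝔖.Pk i T a (-f)
  /-- linearity -/
  ev_add : ∀ i T f f' z, 𝔖.ev i T (f + f') z = 𝔖.ev i T f z + 𝔖.ev i T f' z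
  asm_add : ∀ i g g', 𝔖.asm i (g + g') = 𝔖.asm i g + 𝔖.asm i g'
  amp_nonneg : ∀ i g T, 0 ≤ 𝔖.amp i g T
  amp_add : ∀ i g g' T, 𝔖.amp i (g + g') T ≤ 𝔖.amp i g T + 𝔖.amp i g' T
  amp_neg : ∀ i g T, 𝔖.amp i (-g) T = 𝔖.amp i g T
  /-- the leaves -/
  leaf : 𝔖.Adm 0 𝔖.g0 (𝔖.b 0)
  /-- closure of the class under assembly -/
  closure : ∀ i, i < 𝔖.ℓ → ∀ g a, 𝔖.Adm i g a → 𝔖.Adm (i + 1) (𝔖.asm i g) (𝔖.amp i g)
  /-- `p:hierarchy` at `p = q`, one step, ARBITRARY input family and ARBITRARY weights: `b'` on the children (positive where the amplitude does not vanish), `b` on the parents, dominating the sampled child squares -/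
  hier : ∀ i, i < 𝔖.ℓ → ∀ g a, 𝔖.Adm i g a → ∀ (b' : 𝔖.C i → ℝ) (b : 𝔖.C (i + 1) → ℝ), (∀ T', 0 ≤ b' T') → (∀ T', a T' ≠ 0 → 0 < b' T') → (∀ T, 0 ≤ b T) →
    (∀ T, ∑ T', b' T' ^ 2 * 𝔖.eh i T' T ≤ b T ^ 2) → 𝔖.bud p.q (i + 1) (𝔖.amp i g) b ≤ p.L * 𝔖.bud p.q i a b'
  /-- weighted Cauchy between two layers -/
  cauchy : ∀ i, i < 𝔖.ℓ → ∀ g a, 𝔖.Adm i g a → ∀ T, 𝔖.amp i g T ^ 2 ≤ p.Γ i * ∑ T', a T' ^ 2 * 𝔖.eh i T' T
  /-- integrated `L²` orthogonality, one step -/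
  l2 : ∀ i, i < 𝔖.ℓ → ∀ g a, 𝔖.Adm i g a → 𝔖.en (i + 1) (𝔖.amp i g) ≤ p.Γ2 * 𝔖.en i a
  /-- Cauchy at the root -/
  cauchy_root : ∀ i, i ≤ 𝔖.ℓ → ∀ g a, 𝔖.Adm i g a → ∀ z, ‖𝔖.Ev i g z‖ ^ 2 ≤ p.Γr i * 𝔖.sq i a z
  /-- the localisers of a layer are a partition of unity up to the part outside the window -/
  junk : ∀ i, i < 𝔖.ℓ → ∀ g a, 𝔖.Adm i g a → ∀ z, ‖𝔖.Ev i g z - 𝔖.Ev (i + 1) (𝔖.asm i g) z‖ ^ 2 ≤ p.η ^ 2 * 𝔖.sq i a z
  /-- the root count (power case: `p:weighted` in unit-supremum form; subpower case: `p:near-cauchy` across the gap + ratio classes), ARBITRARY weights -/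
  root : ∀ g a, 𝔖.Adm 𝔖.ℓ g a → ∀ b : 𝔖.C 𝔖.ℓ → ℝ, (∀ T, 0 ≤ b T) → (∀ T, a T ≠ 0 → 0 < b T) → ∀ (Y' : Finset 𝔖.Y) (θ ϖ ρ : ℝ), 0 < θ → 0 < ϖ → (∀ T, a T ≤ ρ * b T) →
    ρ ^ 2 * p.Γr 𝔖.ℓ * ϖ ≤ (p.Rm * θ) ^ 2 → (∀ z ∈ Y', θ ≤ ‖𝔖.Ev 𝔖.ℓ g z‖ ∧ ∑ T, b T ^ 2 * 𝔖.wh T z ≤ ϖ) →
    (Y'.card : ℝ) ≤ p.L0 * θ ^ (-p.q) * ϖ ^ (p.q / 2 - 1) * 𝔖.bud p.q 𝔖.ℓ a b
  /-- the reference weights dominate the sampled reference squares of the children -/
  dom : ∀ i, i < 𝔖.ℓ → ∀ T, ∑ T', 𝔖.b i T' ^ 2 * 𝔖.e i T' T ≤ 𝔖.b (i + 1) T ^ 2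
  /-- the reference square function is bounded at the witnesses -/
  sq_le : ∀ i, i ≤ 𝔖.ℓ → ∀ z, 𝔖.sq i (𝔖.b i) z ≤ p.ϖ0
  /-- the reference squares of the cells incident to a witness -/
  inc_le : ∀ i, i ≤ 𝔖.ℓ → ∀ z, (∑ T, if 𝔖.inc i z T then 𝔖.b i T ^ 2 else 0) ≤ p.ϖ1

/-- **a frozen selected tree** (`f:selection`): masks `S`, ratios `r`, retained witnesses `Yf`; `A` = root threshold, `K` = loss, `G` = occupancy cut-off -/
structure Frozen (q A K G : ℝ) (S : ∀ i, Finset (𝔖.C i)) (r : ℕ → ℝ) (Yf : Finset 𝔖.Y) : Prop where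
  r_pos : ∀ i, 0 < r i
  r_zero : r 0 = 1
  /-- `a_T ≍ r_i b_T` on the masks -/
  ratio : ∀ i, i ≤ 𝔖.ℓ → ∀ T ∈ S i, 0 < 𝔖.b i T ∧ r i * 𝔖.b i T ≤ 𝔖.am S i T ∧ 𝔖.am S i T ≤ 2 * r i * 𝔖.b i T
  /-- occupancy `≤ G M_i`, `M_i = |T| (r_i/A)^q` -/
  occ_le : ∀ i, i ≤ 𝔖.ℓ → ∀ T ∈ S i, (𝔖.occ i T : ℝ) ≤ G * (𝔖.vol i * (r i / A) ^ q)
  /-- (f:Qsat) -/
  bud_le : ∀ i, i ≤ 𝔖.ℓ → 𝔖.bud q i (𝔖.resA (S i) (𝔖.am S i)) (𝔖.b i) ≤ K * 𝔖.D
  le_bud : ∀ i, i ≤ 𝔖.ℓ → 𝔖.D ≤ K * 𝔖.bud q i (𝔖.resA (S i) (𝔖.am S i)) (𝔖.b i)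
  /-- the selected field of every stage is high on the retained witnesses -/
  high : ∀ i, i ≤ 𝔖.ℓ → ∀ z ∈ Yf, A ≤ K * ‖𝔖.Ev i (𝔖.res (S i) (𝔖.fld S i)) z‖
  card_le : (Fintype.card 𝔖.Y : ℝ) ≤ K * Yf.card

/-- the size hypotheses of the selection: `K` bounds the "subpower" NORM losses (NOT `ϖ1`, which depends on the enlargement in `inc`), `X` the "polynomial" sizes -/
structure SelHyp (p : TPar) (A K X : ℝ) : Prop where
  two_le_K : 2 ≤ K
  three_le_X : 3 ≤ X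
  one_le_A : 1 ≤ A
  L_le : p.L ≤ K
  L0_le : p.L0 ≤ K
  ϖ0_le : p.ϖ0 ≤ K
  Γ_le : ∀ i, i < 𝔖.ℓ → p.Γ i ≤ X
  Γr_le : ∀ i, i ≤ 𝔖.ℓ → p.Γr i ≤ X * A ^ 2
  /-- the leaf field is high at all the witnesses -/
  high : ∀ z, A ≤ ‖𝔖.Ev 0 𝔖.g0 z‖
  /-- (f:hbalance)/(f:subbalance), the half which is a hypothesis -/
  balance : 𝔖.D ≤ K * (Fintype.card 𝔖.Y * A ^ p.q)
  nonempty : Nonempty 𝔖.Y

end TSys

end

end Claimed.Agent.R257.FR2
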